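import Vale.Agent.Lib.P282.Fix

/-!
Ring-theoretic facts on algebras finite over affine space.
-/

set_option autoImplicit false
set_option linter.unusedSectionVars false

namespace Vale.Agent.P282

open IsLocalRing MvPolynomial
open scoped Pointwise

/-- the ideal of the origin -/
noncomputable abbrev org (n : ℕ) : Ideal (Pol n) := Ideal.span (Set.range (X : Fin n → Pol n))

theorem org_eq_ker (n : ℕ) : org n = RingHom.ker (constantCoeff : Pol n →+* ℂ) := by
  ext G
  rw [mem_idealOfVars_iff, RingHom.mem_ker]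

instance org_isMaximal (n : ℕ) : (org n).IsMaximal := by
  rw [org_eq_ker]
  exact RingHom.ker_isMaximal_of_surjective _ fun c => ⟨C c, constantCoeff_C _ _⟩

theorem le_height_org (n : ℕ) : (n : ℕ∞) ≤ (org n).height := by
  -- the chain of coordinate subspaces
  let φ : ℕ → (Pol n →ₐ[ℂ] Pol n) := fun i => aeval fun j : Fin n => if (j : ℕ) < i then 0 else X j
  have hφ : ∀ i j : ℕ, i ≤ j → ∀ F, φ j (φ i F) = φ j F := by
    intro i j hij F
    have : (φ j).comp (φ i) = φ j := by
      ext k
      simp only [φ, AlgHom.coe_comp, Function.comp_apply, aeval_X]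
      by_cases h : (k : ℕ) < i
      · rw [if_pos h, map_zero, if_pos (lt_of_lt_of_le h hij)]
      · rw [if_neg h, aeval_X]
    exact congrArg (fun f => DFunLike.coe f F) this
  let P : ℕ → PrimeSpectrum (Pol n) := fun i => ⟨RingHom.ker (φ i), RingHom.ker_isPrime _⟩
  have hle : ∀ i j : ℕ, i ≤ j → P i ≤ P j := by
    intro i j hij F hF
    have hF' : φ i F = 0 := hF
    show φ j F = 0
    rw [← hφ i j hij, hF', map_zero]
  have hlt : ∀ i : Fin n, P i < P (i + 1) := by
    intro i
    refine lt_of_le_of_ne (hle _ _ (Nat.le_succ _)) ?_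
    intro h
    have h1 : (X i : Pol n) ∈ (P (i + 1)).asIdeal := by
      show φ (i + 1) (X i) = 0
      simp [φ]
    rw [← h] at h1
    have h2 : φ i (X i) = 0 := h1
    simp [φ, X_ne_zero] at h2
  let s : LTSeries (PrimeSpectrum (Pol n)) :=
    { length := n
      toFun := fun i => P i
      step := fun i => by
        have := hlt i
        simpa using this }
  have h1 : s.last ≤ (⟨org n, inferInstance⟩ : PrimeSpectrum (Pol n)) := by
    intro F hF
    have hF' : φ n F = 0 := hF
    show F ∈ org n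
    rw [mem_idealOfVars_iff]
    have h3 : constantCoeff (φ n F) = constantCoeff F := by
      have : (constantCoeff (σ := Fin n) (R := ℂ)).comp (φ n : Pol n →+* Pol n) =
          constantCoeff := by
        apply MvPolynomial.ringHom_ext
        · intro r; simp [φ]
        · intro i; simp [φ]
      exact congrArg (fun f => DFunLike.coe f F) this
    rw [← h3, hF', map_zero]
  have h2 := Order.length_le_height h1
  rw [← PrimeSpectrum.height_eq_orderHeight] at h2
  exact h2

section

variable {n : ℕ} {A : Type} [CommRing A] [IsDomain A] [Algebra ℂ A] [Algebra (Pol n) A]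
  [IsScalarTower ℂ (Pol n) A] [Module.Finite (Pol n) A] [FaithfulSMul (Pol n) A]

theorem comap_eq_org (p : Ideal A) [hp : p.IsPrime] (hz : ∀ j, algebraMap (Pol n) A (X j) ∈ p) :
    p.comap (algebraMap (Pol n) A) = org n := by
  symm
  apply (org_isMaximal n).eq_of_le (Ideal.IsPrime.ne_top inferInstance)
  rw [Ideal.span_le]
  rintro _ ⟨j, rfl⟩
  exact hz j

theorem isMaximal_of_mem (p : Ideal A) [hp : p.IsPrime]
    (hz : ∀ j, algebraMap (Pol n) A (X j) ∈ p) : p.IsMaximal := by
  apply Ideal.isMaximal_of_isIntegral_of_isMaximal_comap (R := Pol n)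
  rw [comap_eq_org p hz]
  exact org_isMaximal n

theorem map_org_eq : (org n).map (algebraMap (Pol n) A) =
    Ideal.span (Set.range fun j => algebraMap (Pol n) A (X j)) := by
  rw [Ideal.map_span, ← Set.range_comp]
  rfl

/-- an ideal not contained in any maximal ideal over the origin contains a polynomial which does
not vanish at the origin -/
theorem exists_poly_mem (W : Ideal A)
    (hW : ∀ 𝔫 : Ideal A, 𝔫.IsMaximal → (∀ j, algebraMap (Pol n) A (X j) ∈ 𝔫) → ¬ W ≤ 𝔫) :
    ∃ F : Pol n, constantCoeff F = 1 ∧ algebraMap (Pol n) A F ∈ W := by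
  have h1 : W ⊔ (org n).map (algebraMap (Pol n) A) = ⊤ := by
    by_contra hcon
    obtain ⟨𝔫, h𝔫, hle⟩ := Ideal.exists_le_maximal _ hcon
    refine hW 𝔫 h𝔫 (fun j => ?_) (le_sup_left.trans hle)
    apply hle
    apply Ideal.mem_sup_right
    exact Ideal.mem_map_of_mem _ (Ideal.subset_span ⟨j, rfl⟩)
  have h2 : (⊤ : Submodule (Pol n) A) ≤ W.restrictScalars (Pol n) ⊔ (org n) • ⊤ := by
    rw [Ideal.smul_top_eq_map]
    intro a _
    have h3 : a ∈ W ⊔ (org n).map (algebraMap (Pol n) A) := by rw [h1]; trivial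
    obtain ⟨b, hb, c, hc, rfl⟩ := Submodule.mem_sup.mp h3
    exact Submodule.add_mem_sup hb hc
  obtain ⟨r, hr1, hr2⟩ := Submodule.exists_sub_one_mem_and_smul_le_of_fg_of_le_sup
    (N' := (⊤ : Submodule (Pol n) A)) (Module.Finite.fg_top) le_top h2
  refine ⟨r, ?_, ?_⟩
  · rw [mem_idealOfVars_iff, map_sub, map_one, sub_eq_zero] at hr1
    exact hr1
  · have h3 : r • (1 : A) ∈ r • (⊤ : Submodule (Pol n) A) :=
      Submodule.smul_mem_pointwise_smul _ _ _ trivial
    have h4 := hr2 h3
    rw [Algebra.smul_def, mul_one] at h4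
    exact h4

theorem ringKrullDim_le : ringKrullDim A ≤ n := by
  have h1 : ringKrullDim A ≤ ringKrullDim (Pol n) := by
    refine Order.krullDim_le_of_strictMono
      (PrimeSpectrum.comap (algebraMap (Pol n) A)) ?_
    intro p q hpq
    obtain ⟨hle, x, hxq, hxp⟩ := SetLike.lt_iff_le_and_exists.mp
      (show p.asIdeal < q.asIdeal from hpq)
    exact Ideal.comap_lt_comap_of_integral_mem_sdiff hle ⟨hxq, hxp⟩
      (Algebra.IsIntegral.isIntegral x)
  have h2 := MvPolynomial.ringKrullDim_of_isNoetherianRing (R := ℂ) (ι := Fin n)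
  rw [h2, ringKrullDim_eq_zero_of_field] at h1
  simpa using h1

theorem le_height (𝔫 : Ideal A) [h𝔫 : 𝔫.IsMaximal] (hz : ∀ j, algebraMap (Pol n) A (X j) ∈ 𝔫) :
    (n : ℕ∞) ≤ 𝔫.height := by
  have hN : IsNoetherianRing A := IsNoetherianRing.of_finite (Pol n) A
  have hl : 𝔫.LiesOver (org n) := ⟨(comap_eq_org 𝔫 hz).symm⟩
  rw [Ideal.height_eq_height_add_of_liesOver_of_hasGoingDown (org n) 𝔫]
  exact (le_height_org n).trans le_self_add

theorem ringKrullDim_localization (𝔫 : Ideal A) [h𝔫 : 𝔫.IsMaximal]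
    (hz : ∀ j, algebraMap (Pol n) A (X j) ∈ 𝔫) :
    ringKrullDim (Localization.AtPrime 𝔫) = n := by
  rw [IsLocalization.AtPrime.ringKrullDim_eq_height 𝔫 (Localization.AtPrime 𝔫)]
  apply le_antisymm
  · exact (Ideal.height_le_ringKrullDim_of_ne_top h𝔫.ne_top).trans ringKrullDim_le
  · exact_mod_cast le_height 𝔫 hz

theorem radical_localization (𝔫 : Ideal A) [h𝔫 : 𝔫.IsMaximal]
    (hz : ∀ j, algebraMap (Pol n) A (X j) ∈ 𝔫) (I : Ideal A)
    (hI : ∀ j, algebraMap (Pol n) A (X j) ∈ I) (hI' : I ≤ 𝔫) :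
    (I.map (algebraMap A (Localization.AtPrime 𝔫))).radical =
      maximalIdeal (Localization.AtPrime 𝔫) := by
  apply le_antisymm
  · rw [(Ideal.IsPrime.radical_le_iff (inferInstance : (maximalIdeal _).IsPrime)),
      ← Localization.AtPrime.map_eq_maximalIdeal]
    exact Ideal.map_mono hI'
  · rw [Ideal.radical_eq_sInf]
    apply le_sInf
    rintro q ⟨hq1, hq2⟩
    have h1 : ∀ j, algebraMap (Pol n) A (X j) ∈ q.comap (algebraMap A (Localization.AtPrime 𝔫)) :=
      fun j => hq1 (Ideal.mem_map_of_mem _ (hI j))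
    have h2 := isMaximal_of_mem (q.comap (algebraMap A (Localization.AtPrime 𝔫))) h1
    have h3 : q.comap (algebraMap A (Localization.AtPrime 𝔫)) ≤ 𝔫 := by
      have := (IsLocalRing.le_maximalIdeal hq2.ne_top)
      have h4 := Ideal.comap_mono (f := algebraMap A (Localization.AtPrime 𝔫)) this
      exact h4.trans (IsLocalization.AtPrime.under_maximalIdeal (Localization.AtPrime 𝔫) 𝔫).le
    have h4 := h2.eq_of_le h𝔫.ne_top h3
    rw [← Localization.AtPrime.map_eq_maximalIdeal]
    exact (Ideal.map_mono h4.ge).trans Ideal.map_comap_le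

theorem ofList_take (R : Type) [CommRing R] (f : Fin n → R) (i : ℕ) :
    Ideal.ofList ((List.ofFn f).take i) = Ideal.span (f '' {j | (j : ℕ) < i}) := by
  unfold Ideal.ofList
  congr 1
  ext r
  simp only [Set.mem_setOf_eq, Set.mem_image]
  rw [List.mem_take_iff_getElem]
  constructor
  · rintro ⟨k, hk, rfl⟩
    simp only [List.length_ofFn, lt_min_iff] at hk
    exact ⟨⟨k, hk.2⟩, hk.1, by simp⟩
  · rintro ⟨j, hj, rfl⟩
    exact ⟨j, by simp [hj], by simp⟩

/-- the coordinates form a regular sequence near the origin -/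
theorem regular_of_cohenMacaulay
    (hCM : ∀ (y : Ideal A) [y.IsMaximal], IsCohenMacaulayLocal (Localization.AtPrime y))
    (i : Fin n) (a : A)
    (ha : algebraMap (Pol n) A (X i) * a ∈
      Ideal.span ((fun j => algebraMap (Pol n) A (X j)) '' {j : Fin n | (j : ℕ) < i})) :
    ∃ F : Pol n, constantCoeff F = 1 ∧ algebraMap (Pol n) A F * a ∈
      Ideal.span ((fun j => algebraMap (Pol n) A (X j)) '' {j : Fin n | (j : ℕ) < i}) := by
  set z : Fin n → A := fun j => algebraMap (Pol n) A (X j) with hz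
  set J := Ideal.span (z '' {j : Fin n | (j : ℕ) < i}) with hJ
  obtain ⟨F, hF1, hF2⟩ := exists_poly_mem (J.colon {a}) (n := n) (by
    intro 𝔫 h𝔫 hz𝔫 hle
    let R := Localization.AtPrime 𝔫
    let f : Fin n → R := fun j => algebraMap A R (z j)
    have h1 : ((List.ofFn f).length : WithBot ℕ∞) = ringKrullDim R := by
      rw [ringKrullDim_localization 𝔫 hz𝔫]; simp
    have h2 : (Ideal.ofList (List.ofFn f)).radical = maximalIdeal R := by
      have h3 : Ideal.ofList (List.ofFn f) = (Ideal.span (Set.range z)).map (algebraMap A R) := by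
        have h4 := ofList_take R f n
        rw [List.take_of_length_le (by simp)] at h4
        rw [h4, Ideal.map_span, ← Set.range_comp]
        congr 1
        ext r
        simp [f]
      rw [h3]
      refine radical_localization 𝔫 hz𝔫 (Ideal.span (Set.range z)) (fun j =>
        Ideal.subset_span ⟨j, rfl⟩) ?_
      rw [Ideal.span_le]
      rintro _ ⟨j, rfl⟩
      exact hz𝔫 j
    have h3 := (hCM 𝔫 (List.ofFn f) h1 h2).toIsWeaklyRegular.regular_mod_prev i (by simp)
    rw [isSMulRegular_quotient_iff_mem_of_smul_mem, List.getElem_ofFn, ofList_take,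
      smul_eq_mul, Ideal.mul_top] at h3
    have h4 : Ideal.span (f '' {j | (j : ℕ) < i}) = J.map (algebraMap A R) := by
      rw [hJ, Ideal.map_span, ← Set.image_comp]
      rfl
    rw [h4] at h3
    have h5 := h3 (algebraMap A R a) (by
      rw [smul_eq_mul, ← map_mul]
      exact Ideal.mem_map_of_mem _ ha)
    rw [IsLocalization.algebraMap_mem_map_algebraMap_iff 𝔫.primeCompl] at h5
    obtain ⟨s, hs, hsa⟩ := h5
    apply hs
    apply hle
    rw [Submodule.mem_colon_singleton]
    exact hsa)
  refine ⟨F, hF1, ?_⟩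
  rw [Submodule.mem_colon_singleton] at hF2
  exact hF2

end

end Vale.Agent.P282
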