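import Vale.Agent.Lib.P282.Val

/-!
Alternating maps and lattices of top forms.
-/

set_option autoImplicit false

namespace Vale.Agent.P282

theorem alt_matrix {R M N ι : Type*} [CommRing R] [AddCommGroup M] [Module R M] [AddCommGroup N]
    [Module R N] [Fintype ι] [DecidableEq ι] (f : M [⋀^ι]→ₗ[R] N) (A : Matrix ι ι R) (v : ι → M) :
    f (fun i => ∑ j, A i j • v j) = A.det • f v := by
  have h1 : f (fun i => ∑ j, A i j • v j) = ∑ r : ι → ι, f (fun i => A i (r i) • v (r i)) :=
    f.toMultilinearMap.map_sum (fun i j => A i j • v j)
  rw [h1]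
  have h2 : ∀ r : ι → ι, f (fun i => A i (r i) • v (r i)) = (∏ i, A i (r i)) • f (v ∘ r) := fun r =>
    f.toMultilinearMap.map_smul_univ (fun i => A i (r i)) (fun i => v (r i))
  simp_rw [h2]
  have h3 : ∑ r : ι → ι, (∏ i, A i (r i)) • f (v ∘ r) =
      ∑ r : ι → ι with Function.Bijective r, (∏ i, A i (r i)) • f (v ∘ r) := by
    symm
    apply Finset.sum_subset (Finset.filter_subset _ _)
    intro r _ hr
    simp only [Finset.mem_filter, Finset.mem_univ, true_and] at hr
    rw [← Finite.injective_iff_bijective] at hr
    rw [Function.not_injective_iff] at hr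
    obtain ⟨i, j, hij, hne⟩ := hr
    rw [f.map_eq_zero_of_eq (v ∘ r) (i := i) (j := j) (by simp [hij]) hne, smul_zero]
  rw [h3]
  have h4 : ∑ r : ι → ι with Function.Bijective r, (∏ i, A i (r i)) • f (v ∘ r) =
      ∑ σ : Equiv.Perm ι, (∏ i, A i (σ i)) • f (v ∘ σ) := by
    symm
    apply Finset.sum_bij (fun (σ : Equiv.Perm ι) _ => (σ : ι → ι))
    · intro σ _; simp [σ.bijective]
    · intro σ _ τ _ h; exact Equiv.coe_fn_injective h
    · intro r hr
      simp only [Finset.mem_filter, Finset.mem_univ, true_and] at hr
      exact ⟨Equiv.ofBijective r hr, Finset.mem_univ _, rfl⟩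
    · intro σ _; rfl
  rw [h4]
  simp_rw [f.map_perm]
  rw [← Matrix.det_transpose, Matrix.det_apply, Finset.sum_smul]
  refine Finset.sum_congr rfl fun σ _ => ?_
  simp only [Matrix.transpose_apply]
  rw [smul_comm, smul_assoc]

variable {L : Type} [Field L] [Algebra ℂ L]

/-- the module of differentials regular along `O`, inside `Ω[L⁄ℂ]`. -/
noncomputable def diffLattice (O : Subalgebra ℂ L) : Submodule O Ω[L⁄ℂ] :=
  Submodule.span O {η | ∃ a : O, η = KaehlerDifferential.D ℂ L (a : L)}

theorem D_mem_diffLattice (O : Subalgebra ℂ L) {a : L} (ha : a ∈ O) :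
    KaehlerDifferential.D ℂ L a ∈ diffLattice O :=
  Submodule.subset_span ⟨⟨a, ha⟩, rfl⟩

/-- The form `η₁ ∧ ⋯ ∧ ηₙ`, as a function of `n` derivations. -/
noncomputable def wedge (L : Type) [Field L] [Algebra ℂ L] (n : ℕ) :
    Ω[L⁄ℂ] [⋀^Fin n]→ₗ[L] RationalForm n L :=
  AlternatingMap.pi fun D : Fin n → Derivation ℂ L L =>
    (Matrix.detRowAlternating (R := L) (n := Fin n)).compLinearMap
      (LinearMap.pi fun i => (D i).liftKaehlerDifferential)

theorem wedge_apply {n : ℕ} (η : Fin n → Ω[L⁄ℂ]) (D : Fin n → Derivation ℂ L L) :
    wedge L n η D = Matrix.det (Matrix.of fun j i => (D i).liftKaehlerDifferential (η j)) := rfl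

theorem wedge_D {n : ℕ} (a : Fin n → L) :
    wedge L n (fun i => KaehlerDifferential.D ℂ L (a i)) = dwedge a := by
  funext D
  rw [wedge_apply]
  unfold dwedge
  simp only [Derivation.liftKaehlerDifferential_comp_D]

/-- wedge products of regular differentials are regular top forms -/
theorem ιMulti_mem_regularForms (n : ℕ) (O : Subalgebra ℂ L) (η : Fin n → Ω[L⁄ℂ])
    (hη : ∀ i, η i ∈ diffLattice O) :
    wedge L n η ∈ regularForms n O := by
  classical
  -- induct on the set of coordinates which are not yet exact
  suffices H : ∀ (s : Finset (Fin n)) (η : Fin n → Ω[L⁄ℂ]), (∀ i, η i ∈ diffLattice O) →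
      (∀ i ∉ s, ∃ a : O, η i = KaehlerDifferential.D ℂ L (a : L)) →
      wedge L n η ∈ regularForms n O from
    H Finset.univ η hη fun i hi => absurd (Finset.mem_univ i) hi
  intro s
  induction s using Finset.induction_on with
  | empty =>
    intro η _ h
    choose a ha using fun i => h i (Finset.notMem_empty i)
    refine Submodule.subset_span ⟨a, ?_⟩
    rw [← wedge_D]
    congr 1
    funext i
    exact ha i
  | insert j s hj ih =>
    intro η hη h
    have key : ∀ x ∈ diffLattice O, wedge L n (Function.update η j x) ∈
        regularForms n O := by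
      intro x hx
      induction hx using Submodule.span_induction with
      | mem x hx =>
        apply ih
        · intro i
          by_cases hij : i = j
          · subst hij
            rw [Function.update_self]
            obtain ⟨a, rfl⟩ := hx
            exact D_mem_diffLattice O a.2
          · rw [Function.update_of_ne hij]; exact hη i
        · intro i hi
          by_cases hij : i = j
          · subst hij
            rw [Function.update_self]
            exact hx
          · rw [Function.update_of_ne hij]
            exact h i (by simp [hij, hi])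
      | zero =>
        rw [AlternatingMap.map_update_zero]; exact Submodule.zero_mem _
      | add x y _ _ hx hy =>
        rw [AlternatingMap.map_update_add]; exact Submodule.add_mem _ hx hy
      | smul c x _ hx =>
        have : (c • x : Ω[L⁄ℂ]) = ((c : L) • x) := rfl
        rw [this, AlternatingMap.map_update_smul]
        exact Submodule.smul_mem _ c hx
    have := key (η j) (hη j)
    rwa [Function.update_eq_self] at this

end Vale.Agent.P282
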