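import Mathlib

set_option autoImplicit false

namespace Vale.Agent.P282

/-- Length bound for Artinian Gorenstein quotients. `Φ` induces a perfect pairing on `A ⧸ I`.
The generators `t` are assumed to lie in `x` (this cannot be dropped). -/
theorem finite_and_finrank_le {A : Type} [CommRing A] [Algebra ℂ A] (x I : Ideal A)
    (hres : ∀ a : A, ∃ c : ℂ, a - algebraMap ℂ A c ∈ x) (hI : I ≤ x) (s : ℕ)
    (hs1 : 1 ≤ s) (hs : x ^ (s + 1) ≤ I) (Φ : A →ₗ[ℂ] ℂ) (hΦ0 : ∀ a ∈ I, Φ a = 0)
    (hΦ : ∀ a, (∀ b, Φ (a * b) = 0) → a ∈ I) (c : ℕ) (t : Fin c → A) (htx : ∀ i, t i ∈ x)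
    (ht : x ≤ Ideal.span (Set.range t) ⊔ I ⊔ x ^ 2) :
    Module.Finite ℂ (A ⧸ I) ∧ Module.finrank ℂ (A ⧸ I) ≤ 1 + (c + s - 1).choose c := by
  classical
  -- the extended family
  let t' : Option (Fin c) → A := fun o => o.elim 1 t
  let mon : (n : ℕ) → Sym (Option (Fin c)) n → A := fun n m => ((m : Multiset (Option (Fin c))).map t').prod
  let W : ℕ → Submodule ℂ A := fun n => Submodule.span ℂ (Set.range (mon n))
  have hmul : ∀ n (o : Option (Fin c)), ∀ w ∈ W n, t' o * w ∈ W (n + 1) := by
    intro n o w hw
    induction hw using Submodule.span_induction with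
    | mem y hy =>
      obtain ⟨m, rfl⟩ := hy
      apply Submodule.subset_span
      refine ⟨o ::ₛ m, ?_⟩
      simp only [mon]
      have e : ((o ::ₛ m : Sym (Option (Fin c)) (n + 1)) : Multiset (Option (Fin c)))
          = o ::ₘ (m : Multiset (Option (Fin c))) := rfl
      rw [e, Multiset.map_cons, Multiset.prod_cons]
    | zero => simp
    | add y z _ _ hy hz => rw [mul_add]; exact Submodule.add_mem _ hy hz
    | smul r y _ hy => rw [mul_smul_comm]; exact Submodule.smul_mem _ _ hy
  have hWmono : ∀ n, W n ≤ W (n + 1) := by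
    intro n w hw
    have := hmul n none w hw
    simpa [t'] using this
  have hone : (1 : A) ∈ W 0 := by
    apply Submodule.subset_span
    refine ⟨Sym.nil, ?_⟩
    simp only [mon]
    have e : ((Sym.nil : Sym (Option (Fin c)) 0) : Multiset (Option (Fin c))) = 0 := rfl
    rw [e, Multiset.map_zero, Multiset.prod_zero]
  -- key inclusion
  let R : Ideal A → Submodule ℂ A := fun J => J.restrictScalars ℂ
  have hRmem : ∀ (J : Ideal A) (a : A), a ∈ R J ↔ a ∈ J := fun J a => Iff.rfl
  have hQ : ∀ k : ℕ, R (x ^ k) ≤ W k ⊔ R I ⊔ R (x ^ (k + 1)) := by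
    intro k
    induction k with
    | zero =>
      intro a _
      obtain ⟨l, hl⟩ := hres a
      have h1 : algebraMap ℂ A l ∈ W 0 := by
        rw [Algebra.algebraMap_eq_smul_one]
        exact Submodule.smul_mem _ _ hone
      have h2 : a - algebraMap ℂ A l ∈ R (x ^ (0 + 1)) := by
        rw [hRmem, zero_add, pow_one]; exact hl
      have : a = algebraMap ℂ A l + (a - algebraMap ℂ A l) := by ring
      rw [this]
      exact Submodule.add_mem _ (Submodule.mem_sup_left (Submodule.mem_sup_left h1))
        (Submodule.mem_sup_right h2)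
    | succ k ih =>
      -- ideal level
      have hid : x ^ (k + 1) ≤ Ideal.span (Set.range t) * x ^ k ⊔ I ⊔ x ^ (k + 2) := by
        calc x ^ (k + 1) = x * x ^ k := by rw [pow_succ']
          _ ≤ (Ideal.span (Set.range t) ⊔ I ⊔ x ^ 2) * x ^ k := Ideal.mul_mono_left ht
          _ = Ideal.span (Set.range t) * x ^ k ⊔ I * x ^ k ⊔ x ^ 2 * x ^ k := by
              rw [Ideal.sup_mul, Ideal.sup_mul]
          _ ≤ _ := by
              refine sup_le_sup (sup_le_sup le_rfl Ideal.mul_le_left) ?_
              rw [← pow_add, add_comm 2 k]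
      -- the products
      have hprod : ∀ z ∈ x ^ k, ∀ i, ∀ a : A,
          a * (t i * z) ∈ W (k + 1) ⊔ R I ⊔ R (x ^ (k + 2)) := by
        intro z hz i a
        obtain ⟨l, hl⟩ := hres a
        have e : a * (t i * z) = l • (t i * z) + (a - algebraMap ℂ A l) * (t i * z) := by
          rw [Algebra.smul_def]; ring
        rw [e]
        apply Submodule.add_mem
        · apply Submodule.smul_mem
          obtain ⟨mi, hmi, w', hw', rfl⟩ := Submodule.mem_sup.mp (ih hz)
          obtain ⟨m, hm, i', hi', rfl⟩ := Submodule.mem_sup.mp hmi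
          rw [mul_add, mul_add]
          apply Submodule.add_mem
          · apply Submodule.mem_sup_left
            apply Submodule.add_mem
            · exact Submodule.mem_sup_left (hmul k (some i) m hm)
            · exact Submodule.mem_sup_right (I.mul_mem_left _ hi')
          · apply Submodule.mem_sup_right
            rw [hRmem, show k + 2 = (k + 1) + 1 by ring, pow_succ']
            exact Ideal.mul_mem_mul (htx i) hw'
        · apply Submodule.mem_sup_right
          rw [hRmem, show k + 2 = (k + 1) + 1 by ring, pow_succ']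
          apply Ideal.mul_mem_mul hl
          rw [pow_succ']
          exact Ideal.mul_mem_mul (htx i) hz
      have hTx : R (Ideal.span (Set.range t) * x ^ k) ≤
          W (k + 1) ⊔ R I ⊔ R (x ^ (k + 2)) := by
        intro y hy
        rw [hRmem] at hy
        induction hy using Submodule.mul_induction_on' with
        | mem_mul_mem u hu z hz =>
          obtain ⟨a, rfl⟩ := (Ideal.mem_span_range_iff_exists_fun).mp hu
          rw [Finset.sum_mul]
          apply Submodule.sum_mem
          intro i _
          rw [mul_assoc]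
          exact hprod z hz i (a i)
        | add u _ v _ hu hv => exact Submodule.add_mem _ hu hv
      intro y hy
      have hy' := hid hy
      obtain ⟨u, hu, w, hw, rfl⟩ := Submodule.mem_sup.mp hy'
      obtain ⟨p, hp, q, hq, rfl⟩ := Submodule.mem_sup.mp hu
      apply Submodule.add_mem
      · apply Submodule.add_mem
        · exact hTx hp
        · exact Submodule.mem_sup_left (Submodule.mem_sup_right hq)
      · exact Submodule.mem_sup_right hw
  have hP : ∀ k : ℕ, (⊤ : Submodule ℂ A) ≤ W k ⊔ R I ⊔ R (x ^ (k + 1)) := by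
    intro k
    induction k with
    | zero =>
      intro a _
      apply hQ 0
      rw [hRmem, pow_zero]
      simp
    | succ k ih =>
      refine ih.trans ?_
      refine sup_le (sup_le ?_ ?_) (hQ (k + 1))
      · exact (hWmono k).trans (le_sup_of_le_left le_sup_left)
      · exact le_sup_of_le_left le_sup_right
  -- socle
  have hsoc : ∃ a0 : A, R (x ^ s) ≤ Submodule.span ℂ {a0} ⊔ R I := by
    have hker : ∀ a ∈ x ^ s, Φ a = 0 → a ∈ I := by
      intro a ha h0
      apply hΦ
      intro b
      obtain ⟨l, hl⟩ := hres b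
      have e : a * b = l • a + (b - algebraMap ℂ A l) * a := by
        rw [Algebra.smul_def]; ring
      rw [e, map_add, map_smul, h0, smul_zero, zero_add]
      apply hΦ0
      apply hs
      rw [pow_succ']
      exact Ideal.mul_mem_mul hl ha
    by_cases hex : ∃ a0 ∈ x ^ s, Φ a0 ≠ 0
    · obtain ⟨a0, ha0, hne⟩ := hex
      refine ⟨a0, fun a ha => ?_⟩
      rw [hRmem] at ha
      have h1 : a - (Φ a / Φ a0) • a0 ∈ I := by
        apply hker
        · apply Ideal.sub_mem _ ha
          rw [Algebra.smul_def]
          exact Ideal.mul_mem_left _ _ ha0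
        · rw [map_sub, map_smul, smul_eq_mul, div_mul_cancel₀ _ hne, sub_self]
      have e : a = (Φ a / Φ a0) • a0 + (a - (Φ a / Φ a0) • a0) := by abel
      rw [e]
      exact Submodule.add_mem _ (Submodule.mem_sup_left
        (Submodule.smul_mem _ _ (Submodule.mem_span_singleton_self a0)))
        (Submodule.mem_sup_right h1)
    · push Not at hex
      exact ⟨0, fun a ha => Submodule.mem_sup_right (hker a ha (hex a ha))⟩
  obtain ⟨a0, ha0⟩ := hsoc
  obtain ⟨s', rfl⟩ : ∃ s', s = s' + 1 := ⟨s - 1, by omega⟩
  let f : Option (Sym (Option (Fin c)) s') → A ⧸ I :=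
    fun o => Ideal.Quotient.mk I (o.elim a0 (mon s'))
  have hspan : Submodule.span ℂ (Set.range f) = ⊤ := by
    rw [eq_top_iff]
    intro y _
    obtain ⟨a, rfl⟩ := Ideal.Quotient.mk_surjective y
    have hW : ∀ w ∈ W s', Ideal.Quotient.mk I w ∈ Submodule.span ℂ (Set.range f) := by
      intro w hw
      induction hw using Submodule.span_induction with
      | mem y hy =>
        obtain ⟨m, rfl⟩ := hy
        exact Submodule.subset_span ⟨some m, rfl⟩
      | zero => rw [map_zero]; exact Submodule.zero_mem _
      | add y z _ _ hy hz => rw [map_add]; exact Submodule.add_mem _ hy hz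
      | smul r y _ hy =>
        have : Ideal.Quotient.mk I (r • y) = r • Ideal.Quotient.mk I y := rfl
        rw [this]
        exact Submodule.smul_mem _ _ hy
    have hIz : ∀ w ∈ I, Ideal.Quotient.mk I w ∈ Submodule.span ℂ (Set.range f) := by
      intro w hw
      rw [Ideal.Quotient.eq_zero_iff_mem.mpr hw]
      exact Submodule.zero_mem _
    have ha := hP s' (Submodule.mem_top : a ∈ (⊤ : Submodule ℂ A))
    obtain ⟨u, hu, w, hw, rfl⟩ := Submodule.mem_sup.mp ha
    obtain ⟨p, hp, q, hq, rfl⟩ := Submodule.mem_sup.mp hu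
    obtain ⟨p', hp', q', hq', rfl⟩ := Submodule.mem_sup.mp (ha0 hw)
    obtain ⟨r, rfl⟩ := Submodule.mem_span_singleton.mp hp'
    rw [map_add, map_add, map_add]
    refine Submodule.add_mem _ (Submodule.add_mem _ (hW p hp) (hIz q hq))
      (Submodule.add_mem _ ?_ (hIz q' hq'))
    have : Ideal.Quotient.mk I (r • a0) = r • Ideal.Quotient.mk I a0 := rfl
    rw [this]
    exact Submodule.smul_mem _ _ (Submodule.subset_span ⟨none, rfl⟩)
  have hfin : Module.Finite ℂ (A ⧸ I) :=
    ⟨⟨Finset.univ.image f, by rw [Finset.coe_image, Finset.coe_univ, Set.image_univ]; exact hspan⟩⟩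
  refine ⟨hfin, ?_⟩
  have h1 := finrank_range_le_card (R := ℂ) f
  rw [Set.finrank, hspan, finrank_top, Fintype.card_option, Sym.card_sym_eq_choose,
    Fintype.card_option, Fintype.card_fin] at h1
  have e1 : c + 1 + s' - 1 = c + s' := by omega
  have e2 : c + (s' + 1) - 1 = c + s' := by omega
  rw [e1, Nat.choose_symm_add.symm] at h1
  rw [e2]
  omega

end Vale.Agent.P282
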