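import Vale.Agent.Lib.P282.Alt

/-!
The lattice of regular top forms at a prime divisor, computed from coordinates downstairs.
-/

set_option autoImplicit false

namespace Vale.Agent.P282

open Polynomial

variable {L : Type} [Field L] [Algebra ℂ L]

theorem diffLattice_fg (E : PrimeDivisorOver L) : (diffLattice E.ring).FG := by
  have h1 : Module.Finite E.ring (Ω[E.ring⁄ℂ]) := inferInstance
  -- the natural map `Ω[E.ring⁄ℂ] → Ω[L⁄ℂ]`
  let f : Ω[E.ring⁄ℂ] →ₗ[E.ring] Ω[L⁄ℂ] := KaehlerDifferential.map ℂ ℂ E.ring L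
  have hf : ∀ a : E.ring, f (KaehlerDifferential.D ℂ E.ring a) = KaehlerDifferential.D ℂ L (a : L) :=
    fun a => KaehlerDifferential.map_D ℂ ℂ E.ring L a
  have h2 : diffLattice E.ring = LinearMap.range f := by
    apply le_antisymm
    · unfold diffLattice
      rw [Submodule.span_le]
      rintro _ ⟨a, rfl⟩
      exact ⟨KaehlerDifferential.D ℂ E.ring a, hf a⟩
    · rintro _ ⟨x, rfl⟩
      have hx : x ∈ Submodule.span E.ring (Set.range (KaehlerDifferential.D ℂ E.ring)) := by
        rw [KaehlerDifferential.span_range_derivation]; trivial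
      induction hx using Submodule.span_induction with
      | mem x hx =>
        obtain ⟨a, rfl⟩ := hx
        rw [hf]
        exact D_mem_diffLattice _ a.2
      | zero => rw [map_zero]; exact Submodule.zero_mem _
      | add x y _ _ hx hy => rw [map_add]; exact Submodule.add_mem _ hx hy
      | smul c x _ hx => rw [map_smul]; exact Submodule.smul_mem _ c hx
  rw [h2]
  exact Module.Finite.iff_fg.mp (Module.Finite.range f)

/-- Nakayama for the lattice of differentials. -/
theorem diffLattice_le_of_le (E : PrimeDivisorOver L) (N : Submodule E.ring Ω[L⁄ℂ])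
    (h : ∀ b : E.ring, ∃ (x y : Ω[L⁄ℂ]), x ∈ N ∧ y ∈ diffLattice E.ring ∧
      KaehlerDifferential.D ℂ L (b : L) = x + E.pi • y) :
    diffLattice E.ring ≤ N := by
  apply Submodule.le_of_le_smul_of_le_jacobson_bot (I := IsLocalRing.maximalIdeal E.ring)
    (diffLattice_fg E) (IsLocalRing.maximalIdeal_le_jacobson _)
  unfold diffLattice
  rw [Submodule.span_le]
  rintro _ ⟨b, rfl⟩
  obtain ⟨x, y, hx, hy, hxy⟩ := h b
  rw [hxy]
  refine Submodule.add_mem_sup hx ?_
  have : E.pi • y = E.unif • y := rfl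
  rw [this]
  refine Submodule.smul_mem_smul ?_ hy
  rw [(IsDiscreteValuationRing.irreducible_iff_uniformizer _).1 E.unif_irreducible]
  exact Ideal.mem_span_singleton_self _

theorem coe_smul_eq (E : PrimeDivisorOver L) (c : E.ring) (x : Ω[L⁄ℂ]) : c • x = (c : L) • x := rfl

theorem coe_smul_form (E : PrimeDivisorOver L) {n : ℕ} (c : E.ring) (x : RationalForm n L) :
    c • x = (c : L) • x := rfl

theorem smul_mem_of_mem {E : PrimeDivisorOver L} {N : Submodule E.ring Ω[L⁄ℂ]} {x : Ω[L⁄ℂ]}
    (hx : x ∈ N) {c : L} (hc : c ∈ E.ring) : c • x ∈ N :=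
  N.smul_mem ⟨c, hc⟩ hx

/-- differential of a polynomial expression -/
theorem D_eval {O₀ : Subalgebra ℂ L} (G : Polynomial O₀) (b : L) {M : AddSubmonoid Ω[L⁄ℂ]}
    (hM : ∀ a : O₀, ∀ i : ℕ, b ^ i • KaehlerDifferential.D ℂ L (a : L) ∈ M) :
    ∃ x ∈ M, KaehlerDifferential.D ℂ L (aeval b G) = x + aeval b (derivative G) •
      KaehlerDifferential.D ℂ L b := by
  induction G using Polynomial.induction_on' with
  | add p q hp hq =>
    obtain ⟨x, hx, hx'⟩ := hp
    obtain ⟨y, hy, hy'⟩ := hq
    refine ⟨x + y, M.add_mem hx hy, ?_⟩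
    rw [map_add, map_add, map_add, map_add, hx', hy', add_smul]
    abel
  | monomial n a =>
    refine ⟨b ^ n • KaehlerDifferential.D ℂ L (a : L), hM a n, ?_⟩
    rw [aeval_monomial, derivative_monomial, aeval_monomial, Derivation.leibniz,
      Derivation.leibniz_pow]
    have h1 : algebraMap O₀ L a = (a : L) := rfl
    rw [h1, map_mul, h1, map_natCast, add_comm, ← Nat.cast_smul_eq_nsmul L, smul_smul, smul_smul]

section

variable (E : PrimeDivisorOver L) (O₀ : Subalgebra ℂ L) (hO : O₀ ≤ E.ring) {n : ℕ} (X : Fin n → L)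
  (hD : ∀ a ∈ O₀, KaehlerDifferential.D ℂ L a ∈
    Submodule.span E.ring (Set.range fun j => KaehlerDifferential.D ℂ L (X j)))
  (hres : ∀ b ∈ E.ring, ∃ G : Polynomial O₀, E.ge 1 (aeval b G) ∧ ¬ E.ge 1 (aeval b (derivative G)))
  (hX : ∀ j, X j ∈ E.ring)

include hO hD hres in
theorem stepA : diffLattice E.ring ≤
    Submodule.span E.ring (Set.range fun j => KaehlerDifferential.D ℂ L (X j)) ⊔
      Submodule.span E.ring {KaehlerDifferential.D ℂ L E.pi} := by
  apply diffLattice_le_of_le
  rintro ⟨b, hb⟩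
  obtain ⟨G, hG1, hG2⟩ := hres b hb
  set N := Submodule.span E.ring (Set.range fun j => KaehlerDifferential.D ℂ L (X j)) with hN
  obtain ⟨x, hx, hx'⟩ := D_eval G b (M := N.toAddSubmonoid) (fun a i =>
    smul_mem_of_mem (hD a a.2) (E.ring.pow_mem hb i))
  have hmem : ∀ F : Polynomial O₀, aeval b F ∈ E.ring := by
    intro F
    rw [aeval_eq_sum_range]
    refine sum_mem fun i _ => ?_
    have : F.coeff i • b ^ i = (F.coeff i : L) * b ^ i := rfl
    rw [this]
    exact E.ring.mul_mem (hO (F.coeff i).2) (E.ring.pow_mem hb i)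
  set u := aeval b (derivative G) with hu
  have hu0 : u ≠ 0 := by
    rintro h0
    exact hG2 (h0 ▸ E.ge_zero 1)
  have huv : E.v u = 0 := by
    have h1 := hmem (derivative G)
    rw [← hu, E.mem_iff_ge, E.ge_iff hu0] at h1
    rw [E.ge_iff hu0] at hG2
    omega
  have hui : u⁻¹ ∈ E.ring := by
    rw [E.mem_iff_ge, E.ge_iff (inv_ne_zero hu0), E.v_inv hu0, huv]; simp
  -- `G(b) = π β`
  set β := E.pi⁻¹ * aeval b G with hβ
  have hβm : β ∈ E.ring := by
    rw [E.ge_iff_mem] at hG1
    rw [hβ]
    simpa using hG1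
  have hGb : aeval b G = E.pi * β := by
    rw [hβ, mul_inv_cancel_left₀ E.pi_ne_zero]
  rw [hGb, Derivation.leibniz] at hx'
  refine ⟨u⁻¹ • (β • KaehlerDifferential.D ℂ L E.pi - x), u⁻¹ • KaehlerDifferential.D ℂ L β,
    ?_, ?_, ?_⟩
  · apply smul_mem_of_mem _ hui
    apply Submodule.sub_mem
    · apply Submodule.mem_sup_right
      exact smul_mem_of_mem (Submodule.mem_span_singleton_self _) hβm
    · exact Submodule.mem_sup_left hx
  · exact smul_mem_of_mem (D_mem_diffLattice _ hβm) hui
  · have h2 : KaehlerDifferential.D ℂ L b = u⁻¹ • (u • KaehlerDifferential.D ℂ L b) := by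
      rw [inv_smul_smul₀ hu0]
    have h3 : u • KaehlerDifferential.D ℂ L b = E.pi • KaehlerDifferential.D ℂ L β +
        β • KaehlerDifferential.D ℂ L E.pi - x := by
      rw [hx']; abel
    show KaehlerDifferential.D ℂ L b = _
    rw [h2, h3, smul_comm E.pi u⁻¹, ← smul_add]
    congr 1
    abel

variable (h : L) (hh0 : h ≠ 0) (hv : 1 ≤ E.v h) (c : Fin n → L) (hc : ∀ j, c j ∈ E.ring)
  (hdh : KaehlerDifferential.D ℂ L h = ∑ j, c j • KaehlerDifferential.D ℂ L (X j)) (i₀ : Fin n)
  (hci0 : c i₀ ≠ 0) (hci : E.v (c i₀) = 0)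

include hO hD hres hX hh0 hv hc hdh hci0 hci in
theorem regularForms_eq : regularForms n E.ring = Submodule.span E.ring
    {E.pi ^ (1 - E.v h) • wedge L n (fun j => KaehlerDifferential.D ℂ L (X j))} := by
  classical
  obtain ⟨a, ha⟩ := E.exists_unit h hh0
  obtain ⟨e, he⟩ : ∃ e : ℕ, E.v h = (e + 1 : ℕ) := ⟨(E.v h - 1).toNat, by omega⟩
  rw [he, zpow_natCast] at ha
  have hpi := E.pi_ne_zero
  have ha0 := E.coe_unit_ne_zero a
  have haiR : ((a : E.ring) : L)⁻¹ ∈ E.ring := by
    rw [← E.coe_unit_inv]; exact ((a⁻¹ : (E.ring)ˣ) : E.ring).2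
  set D := KaehlerDifferential.D ℂ L with hDdef
  set η : Ω[L⁄ℂ] := (((e + 1 : ℕ) : L) * (a : E.ring)) • D E.pi + E.pi • D ((a : E.ring) : L) with hη
  have hDh : D h = E.pi ^ e • η := by
    rw [ha, Derivation.leibniz, Derivation.leibniz_pow, hη, smul_add, smul_smul, smul_smul,
      ← Nat.cast_smul_eq_nsmul L, smul_smul, smul_smul, add_comm]
    congr 2
    · simp only [Nat.add_sub_cancel]; ring
    · rw [pow_succ]
  have he1 : (((e + 1 : ℕ) : L) * (a : E.ring)) ≠ 0 := by
    refine mul_ne_zero ?_ ha0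
    have : ((e + 1 : ℕ) : L) = algebraMap ℂ L ((e + 1 : ℕ) : ℂ) := by simp
    rw [this]
    simp only [ne_eq, map_eq_zero]
    exact_mod_cast Nat.succ_ne_zero e
  have he2 : (((e + 1 : ℕ) : L) * (a : E.ring))⁻¹ ∈ E.ring := by
    rw [mul_inv]
    refine E.ring.mul_mem ?_ haiR
    have : ((e + 1 : ℕ) : L)⁻¹ = algebraMap ℂ L (((e + 1 : ℕ) : ℂ)⁻¹) := by simp
    rw [this]
    exact E.const_mem _
  have he3 : (((e + 1 : ℕ) : L) * (a : E.ring)) ∈ E.ring :=
    E.ring.mul_mem (natCast_mem _ _) (a : E.ring).2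
  have hηm : η ∈ diffLattice E.ring := by
    refine Submodule.add_mem _ ?_ ?_
    · exact smul_mem_of_mem (D_mem_diffLattice _ E.pi_mem) he3
    · exact smul_mem_of_mem (D_mem_diffLattice _ (a : E.ring).2) E.pi_mem
  have hXm : ∀ j, D (X j) ∈ Submodule.span E.ring (Set.range fun j => D (X j)) := fun j =>
    Submodule.subset_span ⟨j, rfl⟩
  -- the new basis
  set ε : Fin n → Ω[L⁄ℂ] := Function.update (fun j => D (X j)) i₀ η with hε
  have hεi : ε i₀ = η := by rw [hε, Function.update_self]
  have hεj : ∀ j, j ≠ i₀ → ε j = D (X j) := fun j hj => by rw [hε, Function.update_of_ne hj]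
  have hεm : ∀ j, ε j ∈ Submodule.span E.ring (Set.range ε) := fun j => Submodule.subset_span ⟨j, rfl⟩
  -- `D X_{i₀}` in the span of `ε`
  have hXi : D (X i₀) ∈ Submodule.span E.ring (Set.range ε) := by
    have h1 : c i₀ • D (X i₀) = E.pi ^ e • ε i₀ - ∑ j ∈ Finset.univ.erase i₀, c j • ε j := by
      rw [hεi, ← hDh, hdh, ← Finset.add_sum_erase _ _ (Finset.mem_univ i₀)]
      have : ∑ j ∈ Finset.univ.erase i₀, c j • ε j = ∑ j ∈ Finset.univ.erase i₀, c j • D (X j) :=
        Finset.sum_congr rfl fun j hj => by rw [hεj j (Finset.ne_of_mem_erase hj)]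
      rw [this]
      abel
    have h2 : D (X i₀) = (c i₀)⁻¹ • (E.pi ^ e • ε i₀ - ∑ j ∈ Finset.univ.erase i₀, c j • ε j) := by
      rw [← h1, inv_smul_smul₀ hci0]
    rw [h2]
    apply smul_mem_of_mem
    · apply Submodule.sub_mem
      · exact smul_mem_of_mem (hεm i₀) (E.ring.pow_mem E.pi_mem _)
      · exact Submodule.sum_mem _ fun j _ => smul_mem_of_mem (hεm j) (hc j)
    · rw [E.mem_iff_ge, E.ge_iff (inv_ne_zero hci0), E.v_inv hci0, hci]; simp
  have hle : diffLattice E.ring ≤ Submodule.span E.ring (Set.range ε) := by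
    have hN1 : Submodule.span E.ring (Set.range fun j => D (X j)) ≤
        Submodule.span E.ring (Set.range ε) := by
      rw [Submodule.span_le]
      rintro _ ⟨j, rfl⟩
      by_cases hj : j = i₀
      · subst hj; exact hXi
      · show D (X j) ∈ _
        rw [← hεj j hj]; exact hεm j
    apply diffLattice_le_of_le
    rintro b
    have hb := stepA E O₀ hO X hD hres (D_mem_diffLattice _ b.2)
    obtain ⟨x, hx, y, hy, hxy⟩ := Submodule.mem_sup.mp hb
    obtain ⟨y', rfl⟩ := Submodule.mem_span_singleton.mp hy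
    set w : L := (((e + 1 : ℕ) : L) * (a : E.ring))⁻¹ with hw
    refine ⟨x + ((y' : L) * w) • η, -(((y' : L) * w) • D ((a : E.ring) : L)), ?_, ?_, ?_⟩
    · refine Submodule.add_mem _ (hN1 hx) ?_
      rw [← hεi]
      exact smul_mem_of_mem (hεm i₀) (E.ring.mul_mem y'.2 he2)
    · apply Submodule.neg_mem
      exact smul_mem_of_mem (D_mem_diffLattice _ (a : E.ring).2) (E.ring.mul_mem y'.2 he2)
    · rw [← hxy, coe_smul_eq, hη, smul_add, smul_smul, smul_neg, smul_smul, smul_smul, mul_assoc,
        hw, inv_mul_cancel₀ he1, mul_one, mul_comm E.pi]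
      abel
  -- conclusion
  have hιε : wedge L n ε = (E.pi ^ (1 - E.v h) * c i₀) •
      wedge L n (fun j => D (X j)) := by
    have h1 : E.pi ^ e • wedge L n ε =
        c i₀ • wedge L n (fun j => D (X j)) := by
      have h2 : E.pi ^ e • wedge L n ε =
          wedge L n (Function.update (fun j => D (X j)) i₀ (D h)) := by
        rw [hDh, AlternatingMap.map_update_smul]
      rw [h2, hdh, AlternatingMap.map_update_sum]
      rw [Finset.sum_eq_single i₀]
      · rw [AlternatingMap.map_update_smul, Function.update_eq_self]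
      · intro j _ hj
        rw [AlternatingMap.map_update_smul]
        have : wedge L n (Function.update (fun j => D (X j)) i₀ (D (X j))) = 0 := by
          apply AlternatingMap.map_eq_zero_of_eq (i := i₀) (j := j)
          · rw [Function.update_self, Function.update_of_ne hj]
          · exact hj.symm
        rw [this, smul_zero]
      · intro hcon; exact absurd (Finset.mem_univ _) hcon
    have h3 : wedge L n ε = (E.pi ^ e)⁻¹ • (E.pi ^ e • wedge L n ε) := by
      rw [inv_smul_smul₀ (pow_ne_zero _ hpi)]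
    rw [h3, h1, smul_smul, he]
    congr 2
    rw [show (1 - ((e + 1 : ℕ) : ℤ)) = -(e : ℤ) by push_cast; ring, zpow_neg, zpow_natCast]
  have hιεmem : wedge L n ε ∈ regularForms n E.ring := by
    apply ιMulti_mem_regularForms
    intro j
    by_cases hj : j = i₀
    · subst hj; rw [hεi]; exact hηm
    · rw [hεj j hj]
      exact D_mem_diffLattice _ (hX j)
  have hcinv : (c i₀)⁻¹ ∈ E.ring := by
    rw [E.mem_iff_ge, E.ge_iff (inv_ne_zero hci0), E.v_inv hci0, hci]; simp
  have hA : regularForms n E.ring = Submodule.span E.ring {wedge L n ε} := by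
    apply le_antisymm
    · unfold regularForms
      rw [Submodule.span_le]
      rintro _ ⟨b, rfl⟩
      have hb : ∀ i, ∃ m : Fin n → E.ring, ∑ j, m j • ε j = D (b i : L) := fun i =>
        (Submodule.mem_span_range_iff_exists_fun _).mp (hle (D_mem_diffLattice _ (b i).2))
      choose m hm using hb
      have h0 : dwedge (fun i => (b i : L)) = wedge L n (fun i => D (b i : L)) := by
        rw [hDdef, wedge_D]
      have h1 : wedge L n (fun i => D (b i : L)) =
          (Matrix.of fun i j => ((m i j : E.ring) : L)).det • wedge L n ε := by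
        rw [← alt_matrix]
        congr 1
        funext i
        rw [← hm i]
        rfl
      have h2 : (Matrix.of fun i j => ((m i j : E.ring) : L)).det =
          (((Matrix.of fun i j => m i j).det : E.ring) : L) := by
        have := (RingHom.map_det (algebraMap E.ring L) (Matrix.of fun i j => m i j))
        rw [show (((Matrix.of fun i j => m i j).det : E.ring) : L) =
          algebraMap E.ring L (Matrix.of fun i j => m i j).det from rfl, this]
        rfl
      show dwedge (fun i => (b i : L)) ∈ Submodule.span E.ring {wedge L n ε}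
      rw [h0, h1, h2, ← coe_smul_form]
      exact Submodule.smul_mem _ _ (Submodule.mem_span_singleton_self _)
    · rw [Submodule.span_singleton_le_iff_mem]
      exact hιεmem
  rw [hA, hιε]
  apply le_antisymm
  · rw [Submodule.span_singleton_le_iff_mem, Submodule.mem_span_singleton]
    refine ⟨⟨c i₀, hc i₀⟩, ?_⟩
    rw [coe_smul_form, smul_smul, mul_comm]
  · rw [Submodule.span_singleton_le_iff_mem, Submodule.mem_span_singleton]
    refine ⟨⟨(c i₀)⁻¹, hcinv⟩, ?_⟩
    rw [coe_smul_form, smul_smul]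
    congr 1
    field_simp

end

end Vale.Agent.P282
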