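import Mathlib

set_option autoImplicit false

namespace Vale.Agent.P282

open IsLocalRing Polynomial

/-- separable residue extension -/
theorem exists_poly_of_residue (O B : Type) [CommRing O] [IsLocalRing O] [CommRing B]
    [Algebra O B] [Algebra.IsIntegral O B] [Algebra ℚ O] (P : Ideal B) [hP : P.IsMaximal] (b : B) :
    ∃ G : Polynomial O, aeval b G ∈ P ∧ aeval b (derivative G) ∉ P := by
  have hmax : (P.comap (algebraMap O B)).IsMaximal :=
    Ideal.isMaximal_comap_of_isIntegral_of_isMaximal P
  have hPo : P.LiesOver (maximalIdeal O) := ⟨(IsLocalRing.eq_maximalIdeal hmax).symm⟩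
  let _ : Field (O ⧸ maximalIdeal O) := Ideal.Quotient.field _
  let _ : Field (B ⧸ P) := Ideal.Quotient.field _
  have hchar : CharZero (O ⧸ maximalIdeal O) := by
    have : Algebra ℚ (O ⧸ maximalIdeal O) := inferInstance
    exact algebraRat.charZero _
  have hint : IsIntegral (O ⧸ maximalIdeal O) (Ideal.Quotient.mk P b) := by
    have : IsIntegral O (Ideal.Quotient.mk P b) :=
      (Algebra.IsIntegral.isIntegral b).map (Ideal.Quotient.mkₐ O P)
    exact this.tower_top
  set g := minpoly (O ⧸ maximalIdeal O) (Ideal.Quotient.mk P b) with hg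
  have hsep : g.Separable := (minpoly.irreducible hint).separable
  obtain ⟨G, hG⟩ := Polynomial.map_surjective (Ideal.Quotient.mk (maximalIdeal O))
    Ideal.Quotient.mk_surjective g
  have key : ∀ F : Polynomial O, Ideal.Quotient.mk P (aeval b F) =
      aeval (Ideal.Quotient.mk P b) (F.map (Ideal.Quotient.mk (maximalIdeal O))) := by
    intro F
    rw [aeval_def, aeval_def, eval₂_map, hom_eval₂]
    rfl
  refine ⟨G, ?_, ?_⟩
  · rw [← Ideal.Quotient.eq_zero_iff_mem, key, hG, hg, minpoly.aeval]
  · rw [← Ideal.Quotient.eq_zero_iff_mem, key, ← derivative_map, hG]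
    exact hsep.aeval_derivative_ne_zero (minpoly.aeval _ _)

end Vale.Agent.P282
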