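import Vale.Agent.Lib.P282.Over
import Vale.Agent.Lib.P282.Lattice
import Vale.Agent.Lib.P282.Residue

/-!
Discrete valuation rings attached to prime elements of polynomial rings.
-/

set_option autoImplicit false

namespace Vale.Agent.P282

open IsLocalRing MvPolynomial

/-- some partial derivative of a prime polynomial is not divisible by it -/
theorem exists_pderiv_not_dvd {n : ℕ} (F : MvPolynomial (Fin n) ℂ) (hF : Prime F) :
    ∃ i, ¬ F ∣ pderiv i F := by
  by_contra hcon
  push Not at hcon
  -- all partial derivatives vanish
  have h0 : ∀ i, pderiv i F = 0 := by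
    intro i
    by_contra hne
    have h1 := totalDegree_le_of_dvd_of_isDomain (hcon i) hne
    have h2 : (pderiv i F).totalDegree < F.totalDegree := by
      have h3 : ∀ m ∈ (pderiv i F).support, (m.sum fun _ e => e) < F.totalDegree := by
        intro m hm
        rw [mem_support_iff, coeff_pderiv] at hm
        have h4 : coeff (m + Finsupp.single i 1) F ≠ 0 := by
          intro h; apply hm; rw [h]; simp
        have h5 := le_totalDegree (mem_support_iff.mpr h4)
        rw [Finsupp.sum_add_index' (fun _ => rfl) (fun _ _ _ => rfl)] at h5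
        simp only [Finsupp.sum_single_index] at h5
        omega
      obtain ⟨m, hm⟩ := (support_nonempty.mpr hne)
      have h6 : 0 < F.totalDegree := lt_of_le_of_lt (Nat.zero_le _) (h3 m hm)
      rw [totalDegree, Finset.sup_lt_iff]
      · exact h3
      · exact h6
    omega
  -- hence `F` is constant
  have h1 : F = C (coeff 0 F) := by
    ext m
    rw [coeff_C]
    split_ifs with hm
    · rw [← hm]
    · obtain ⟨i, hi⟩ : ∃ i, m i ≠ 0 := by
        by_contra hcon2
        push Not at hcon2
        apply hm
        ext i
        simp [hcon2 i]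
      have h2 := coeff_pderiv F (m - Finsupp.single i 1) (i := i)
      have h3 : m - Finsupp.single i 1 + Finsupp.single i 1 = m := by
        ext j
        by_cases hj : j = i
        · subst hj; simp; omega
        · simp [Ne.symm hj]
      rw [h0 i, coeff_zero, h3] at h2
      rcases mul_eq_zero.mp h2.symm with h4 | h4
      · exact h4
      · exfalso
        exact Nat.cast_add_one_ne_zero _ h4
  have hne : coeff 0 F ≠ 0 := by
    intro h
    rw [h, C_0] at h1
    exact hF.ne_zero h1
  apply hF.not_isUnit
  rw [h1]
  exact (isUnit_iff_ne_zero.mpr hne).map C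

section

variable {n : ℕ} {K L : Type} [Field K] [Field L] [Algebra ℂ K] [Algebra ℂ L] [Algebra K L]
  [IsScalarTower ℂ K L] {S : Type} [CommRing S] [IsDomain S] [Algebra ℂ S] [Algebra S K]
  [IsScalarTower ℂ S K] [IsFractionRing S K] [Algebra S L] [IsScalarTower S K L]
  [IsScalarTower ℂ S L]

theorem isDVR_locRing_span [IsNoetherianRing S] (h : S) (hh : Prime h) :
    haveI := (Ideal.span_singleton_prime hh.ne_zero).mpr hh
    IsDiscreteValuationRing (locRing K (Ideal.span {h})) ∧
    Irreducible (algebraMap S (locRing K (Ideal.span {h})) h) := by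
  have hP := (Ideal.span_singleton_prime hh.ne_zero).mpr hh
  set O := locRing K (Ideal.span {h}) with hO
  have hloc : IsLocalization.AtPrime O (Ideal.span {h}) := inferInstance
  have hl : IsLocalRing O := IsLocalization.AtPrime.isLocalRing O (Ideal.span {h})
  have hN : IsNoetherianRing O :=
    IsLocalization.isNoetherianRing (Ideal.span {h}).primeCompl O inferInstance
  have hnf : ¬ IsField O := by
    refine IsLocalization.AtPrime.not_isField S ?_ O (P := Ideal.span {h})
    rw [ne_eq, Ideal.span_singleton_eq_bot]
    exact hh.ne_zero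
  have hmax : maximalIdeal O = Ideal.span {algebraMap S O h} := by
    rw [← IsLocalization.AtPrime.map_eq_maximalIdeal (Ideal.span {h}) O, Ideal.map_span,
      Set.image_singleton]
  have hdvr : IsDiscreteValuationRing O := by
    apply ((IsDiscreteValuationRing.TFAE O hnf).out 0 4).mpr
    exact ⟨⟨_, hmax⟩⟩
  refine ⟨hdvr, ?_⟩
  rw [IsDiscreteValuationRing.irreducible_iff_uniformizer]
  exact hmax

/-- chain rule -/
theorem D_aeval (x : Fin n → L) (F : MvPolynomial (Fin n) ℂ) :
    KaehlerDifferential.D ℂ L (aeval x F) =
      ∑ j, aeval x (pderiv j F) • KaehlerDifferential.D ℂ L (x j) := by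
  induction F using MvPolynomial.induction_on with
  | C a =>
    simp
  | add p q hp hq =>
    simp only [map_add, add_smul, Finset.sum_add_distrib, hp, hq]
  | mul_X p i hp =>
    rw [map_mul, Derivation.leibniz, hp, aeval_X]
    have : ∀ j, aeval x (pderiv j (p * X i)) • KaehlerDifferential.D ℂ L (x j) =
        (if j = i then aeval x p • KaehlerDifferential.D ℂ L (x i) else 0) +
        x i • (aeval x (pderiv j p) • KaehlerDifferential.D ℂ L (x j)) := by
      intro j
      rw [pderiv_mul, map_add, map_mul, map_mul, aeval_X, add_smul, add_comm, smul_smul,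
        mul_comm (x i)]
      congr 1
      split_ifs with hj
      · subst hj; rw [pderiv_X_self, map_one, mul_one]
      · rw [pderiv_X_of_ne (Ne.symm hj), map_zero, mul_zero, zero_smul]
    simp_rw [this]
    rw [Finset.sum_add_distrib, Finset.sum_ite_eq' Finset.univ i, if_pos (Finset.mem_univ _),
      ← Finset.smul_sum]

theorem ge_pow_sub (E : PrimeDivisorOver L) {b b' : L} (hb : b ∈ E.ring) (hb' : b' ∈ E.ring)
    (hbb : E.ge 1 (b - b')) (m : ℕ) : E.ge 1 (b ^ m - b' ^ m) := by
  induction m with
  | zero => simpa using E.ge_zero 1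
  | succ m ih =>
    have h1 : b ^ (m + 1) - b' ^ (m + 1) = b ^ m * (b - b') + (b ^ m - b' ^ m) * b' := by ring
    rw [h1]
    have hbm : E.ge 0 (b ^ m) := by rw [← E.mem_iff_ge]; exact E.ring.pow_mem hb m
    have hbm' : E.ge 0 b' := by rw [← E.mem_iff_ge]; exact hb'
    refine E.ge_add ?_ ?_
    · simpa using E.ge_mul hbm hbb
    · simpa using E.ge_mul ih hbm'

theorem ge_aeval_sub (E : PrimeDivisorOver L) {O : Type} [CommRing O] [Algebra O L]
    (hO : ∀ a : O, algebraMap O L a ∈ E.ring) (G : Polynomial O) {b b' : L} (hb : b ∈ E.ring)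
    (hb' : b' ∈ E.ring) (hbb : E.ge 1 (b - b')) :
    E.ge 1 (Polynomial.aeval b G - Polynomial.aeval b' G) := by
  induction G using Polynomial.induction_on' with
  | add p q hp hq =>
    rw [map_add, map_add]
    have : Polynomial.aeval b p + Polynomial.aeval b q - (Polynomial.aeval b' p +
        Polynomial.aeval b' q) = (Polynomial.aeval b p - Polynomial.aeval b' p) +
        (Polynomial.aeval b q - Polynomial.aeval b' q) := by ring
    rw [this]
    exact E.ge_add hp hq
  | monomial m a =>
    rw [Polynomial.aeval_monomial, Polynomial.aeval_monomial, ← mul_sub]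
    have h1 : E.ge 0 (algebraMap O L a) := by rw [← E.mem_iff_ge]; exact hO a
    simpa using E.ge_mul h1 (ge_pow_sub E hb hb' hbb m)

end

end Vale.Agent.P282
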