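import Vale.Agent.Lib.P282.Coord

/-!
Regular top forms at the prime divisors of `L` over a prime element of a polynomial ring.
-/

set_option autoImplicit false
set_option linter.unusedSectionVars false

namespace Vale.Agent.P282

open IsLocalRing MvPolynomial

section

variable {n : ℕ} (K L : Type) [Field K] [Field L] [Algebra ℂ K] [Algebra ℂ L] [Algebra K L]
  [IsScalarTower ℂ K L] [FiniteDimensional K L] {S : Type} [CommRing S] [IsDomain S] [Algebra ℂ S]
  [Algebra S K] [IsScalarTower ℂ S K] [IsFractionRing S K] [Algebra S L] [IsScalarTower S K L]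
  [IsScalarTower ℂ S L] [IsNoetherianRing S]
  (h : S) [hPr : (Ideal.span {h}).IsPrime] [IsDiscreteValuationRing (locRing K (Ideal.span {h}))]
  (B : Type) [CommRing B] [IsDomain B] [Algebra (locRing K (Ideal.span {h})) B] [Algebra B L]
  [IsScalarTower (locRing K (Ideal.span {h})) B L]
  [IsIntegralClosure B (locRing K (Ideal.span {h})) L]
  [Algebra ℂ B] [IsScalarTower ℂ B L] [IsFractionRing B L] [Algebra.EssFiniteType ℂ B]

theorem charZero_of_complex : CharZero K := by
  have : Algebra ℚ K := Algebra.compHom K (algebraMap ℚ ℂ)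
  exact algebraRat.charZero _

instance : CharZero K := charZero_of_complex K

/-- elements of `S` outside `(h)` are units in `locRing K (h)` -/
theorem isUnit_of_not_mem (g : S) (hg : g ∉ Ideal.span {h}) :
    IsUnit (algebraMap S (locRing K (Ideal.span {h})) g) :=
  IsLocalization.map_units (locRing K (Ideal.span {h})) (⟨g, hg⟩ : (Ideal.span {h}).primeCompl)

theorem coe_algebraMap_S (g : S) :
    algebraMap (locRing K (Ideal.span {h})) L (algebraMap S (locRing K (Ideal.span {h})) g) =
      algebraMap S L g := by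
  have h1 : algebraMap (locRing K (Ideal.span {h})) L (algebraMap S (locRing K (Ideal.span {h})) g) =
    algebraMap K L ((algebraMap S (locRing K (Ideal.span {h})) g : locRing K (Ideal.span {h})) : K) := rfl
  rw [h1, coe_algebraMap_locRing, ← IsScalarTower.algebraMap_apply]

/-- the divisor over `h` -/
noncomputable abbrev dOver (P : Ideal B) [P.IsMaximal] : PrimeDivisorOver L :=
  overDivisor (locRing K (Ideal.span {h})) K L B P

theorem dOver_mem (P : Ideal B) [P.IsMaximal] (g : S) :
    algebraMap S L g ∈ (dOver K L h B P).ring := by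
  rw [← coe_algebraMap_S K L h]
  exact algebraMap_mem_overDivisor' _ _ _ _ _ _

theorem dOver_ge_one (P : Ideal B) [P.IsMaximal] (g : S) (hg : g ∈ Ideal.span {h}) :
    (dOver K L h B P).ge 1 (algebraMap S L g) := by
  rw [← coe_algebraMap_S K L h]
  apply ge_one_of_mem_maximalIdeal
  exact (IsLocalization.AtPrime.to_map_mem_maximal_iff (locRing K (Ideal.span {h}))
    (Ideal.span {h}) g).mpr hg

include K in
theorem algebraMap_S_ne_zero {g : S} (hg : g ≠ 0) : algebraMap S L g ≠ 0 := by
  rw [IsScalarTower.algebraMap_apply S K L]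
  simp only [ne_eq, map_eq_zero]
  intro h0
  exact hg (IsFractionRing.injective S K (by rw [h0, map_zero]))

theorem dOver_v_eq_zero (P : Ideal B) [P.IsMaximal] (g : S) (hg : g ∉ Ideal.span {h}) :
    (dOver K L h B P).v (algebraMap S L g) = 0 := by
  set E := dOver K L h B P with hE
  have hg0 : g ≠ 0 := by rintro rfl; exact hg (Ideal.zero_mem _)
  have hgL := algebraMap_S_ne_zero K L hg0
  obtain ⟨u, hu⟩ := isUnit_of_not_mem K h g hg
  have h1 : algebraMap S L g * algebraMap (locRing K (Ideal.span {h})) L
      ((u⁻¹ : (locRing K (Ideal.span {h}))ˣ) : locRing K (Ideal.span {h})) = 1 := by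
    rw [← coe_algebraMap_S K L h, ← hu, ← map_mul, Units.mul_inv, map_one]
  have h2 := dOver_mem K L h B P g
  have h3 : (algebraMap S L g)⁻¹ ∈ E.ring := by
    rw [inv_eq_of_mul_eq_one_right h1]
    exact algebraMap_mem_overDivisor' _ _ _ _ _ _
  rw [← hE, E.mem_iff_ge, E.ge_iff hgL] at h2
  rw [E.mem_iff_ge, E.ge_iff (inv_ne_zero hgL), E.v_inv hgL] at h3
  omega

theorem dOver_one_le_v (hh0 : h ≠ 0) (P : Ideal B) [P.IsMaximal] :
    1 ≤ (dOver K L h B P).v (algebraMap S L h) := by
  have h1 := dOver_ge_one K L h B P h (Ideal.mem_span_singleton_self h)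
  rwa [(dOver K L h B P).ge_iff (algebraMap_S_ne_zero K L hh0)] at h1

/-- The lattice of regular top forms at a divisor over `h`. -/
theorem regularForms_dOver (ψ : MvPolynomial (Fin n) ℂ ≃ₐ[ℂ] S) (hh : Prime h) (P : Ideal B)
    [P.IsMaximal] :
    regularForms n (dOver K L h B P).ring = Submodule.span (dOver K L h B P).ring
      {(dOver K L h B P).pi ^ (1 - (dOver K L h B P).v (algebraMap S L h)) •
        wedge L n
          (fun j => KaehlerDifferential.D ℂ L (algebraMap S L (ψ (X j))))} := by
  set E := dOver K L h B P with hE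
  -- the subring
  let O₀ : Subalgebra ℂ L := (locRing K (Ideal.span {h})).map (IsScalarTower.toAlgHom ℂ K L)
  have hO₀ : ∀ x ∈ O₀, ∃ f g : S, g ∉ Ideal.span {h} ∧
      x = algebraMap S L f * (algebraMap S L g)⁻¹ := by
    rintro _ ⟨a, ha, rfl⟩
    obtain ⟨f, g, hg, rfl⟩ := mem_locRing.mp ha
    refine ⟨f, g, hg, ?_⟩
    show algebraMap K L _ = _
    rw [map_mul, map_inv₀, ← IsScalarTower.algebraMap_apply, ← IsScalarTower.algebraMap_apply]
  have hpoly : ∀ f : S, algebraMap S L f =
      aeval (fun j => algebraMap S L (ψ (X j))) (ψ.symm f) := by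
    intro f
    have h1 : (IsScalarTower.toAlgHom ℂ S L).comp (ψ : MvPolynomial (Fin n) ℂ →ₐ[ℂ] S) =
        aeval (fun j => algebraMap S L (ψ (X j))) := by
      ext j; simp
    rw [← h1]
    simp
  have hcm : ∀ F : MvPolynomial (Fin n) ℂ, aeval (fun j => algebraMap S L (ψ (X j))) F =
      algebraMap S L (ψ F) := by
    intro F
    have := hpoly (ψ F)
    rw [this]; simp
  obtain ⟨i₀, hi₀⟩ := exists_pderiv_not_dvd (ψ.symm h) ((MulEquiv.prime_iff ψ.symm).mpr hh)
  have hi₀' : ψ (pderiv i₀ (ψ.symm h)) ∉ Ideal.span {h} := by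
    rw [Ideal.mem_span_singleton]
    rintro ⟨g, hg⟩
    apply hi₀
    refine ⟨ψ.symm g, ?_⟩
    rw [← map_mul, ← hg]; simp
  refine regularForms_eq E O₀ ?_ (fun j => algebraMap S L (ψ (X j))) ?_ ?_ ?_
    (algebraMap S L h) (algebraMap_S_ne_zero K L hh.ne_zero) (dOver_one_le_v K L h B hh.ne_zero P)
    (fun j => algebraMap S L (ψ (pderiv j (ψ.symm h)))) ?_ ?_ i₀ ?_ ?_
  · -- `O₀ ≤ E.ring`
    rintro _ ⟨a, ha, rfl⟩
    have ha' : a ∈ locRing K (Ideal.span {h}) := ha
    exact algebraMap_mem_overDivisor' (locRing K (Ideal.span {h})) K L B P (Subtype.mk a ha')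
  · -- differentials
    intro x hx
    obtain ⟨f, g, hg, rfl⟩ := hO₀ x hx
    have hpart : ∀ f : S, KaehlerDifferential.D ℂ L (algebraMap S L f) ∈
        Submodule.span E.ring (Set.range fun j =>
          KaehlerDifferential.D ℂ L (algebraMap S L (ψ (X j)))) := by
      intro f
      rw [hpoly f, D_aeval]
      refine Submodule.sum_mem _ fun j _ => ?_
      rw [hcm]
      exact smul_mem_of_mem (Submodule.subset_span (Set.mem_range_self j)) (dOver_mem K L h B P _)
    have hgv := dOver_v_eq_zero K L h B P g hg
    have hg0 : algebraMap S L g ≠ 0 := algebraMap_S_ne_zero K L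
      (by rintro rfl; exact hg (Ideal.zero_mem _))
    have hgi : (algebraMap S L g)⁻¹ ∈ E.ring := by
      rw [E.mem_iff_ge, E.ge_iff (inv_ne_zero hg0), E.v_inv hg0, hgv]; simp
    rw [Derivation.leibniz, Derivation.leibniz_inv]
    refine Submodule.add_mem _ ?_ ?_
    · apply smul_mem_of_mem _ (dOver_mem K L h B P _)
      apply smul_mem_of_mem (hpart g)
      exact E.ring.neg_mem (E.ring.pow_mem hgi 2)
    · exact smul_mem_of_mem (hpart f) hgi
  · -- residue fields
    intro b hb
    obtain ⟨b1, s, hs, hbs⟩ := mem_locRing.mp (show b ∈ locRing L P from hb)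
    have hs0 : algebraMap B L s ≠ 0 := by
      intro h0
      apply hs
      rw [IsFractionRing.injective B L (h0.trans (map_zero _).symm)]
      exact P.zero_mem
    obtain ⟨t, i, hi, hti⟩ := (inferInstance : P.IsMaximal).exists_inv hs
    have hint : Algebra.IsIntegral (locRing K (Ideal.span {h})) B :=
      IsIntegralClosure.isIntegral_algebra _ L
    let _ : Algebra ℚ (locRing K (Ideal.span {h})) :=
      Algebra.compHom _ (algebraMap ℚ ℂ)
    obtain ⟨G, hG1, hG2⟩ := exists_poly_of_residue (locRing K (Ideal.span {h})) B P (b1 * t)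
    have hb' : algebraMap B L (b1 * t) ∈ E.ring := algebraMap_mem_locRing P _
    have hbb : E.ge 1 (b - algebraMap B L (b1 * t)) := by
      have h1 : b - algebraMap B L (b1 * t) = b * algebraMap B L i := by
        have h2 : algebraMap B L t * algebraMap B L s + algebraMap B L i = 1 := by
          rw [← map_mul, ← map_add, hti, map_one]
        have h3 : algebraMap B L b1 = b * algebraMap B L s := by
          rw [hbs, mul_assoc, inv_mul_cancel₀ hs0, mul_one]
        rw [map_mul, h3]
        linear_combination (-b) * h2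
      rw [h1]
      have h2 : E.ge 0 b := (E.mem_iff_ge).mp hb
      have h3 : E.ge 1 (algebraMap B L i) :=
        (mem_iff_ge_overDivisor (locRing K (Ideal.span {h})) K L B P i).mp hi
      simpa using E.ge_mul h2 h3
    let ρ : locRing K (Ideal.span {h}) →+* O₀ :=
      { toFun := fun a => ⟨algebraMap K L (a : K), ⟨(a : K), a.2, rfl⟩⟩
        map_one' := Subtype.ext (by simp)
        map_mul' := fun a b => Subtype.ext (by simp)
        map_zero' := Subtype.ext (by simp)
        map_add' := fun a b => Subtype.ext (by simp) }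
    have hρ : ∀ (F : Polynomial (locRing K (Ideal.span {h}))) (y : L),
        Polynomial.aeval y (F.map ρ) = Polynomial.aeval y F := by
      intro F y
      rw [Polynomial.aeval_def, Polynomial.aeval_def, Polynomial.eval₂_map]
      rfl
    have hBL : ∀ (F : Polynomial (locRing K (Ideal.span {h}))),
        Polynomial.aeval (algebraMap B L (b1 * t)) F =
          algebraMap B L (Polynomial.aeval (b1 * t) F) := by
      intro F
      rw [Polynomial.aeval_algebraMap_apply]
    have hO' : ∀ a : locRing K (Ideal.span {h}),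
        algebraMap (locRing K (Ideal.span {h})) L a ∈ E.ring := fun a =>
      algebraMap_mem_overDivisor' (locRing K (Ideal.span {h})) K L B P a
    refine ⟨G.map ρ, ?_, ?_⟩
    · rw [hρ]
      have h1 := ge_aeval_sub E hO' G hb hb' hbb
      have h2 : E.ge 1 (Polynomial.aeval (algebraMap B L (b1 * t)) G) := by
        rw [hBL]
        exact (mem_iff_ge_overDivisor (locRing K (Ideal.span {h})) K L B P _).mp hG1
      have := E.ge_add h1 h2
      simpa using this
    · rw [Polynomial.derivative_map, hρ]
      intro hcon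
      have h1 := ge_aeval_sub E hO' (Polynomial.derivative G) hb hb' hbb
      apply hG2
      rw [mem_iff_ge_overDivisor (locRing K (Ideal.span {h})) K L B P, ← hBL]
      have := E.ge_add hcon (E.ge_neg h1)
      simpa using this
  · intro j; exact dOver_mem K L h B P _
  · intro j; exact dOver_mem K L h B P _
  · rw [hpoly h, D_aeval]
    refine Finset.sum_congr rfl fun j _ => ?_
    rw [hcm]
  · refine algebraMap_S_ne_zero K L ?_
    rintro h0
    rw [h0] at hi₀'
    exact hi₀' (Ideal.zero_mem _)
  · exact dOver_v_eq_zero K L h B P _ hi₀'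

end

end Vale.Agent.P282
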