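import Vale.Agent.Lib.P282.Free

/-!
The functional given by traces, and the existence of divisors with small log discrepancy.
-/

set_option autoImplicit false
set_option linter.unusedSectionVars false

namespace Vale.Agent.P282

open IsLocalRing MvPolynomial

section

variable {n : ℕ} (K L A : Type) [Field K] [Field L] [Algebra ℂ K] [Algebra ℂ L] [Algebra K L]
  [IsScalarTower ℂ K L] [FiniteDimensional K L] [Algebra (Pol n) K] [IsScalarTower ℂ (Pol n) K]
  [IsFractionRing (Pol n) K] [CommRing A] [IsDomain A] [Algebra ℂ A] [Algebra A L]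
  [IsScalarTower ℂ A L] [Algebra (Pol n) A] [Algebra (Pol n) L] [IsScalarTower (Pol n) A L]
  [IsScalarTower (Pol n) K L] [IsScalarTower ℂ (Pol n) L] [IsIntegralClosure A (Pol n) L]
  [Module.Finite (Pol n) A] [IsScalarTower ℂ (Pol n) A] [FaithfulSMul (Pol n) A]

/-- the ideal of `A` generated by the coordinates -/
noncomputable abbrev zI (n : ℕ) (A : Type) [CommRing A] [Algebra (Pol n) A] : Ideal A :=
  Ideal.span (Set.range fun j : Fin n => algebraMap (Pol n) A (X j))

/-- the component at `x` of the ideal generated by the coordinates -/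
noncomputable def I1 (n : ℕ) {A : Type} [CommRing A] [Algebra (Pol n) A] (x : Ideal A)
    [x.IsPrime] : Ideal A :=
  ((zI n A).map (algebraMap A (Localization.AtPrime x))).comap
    (algebraMap A (Localization.AtPrime x))

variable {K L A}

theorem mem_I1 (x : Ideal A) [x.IsPrime] (a : A) :
    a ∈ I1 n x ↔ ∃ s, s ∉ x ∧ s * a ∈ zI n A := by
  unfold I1
  rw [Ideal.mem_comap, IsLocalization.algebraMap_mem_map_algebraMap_iff x.primeCompl]
  rfl

theorem zI_le_I1 (x : Ideal A) [hx : x.IsPrime] : zI n A ≤ I1 n x := fun a ha => by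
  rw [mem_I1]
  exact ⟨1, (Ideal.ne_top_iff_one x).mp hx.ne_top, by rwa [one_mul]⟩

theorem zI_le (x : Ideal A) (hzx : ∀ j, algebraMap (Pol n) A (X j) ∈ x) : zI n A ≤ x := by
  rw [Ideal.span_le]
  rintro _ ⟨j, rfl⟩
  exact hzx j

theorem I1_le (x : Ideal A) [hx : x.IsPrime] (hzx : ∀ j, algebraMap (Pol n) A (X j) ∈ x) :
    I1 n x ≤ x := fun a ha => by
  rw [mem_I1] at ha
  obtain ⟨s, hs, hsa⟩ := ha
  exact (hx.mem_or_mem (zI_le x hzx hsa)).resolve_left hs

theorem exists_pow_le_I1 (x : Ideal A) [hx : x.IsMaximal]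
    (hzx : ∀ j, algebraMap (Pol n) A (X j) ∈ x) : ∃ m : ℕ, x ^ m ≤ I1 n x := by
  have hN : IsNoetherianRing A := IsNoetherianRing.of_finite (Pol n) A
  have hN' : IsNoetherianRing (Localization.AtPrime x) :=
    IsLocalization.isNoetherianRing x.primeCompl _ inferInstance
  have h1 := radical_localization x hzx (zI n A) (fun j => Ideal.subset_span ⟨j, rfl⟩)
    (zI_le x hzx)
  obtain ⟨m, hm⟩ := Ideal.exists_radical_pow_le_of_fg
    ((zI n A).map (algebraMap A (Localization.AtPrime x))) (IsNoetherian.noetherian _)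
  refine ⟨m, ?_⟩
  rw [h1, ← Localization.AtPrime.map_eq_maximalIdeal, ← Ideal.map_pow,
    Ideal.map_le_iff_le_comap] at hm
  exact hm

theorem exists_eps (x : Ideal A) [hx : x.IsMaximal]
    (hzx : ∀ j, algebraMap (Pol n) A (X j) ∈ x) :
    ∃ ε : A, 1 - ε ∈ I1 n x ∧ ∀ a ∈ I1 n x, ε * a ∈ zI n A := by
  have hN : IsNoetherianRing A := IsNoetherianRing.of_finite (Pol n) A
  -- a common denominator
  obtain ⟨s, hs, hsI⟩ : ∃ s, s ∉ x ∧ ∀ a ∈ I1 n x, s * a ∈ zI n A := by
    obtain ⟨S, hS⟩ := (IsNoetherian.noetherian (I1 n x) : (I1 n x).FG)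
    have h1 : ∀ a : A, ∃ s, s ∉ x ∧ (a ∈ I1 n x → s * a ∈ zI n A) := by
      intro a
      by_cases ha : a ∈ I1 n x
      · obtain ⟨s, hs, hsa⟩ := (mem_I1 x a).mp ha
        exact ⟨s, hs, fun _ => hsa⟩
      · exact ⟨1, (Ideal.ne_top_iff_one x).mp hx.ne_top, fun h => absurd h ha⟩
    choose t ht1 ht2 using h1
    classical
    refine ⟨∏ a ∈ S, t a, ?_, ?_⟩
    · intro h
      rw [Ideal.IsPrime.prod_mem_iff] at h
      obtain ⟨a, _, ha⟩ := h
      exact ht1 a ha
    · intro a ha
      rw [← hS] at ha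
      induction ha using Submodule.span_induction with
      | mem y hy =>
        rw [← Finset.prod_erase_mul _ _ hy, mul_assoc]
        refine Ideal.mul_mem_left _ _ (ht2 y ?_)
        rw [← hS]; exact Submodule.subset_span hy
      | zero => rw [mul_zero]; exact Ideal.zero_mem _
      | add y z _ _ hy hz => rw [mul_add]; exact Ideal.add_mem _ hy hz
      | smul c y _ hy =>
        rw [smul_eq_mul, mul_left_comm]; exact Ideal.mul_mem_left _ _ hy
  -- coprimality
  let I' : Ideal A := (zI n A).colon (I1 n x : Set A)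
  have hI' : ∀ b, b ∈ I' ↔ ∀ a ∈ I1 n x, b * a ∈ zI n A := fun b => by
    rw [Submodule.mem_colon]; rfl
  have htop : I1 n x ⊔ I' = ⊤ := by
    by_contra hcon
    obtain ⟨𝔫, h𝔫, hle⟩ := Ideal.exists_le_maximal _ hcon
    obtain ⟨m, hm⟩ := exists_pow_le_I1 x hzx
    have h1 : x ≤ 𝔫 := by
      have : x ^ m ≤ 𝔫 := hm.trans (le_sup_left.trans hle)
      exact Ideal.IsPrime.le_of_pow_le this
    have h2 : x = 𝔫 := hx.eq_of_le h𝔫.ne_top h1
    apply hs
    rw [h2]
    exact hle (Ideal.mem_sup_right ((hI' s).mpr hsI))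
  have h1 : (1 : A) ∈ I1 n x ⊔ I' := by rw [htop]; trivial
  obtain ⟨y, hy, ε, hε, hyε⟩ := Submodule.mem_sup.mp h1
  exact ⟨ε, by rw [← hyε, add_sub_cancel_right]; exact hy, (hI' ε).mp hε⟩

theorem isOver_of_poly_mem {D : PrimeDivisorOver K} (hD : ∀ F : Pol n, algebraMap (Pol n) K F ∈ D.ring)
    {E : PrimeDivisorOver L} (hE : E ∈ extensions L D) : E.IsOver A := by
  intro a
  apply mem_of_isIntegral hE
  let _ : Algebra (Pol n) D.ring := RingHom.toAlgebra ((algebraMap (Pol n) K).codRestrict D.ring hD)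
  have h4 : IsScalarTower (Pol n) D.ring L := by
    refine IsScalarTower.of_algebraMap_eq fun s => ?_
    have e1 : algebraMap D.ring L (algebraMap (Pol n) D.ring s) =
        algebraMap K L (algebraMap (Pol n) K s) := rfl
    rw [e1, ← IsScalarTower.algebraMap_apply]
  have h5 : IsIntegral (Pol n) (algebraMap A L a) :=
    (IsIntegralClosure.isIntegral (Pol n) L a).map (IsScalarTower.toAlgHom (Pol n) A L)
  exact h5.tower_top

theorem ordDiv_poly_mem (i₀ : Fin n) (F : Pol n) : algebraMap (Pol n) K F ∈ (ordDiv K i₀).ring := by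
  obtain ⟨G, hG⟩ := algebraMap_mem_BlS K i₀ F
  rw [← hG]
  exact algebraMap_mem_primeDiv K _ _ _

theorem isOver_of_mem_ordDiv {i₀ : Fin n} {E : PrimeDivisorOver L}
    (hE : E ∈ extensions L (ordDiv K i₀)) : E.IsOver A :=
  isOver_of_poly_mem (ordDiv_poly_mem i₀) hE

end

end Vale.Agent.P282
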