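import Vale.Agent.Lib.P282.Core

/-!
The functional given by traces, and the existence of divisors with small log discrepancy.
-/

set_option autoImplicit false
set_option linter.unusedSectionVars false

namespace Vale.Agent.P282

open IsLocalRing MvPolynomial

section

variable {n : ℕ} {K L A : Type} [Field K] [Field L] [Algebra ℂ K] [Algebra ℂ L] [Algebra K L]
  [IsScalarTower ℂ K L] [FiniteDimensional K L] [Algebra (Pol n) K] [IsScalarTower ℂ (Pol n) K]
  [IsFractionRing (Pol n) K] [CommRing A] [IsDomain A] [Algebra ℂ A] [Algebra A L]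
  [IsScalarTower ℂ A L] [Algebra (Pol n) A] [Algebra (Pol n) L] [IsScalarTower (Pol n) A L]
  [IsScalarTower (Pol n) K L] [IsScalarTower ℂ (Pol n) L] [IsIntegralClosure A (Pol n) L]
  [Module.Finite (Pol n) A] [IsScalarTower ℂ (Pol n) A] [FaithfulSMul (Pol n) A]

/-- `A` finite over affine space, with a maximal ideal `x` over the origin, a form `ω` which
generates the canonical sheaf at `x`, and its Jacobian `J`. -/
structure Setup (n : ℕ) (K L A : Type) [Field K] [Field L] [Algebra ℂ K] [Algebra ℂ L]
    [Algebra K L] [Algebra (Pol n) K] [IsScalarTower ℂ (Pol n) K]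
    [CommRing A] [Algebra ℂ A] [Algebra A L] [Algebra (Pol n) A] [Algebra (Pol n) L]
    (x : Ideal A) (ω : RationalForm n L) (J : L) : Prop where
  hzx : ∀ j, algebraMap (Pol n) A (X j) ∈ x
  cm : ∀ (y : Ideal A) [y.IsMaximal], IsCohenMacaulayLocal (Localization.AtPrime y)
  ω_ne : ω ≠ 0
  J_ne : J ≠ 0
  jac : wedge L n
    (fun j => KaehlerDifferential.D ℂ L (algebraMap (Pol n) L (X j))) = J • ω
  gen : ∀ (E : PrimeDivisorOver L) (h : E.IsOver A), E.IsOn h → E.center h ≤ x →
    Submodule.span E.ring {ω} = regularForms n E.ring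

variable {x : Ideal A} {ω : RationalForm n L} {J : L}

/-- the discrepancy of the finite map at divisors through `x` -/
theorem Setup.v_J (S : Setup n K L A x ω J) {h : Pol n} {hh : Prime h} {E : PrimeDivisorOver L}
    (hE : E ∈ extensions L (polDiv K h hh)) (hEA : E.IsOver A) (hc : E.center hEA ≤ x) :
    E.v J = E.v (algebraMap (Pol n) L h) - 1 := by
  have h1 := regularForms_primeDiv (n := n) K h hh L (AlgEquiv.refl (R := ℂ) (A₁ := Pol n)) E hE
  simp only [AlgEquiv.coe_refl, id_eq] at h1
  rw [S.jac, smul_smul, ← S.gen E hEA (isOn_of_mem hE hEA) hc] at h1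
  have h2 : (1 : L) • ω = ω := one_smul _ _
  rw [← h2, smul_smul, mul_one] at h1
  have h3 := v_eq_of_span_eq E S.ω_ne one_ne_zero
    (mul_ne_zero (zpow_ne_zero _ E.pi_ne_zero) S.J_ne) h1
  rw [E.v_one, E.v_mul (zpow_ne_zero _ E.pi_ne_zero) S.J_ne, E.v_zpow E.pi_ne_zero, E.v_pi] at h3
  omega

theorem algebraMap_Pol_L_ne_zero' (K : Type) {L : Type} [Field K] [Field L] [Algebra K L]
    [Algebra (Pol n) K] [IsFractionRing (Pol n) K] [Algebra (Pol n) L] [IsScalarTower (Pol n) K L]
    {s : Pol n} (hs : s ≠ 0) : algebraMap (Pol n) L s ≠ 0 := by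
  rw [IsScalarTower.algebraMap_apply (Pol n) K L]
  simp only [ne_eq, map_eq_zero]
  exact fun h0 => hs (IsFractionRing.injective (Pol n) K (h0.trans (map_zero _).symm))

theorem ge_A {E : PrimeDivisorOver L} (hEA : E.IsOver A) (a : A) : E.ge 0 (algebraMap A L a) :=
  (E.mem_iff_ge).mp (hEA a)

/-- the trace functional is polynomial -/
theorem Setup.exists_g (S : Setup n K L A x ω J) [x.IsMaximal] :
    ∃ g : A, g ∉ x ∧ ∀ a : A, ∃ G : Pol n,
      Algebra.trace K L (algebraMap A L g * J⁻¹ * algebraMap A L a) = algebraMap (Pol n) K G := by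
  obtain ⟨g, hg, h1⟩ := exists_fix (K := K) x J⁻¹
    (fun h E => 1 - E.v (algebraMap (Pol n) L h)) (by
      intro h hh E hE
      have h2 : 1 ≤ E.v (algebraMap K L (algebraMap (Pol n) K h)) :=
        one_le_v_of_mem_extensions hE (algebraMap_S_K_ne_zero K h hh hh.ne_zero)
          (primeDiv_v_self K h hh).ge
      rw [← IsScalarTower.algebraMap_apply] at h2
      omega) (by
      intro h hh E hE hEA hc
      rw [E.ge_iff (inv_ne_zero S.J_ne), E.v_inv S.J_ne, S.v_J hE hEA hc]
      omega)
  refine ⟨g, hg, fun a => ?_⟩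
  obtain ⟨G, hG⟩ := mem_of_forall_polDiv (K := K)
    (Algebra.trace K L (algebraMap A L g * J⁻¹ * algebraMap A L a)) (by
      intro h hh
      refine trace_mem_ring (algebraMap (Pol n) K h) (algebraMap_S_K_ne_zero K h hh hh.ne_zero)
        (primeDiv_v_self K h hh) _ (fun E hE => ?_)
      have hEA : E.IsOver A := isOver_of_mem hE
      have hhL := algebraMap_Pol_L_ne_zero' K (L := L) hh.ne_zero
      rw [← IsScalarTower.algebraMap_apply]
      have h2 := E.ge_mul ((E.ge_iff hhL).mpr le_rfl) (E.ge_mul (h1 h hh E hE) (ge_A hEA a))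
      exact E.ge_mono (by omega) h2)
  exact ⟨G, hG.symm⟩

theorem Setup.core (S : Setup n K L A x ω J) [hx : x.IsMaximal] (i₀ : Fin n) :
    ∃ Φ : A →ₗ[ℂ] ℂ, (∀ a ∈ I1 n x, Φ a = 0) ∧ (∀ a, (∀ b, Φ (a * b) = 0) → a ∈ I1 n x) ∧
      ∀ f b, Φ (f * b) ≠ 0 → ∃ E ∈ extensions L (ordDiv K i₀), ∃ hEA : E.IsOver A,
        E.center hEA = x ∧ E.v (algebraMap A L f) ≤ E.v J := by
  obtain ⟨g, hg, htr⟩ := S.exists_g
  obtain ⟨ε, hε1, hε2⟩ := exists_eps x S.hzx
  obtain ⟨m₀, hm₀⟩ := exists_pow_le_I1 x S.hzx
  -- bound for the power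
  obtain ⟨M, hM1, hM⟩ : ∃ M : ℕ, 1 ≤ M ∧ ∀ E ∈ extensions L (ordDiv K i₀), E.v J + 1 ≤ M := by
    obtain ⟨B, hB⟩ := ((extensions_finite (L := L) (ordDiv K i₀)).image
      (fun E => E.v J + 1)).bddAbove
    refine ⟨(max B 1).toNat, ?_, ?_⟩
    · have : (1 : ℤ) ≤ max B 1 := le_max_right _ _
      omega
    · intro E hE
      have h1 := hB ⟨E, hE, rfl⟩
      simp only at h1
      have : B ≤ max B 1 := le_max_left _ _
      omega
  have hεx : ε ∉ x := by
    intro h
    have h1 := I1_le x S.hzx hε1
    have h2 : (1 : A) ∈ x := by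
      have := x.add_mem h1 h
      rwa [sub_add_cancel] at this
    exact (Ideal.ne_top_iff_one x).mp hx.ne_top h2
  have hinj : Function.Injective (algebraMap A L) :=
    IsIntegralClosure.algebraMap_injective A (Pol n) L
  have hinjK : Function.Injective (algebraMap (Pol n) K) := IsFractionRing.injective (Pol n) K
  choose G hG using htr
  have hGadd : ∀ a b, G (a + b) = G a + G b := fun a b => hinjK (by
    rw [map_add, ← hG, ← hG, ← hG, map_add, mul_add, map_add])
  have hGsmul : ∀ (F : Pol n) (a : A), G (algebraMap (Pol n) A F * a) = F * G a := fun F a => hinjK (by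
    rw [map_mul (algebraMap (Pol n) K), ← hG, ← hG, map_mul (algebraMap A L),
      ← IsScalarTower.algebraMap_apply, IsScalarTower.algebraMap_apply (Pol n) K L,
      ← smul_eq_mul (algebraMap (Pol n) K F), ← map_smul, Algebra.smul_def]
    congr 1
    ring)
  let Φ : A →ₗ[ℂ] ℂ :=
    { toFun := fun a => constantCoeff (G (ε ^ M * a))
      map_add' := fun a b => by rw [mul_add, hGadd, map_add]
      map_smul' := fun c a => by
        have h1 : ε ^ M * c • a = algebraMap (Pol n) A (C c) * (ε ^ M * a) := by
          rw [Algebra.smul_def, IsScalarTower.algebraMap_apply ℂ (Pol n) A, MvPolynomial.algebraMap_eq]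
          ring
        rw [h1, hGsmul, map_mul, constantCoeff_C, RingHom.id_apply, smul_eq_mul] }
  have hΦ : ∀ a, Φ a = constantCoeff (G (ε ^ M * a)) := fun a => rfl
  refine ⟨Φ, ?_, ?_, ?_⟩
  · -- vanishing on `I1`
    intro a ha
    rw [hΦ]
    have h1 : ε ^ M * a ∈ zI n A := by
      obtain ⟨M', rfl⟩ : ∃ M', M = M' + 1 := ⟨M - 1, by omega⟩
      rw [pow_succ, mul_assoc]
      exact Ideal.mul_mem_left _ _ (hε2 a ha)
    have h2 : ∀ b ∈ zI n A, ∀ c : A, constantCoeff (G (c * b)) = 0 := by
      intro b hb
      induction hb using Submodule.span_induction with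
      | mem y hy =>
        intro c
        obtain ⟨j, rfl⟩ := hy
        have h2 := hGsmul (X j) c
        show constantCoeff (G (c * algebraMap (Pol n) A (X j))) = 0
        rw [mul_comm, h2, map_mul, constantCoeff_X, zero_mul]
      | zero =>
        intro c
        have h2 := hGsmul 0 1
        rw [map_zero, zero_mul, zero_mul] at h2
        rw [mul_zero, h2, map_zero]
      | add y z _ _ hy hz => intro c; rw [mul_add, hGadd, map_add, hy, hz, add_zero]
      | smul d y _ hy => intro c; rw [smul_eq_mul, ← mul_assoc]; exact hy _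
    have h3 := h2 _ h1 1
    rwa [one_mul] at h3
  · -- nondegeneracy
    intro a ha
    set w : L := algebraMap A L g * J⁻¹ * algebraMap A L (ε ^ M * a) with hw
    obtain ⟨u, hu1, hu2⟩ := exists_dual (n := n) (K := K) (L := L) (A := A) S.cm w (by
      intro b
      refine ⟨G (ε ^ M * (a * b)), ?_, ?_⟩
      · rw [← hΦ]; exact ha b
      · rw [← hG, hw]
        congr 1
        rw [map_mul (algebraMap A L), map_mul (algebraMap A L), map_mul (algebraMap A L)]
        ring)
    -- each `u k * J` is regular at `x`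
    have h1 : ∀ k, ∃ g' a' : A, g' ∉ x ∧ algebraMap A L g' * (u k * J) = algebraMap A L a' := by
      intro k
      apply exists_mul_mem (n := n) (K := K) x (u k * J)
      intro h hh E hE hEA hc
      by_cases huk : u k = 0
      · rw [huk, zero_mul]; exact E.ge_zero 0
      have hhL := algebraMap_Pol_L_ne_zero' K (L := L) hh.ne_zero
      have hhK := algebraMap_S_K_ne_zero K h hh hh.ne_zero
      have hh0 : constantCoeff h = 0 := by
        have h2 : algebraMap (Pol n) A h ∈ E.center hEA := by
          rw [E.mem_center, ← IsScalarTower.algebraMap_apply, IsScalarTower.algebraMap_apply _ K L]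
          apply ge_one_of_mem_extensions hE
          rw [PrimeDivisorOver.ge_iff _ hhK, primeDiv_v_self K h hh]
        have h3 : h ∈ x.comap (algebraMap (Pol n) A) := hc h2
        rwa [comap_eq_org x S.hzx, mem_idealOfVars_iff] at h3
      have h2 : E.ge 1 (algebraMap K L (algebraMap (Pol n) K h) * u k) := by
        refine ge_one_of_trace_mem (algebraMap (Pol n) K h) hhK (primeDiv_v_self K h hh) (u k)
          (fun b hb => ?_) hE
        obtain ⟨s, a', hs, hsa⟩ := exists_mul_mem_of_isIntegral (A := A) hb
        have h3 := hu2 k a'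
        rw [mem_Tr] at h3
        obtain ⟨p, q, hq, hpq⟩ := h3
        have hs0 : s ≠ 0 := by rintro rfl; exact hs (dvd_zero _)
        have hsK := algebraMap_S_K_ne_zero K h hh hs0
        have hqK := algebraMap_K_ne_zero K hq
        have h4 : Algebra.trace K L (u k * b) = algebraMap (Pol n) K p *
            (algebraMap (Pol n) K (s * q))⁻¹ := by
          have h5 : algebraMap (Pol n) K s * Algebra.trace K L (u k * b) =
              algebraMap (Pol n) K p * (algebraMap (Pol n) K q)⁻¹ := by
            rw [← hpq, ← hsa, ← smul_eq_mul (algebraMap (Pol n) K s), ← map_smul, Algebra.smul_def,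
              ← IsScalarTower.algebraMap_apply]
            congr 1
            ring
          rw [map_mul (algebraMap (Pol n) K), mul_inv]
          rw [mul_comm (algebraMap (Pol n) K s)⁻¹, ← mul_assoc, ← h5]
          field_simp
        rw [h4, mem_primeDiv]
        refine ⟨p, s * q, ?_, rfl⟩
        intro hdvd
        rcases hh.dvd_or_dvd hdvd with h5 | ⟨q', hq'⟩
        · exact hs h5
        · apply hq
          rw [hq', map_mul, hh0, zero_mul]
      rw [← IsScalarTower.algebraMap_apply, E.ge_iff (mul_ne_zero hhL huk), E.v_mul hhL huk] at h2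
      rw [E.ge_iff (mul_ne_zero huk S.J_ne), E.v_mul huk S.J_ne, S.v_J hE hEA hc]
      omega
    choose g' a' hg' hga' using h1
    rw [mem_I1]
    refine ⟨(∏ k, g' k) * (g * ε ^ M), ?_, ?_⟩
    · intro h
      rcases hx.isPrime.mem_or_mem h with h1 | h1
      · rw [Ideal.IsPrime.prod_mem_iff] at h1
        obtain ⟨k, _, hk⟩ := h1
        exact hg' k hk
      · rcases hx.isPrime.mem_or_mem h1 with h2 | h2
        · exact hg h2
        · exact hεx (hx.isPrime.mem_of_pow_mem M h2)
    · classical
      have h1 : (∏ k, g' k) * (g * ε ^ M) * a =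
          ∑ k, ((∏ k' ∈ Finset.univ.erase k, g' k') * a' k) * algebraMap (Pol n) A (X k) := by
        apply hinj
        have h2 : w * J = algebraMap A L (g * ε ^ M * a) := by
          rw [hw]
          have := S.J_ne
          field_simp
          rw [← map_mul, mul_assoc]
        have h3 : algebraMap A L ((∏ k, g' k) * (g * ε ^ M) * a) =
            algebraMap A L (∏ k, g' k) * (w * J) := by
          rw [h2, ← map_mul]
          congr 1
          ring
        rw [h3, hu1, map_sum, Finset.sum_mul, Finset.mul_sum]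
        refine Finset.sum_congr rfl fun k _ => ?_
        rw [map_mul, map_mul, ← hga', ← IsScalarTower.algebraMap_apply,
          ← Finset.prod_erase_mul _ _ (Finset.mem_univ k), map_mul]
        ring
      rw [h1]
      exact Ideal.sum_mem _ fun k _ => Ideal.mul_mem_left _ _ (Ideal.subset_span ⟨k, rfl⟩)
  · -- divisors
    intro f b hfb
    by_contra hcon
    push Not at hcon
    apply hfb
    rw [hΦ]
    apply constantCoeff_eq_zero_of_ge K i₀
    rw [← hG]
    apply ge_one_trace
    intro E hE
    have hEA : E.IsOver A := isOver_of_mem_ordDiv hE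
    have hJi : E.ge (- E.v J) J⁻¹ := by
      rw [E.ge_iff (inv_ne_zero S.J_ne), E.v_inv S.J_ne]
    have hf0 : f ≠ 0 := by
      rintro rfl
      apply hfb
      rw [zero_mul, map_zero]
    have hfL : algebraMap A L f ≠ 0 := fun h0 => hf0 (hinj (h0.trans (map_zero _).symm))
    by_cases hcx : E.center hEA = x
    · have h1 := hcon E hE hEA hcx
      have h2 : E.ge (E.v J + 1) (algebraMap A L f) := by
        rw [E.ge_iff hfL]; omega
      have h3 := E.ge_mul (E.ge_mul (ge_A hEA g) hJi) (E.ge_mul (ge_A hEA (ε ^ M))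
        (E.ge_mul h2 (ge_A hEA b)))
      rw [map_mul, map_mul]
      exact E.ge_mono (by omega) h3
    · -- `ε` is in the center
      have hprime : (E.center hEA).IsPrime := by
        unfold PrimeDivisorOver.center
        infer_instance
      have hzc : ∀ j, algebraMap (Pol n) A (X j) ∈ E.center hEA := by
        intro j
        rw [E.mem_center, ← IsScalarTower.algebraMap_apply, IsScalarTower.algebraMap_apply _ K L]
        apply ge_one_of_mem_extensions hE
        exact ordDiv_ge_of_mem K i₀ _ (by simp)
      have hεc : ε ∈ E.center hEA := by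
        by_contra hε
        apply hcx
        have h1 : I1 n x ≤ E.center hEA := by
          intro a ha
          have h2 : ε * a ∈ E.center hEA := zI_le _ hzc (hε2 a ha)
          exact (hprime.mem_or_mem h2).resolve_left hε
        have h2 : x ≤ E.center hEA := Ideal.IsPrime.le_of_pow_le (hm₀.trans h1)
        exact (hx.eq_of_le hprime.ne_top h2).symm
      rw [E.mem_center] at hεc
      have h1 := E.ge_pow hεc M
      rw [← map_pow] at h1
      have h3 := E.ge_mul (E.ge_mul (ge_A hEA g) hJi) (E.ge_mul h1 (ge_A hEA (f * b)))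
      have h4 := hM E hE
      rw [map_mul]
      exact E.ge_mono (by omega) h3

end

end Vale.Agent.P282
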