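import Mathlib

/-!
Definitions for P282 (normalized volume of klt germs), in purely algebraic terms.
-/

set_option autoImplicit false

open scoped ENNReal

namespace Vale.Agent.P282

/-- A prime divisor over a variety with function field `L`: the local ring, inside `L`, of the
generic point of a prime divisor on some normal model, that is, a discrete valuation ring with
fraction field `L` which is essentially of finite type over `ℂ`. -/
structure PrimeDivisorOver (L : Type) [Field L] [Algebra ℂ L] where
  /-- the local ring -/
  ring : Subalgebra ℂ L
  [dvr : IsDiscreteValuationRing ring]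
  [frac : IsFractionRing ring L]
  [essFin : Algebra.EssFiniteType ℂ ring]

attribute [instance] PrimeDivisorOver.dvr PrimeDivisorOver.frac PrimeDivisorOver.essFin

variable {L : Type} [Field L] [Algebra ℂ L]

/-- A rational `n`-form on a variety with function field `L`, given by its values on `n`-tuples of
derivations (rational vector fields). -/
abbrev RationalForm (n : ℕ) (L : Type) [Field L] [Algebra ℂ L] : Type :=
  (Fin n → Derivation ℂ L L) → L

/-- The rational form `da₁ ∧ ⋯ ∧ daₙ`: its value on the derivations `D₁, …, Dₙ` is the Jacobian
determinant `det (Dᵢ aⱼ)`. -/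
noncomputable def dwedge {n : ℕ} (a : Fin n → L) : RationalForm n L :=
  fun D => Matrix.det (Matrix.of fun j i => D i (a j))

/-- The lattice of rational `n`-forms which are regular along a subring `O` of `L`: the `O`-span of
all `da₁ ∧ ⋯ ∧ daₙ` with `aᵢ ∈ O`. -/
noncomputable def regularForms (n : ℕ) (O : Subalgebra ℂ L) : Submodule O (RationalForm n L) :=
  Submodule.span O {η | ∃ a : Fin n → O, η = dwedge (fun i => (a i : L))}

namespace PrimeDivisorOver

variable (E : PrimeDivisorOver L)

/-- The order of vanishing of a rational `n`-form along `E`: the largest integer `k` such that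
`ϖ ^ (-k) • ω` is regular along `E`, where `ϖ` is a uniformizer. -/
noncomputable def ordForm (n : ℕ) (ω : RationalForm n L) : ℤ :=
  sSup {k : ℤ | ∃ ϖ : E.ring, Irreducible ϖ ∧ ((ϖ : L) ^ (-k)) • ω ∈ regularForms n E.ring}

/-- The log discrepancy of `E` with respect to a local generator `ω` of the canonical sheaf. -/
noncomputable def logDiscrepancy (n : ℕ) (ω : RationalForm n L) : ℤ := 1 + E.ordForm n ω

variable (A : Type) [CommRing A] [Algebra A L]

/-- `E` is a prime divisor over `Spec A`: functions on `Spec A` are regular along `E`. -/
def IsOver : Prop := ∀ a : A, algebraMap A L a ∈ E.ring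

variable {A} (h : E.IsOver A)

/-- The ideal of functions `f ∈ A` with `ord_E f ≥ t`. -/
noncomputable def valuationIdeal (t : ℕ) : Ideal A :=
  (IsLocalRing.maximalIdeal E.ring ^ t).comap ((algebraMap A L).codRestrict E.ring h)

/-- The center of `E` on `Spec A`, as a prime ideal of `A`. -/
noncomputable def center : Ideal A :=
  (IsLocalRing.maximalIdeal E.ring).comap ((algebraMap A L).codRestrict E.ring h)

/-- `E` is a prime divisor on `Spec A` itself: its local ring is the localization of `A` at the
center of `E`. -/
def IsOn : Prop := ∀ y ∈ E.ring, ∃ a b : A, b ∉ E.center h ∧ y * algebraMap A L b = algebraMap A L a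

/-- The volume of the valuation `ord_E` on `Spec A`:
`limsup n! ℓ(A / 𝔞_t) / t ^ n`. -/
noncomputable def volume (n : ℕ) : ℝ≥0∞ :=
  Filter.limsup (fun t : ℕ => (n.factorial : ℝ≥0∞) *
    (Module.length A (A ⧸ E.valuationIdeal h t) : ℝ≥0∞) / (t : ℝ≥0∞) ^ n) Filter.atTop

end PrimeDivisorOver

/-- The normalized volume of the closed point `x` of `Spec A`, where `ω` is a local generator of the
canonical sheaf at `x`: the infimum of `A(E) ^ n * vol(E)` over the prime divisors `E` over `Spec A`
with center `x`. -/
noncomputable def normalizedVolume (n : ℕ) {A : Type} [CommRing A] [Algebra A L] (x : Ideal A)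
    (ω : RationalForm n L) : ℝ≥0∞ :=
  ⨅ (E : PrimeDivisorOver L) (h : E.IsOver A) (_ : E.center h = x),
    ENNReal.ofReal (E.logDiscrepancy n ω) ^ n * E.volume h n

/-- A Noetherian local ring is Cohen–Macaulay if every system of parameters is a regular
sequence. -/
def IsCohenMacaulayLocal (R : Type) [CommRing R] [IsLocalRing R] : Prop :=
  ∀ rs : List R, (rs.length : WithBot ℕ∞) = ringKrullDim R →
    (Ideal.ofList rs).radical = IsLocalRing.maximalIdeal R → RingTheory.Sequence.IsRegular R rs

/-- `(Spec A, x)` is an affine normal Cohen–Macaulay variety of dimension `n` over `ℂ` with function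
field `L`, together with a closed point `x` at which the canonical divisor is Cartier, with local
generator `ω`, and at which `Spec A` is klt. -/
structure IsGorensteinKltGerm (n : ℕ) (A : Type) [CommRing A] [Algebra ℂ A] [Algebra A L]
    [IsScalarTower ℂ A L] (x : Ideal A) (ω : RationalForm n L) : Prop where
  domain : IsDomain A
  frac : IsFractionRing A L
  finiteType : Algebra.FiniteType ℂ A
  normal : IsIntegrallyClosed A
  dim : ringKrullDim A = n
  maximal : x.IsMaximal
  cohenMacaulay : ∀ (y : Ideal A) [y.IsMaximal], IsCohenMacaulayLocal (Localization.AtPrime y)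
  generator : ∀ (E : PrimeDivisorOver L) (h : E.IsOver A), E.IsOn h → E.center h ≤ x →
    Submodule.span E.ring {ω} = regularForms n E.ring
  klt : ∀ (E : PrimeDivisorOver L) (h : E.IsOver A), E.center h ≤ x → 0 < E.logDiscrepancy n ω

end Vale.Agent.P282
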