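import Vale.Agent.Lib.P282.Coord2

/-!
The prime divisors of `L` over a prime divisor `D` of a subfield `K`.
-/

set_option autoImplicit false
set_option linter.unusedSectionVars false

namespace Vale.Agent.P282

open IsLocalRing

section

variable {K : Type} (L : Type) [Field K] [Field L] [Algebra ℂ K] [Algebra ℂ L] [Algebra K L]
  [IsScalarTower ℂ K L] (D : PrimeDivisorOver K)

/-- the integral closure of the local ring of `D` -/
def Clo : Type := integralClosure D.ring L

noncomputable instance : CommRing (Clo L D) := inferInstanceAs (CommRing (integralClosure D.ring L))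

instance : IsDomain (Clo L D) := inferInstanceAs (IsDomain (integralClosure D.ring L))

noncomputable instance : Algebra D.ring (Clo L D) :=
  inferInstanceAs (Algebra D.ring (integralClosure D.ring L))

noncomputable instance : Algebra (Clo L D) L :=
  inferInstanceAs (Algebra (integralClosure D.ring L) L)

noncomputable instance : Algebra ℂ (Clo L D) :=
  inferInstanceAs (Algebra ℂ (integralClosure D.ring L))

instance : IsScalarTower D.ring (Clo L D) L :=
  inferInstanceAs (IsScalarTower D.ring (integralClosure D.ring L) L)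

instance : IsScalarTower ℂ (Clo L D) L :=
  inferInstanceAs (IsScalarTower ℂ (integralClosure D.ring L) L)

instance : IsScalarTower ℂ D.ring (Clo L D) :=
  inferInstanceAs (IsScalarTower ℂ D.ring (integralClosure D.ring L))

instance : IsIntegralClosure (Clo L D) D.ring L :=
  inferInstanceAs (IsIntegralClosure (integralClosure D.ring L) D.ring L)

variable [FiniteDimensional K L]

instance instFracClo : IsFractionRing (Clo L D) L :=
  isFractionRing_of_over D.ring K L (Clo L D)

instance instFinClo : Module.Finite D.ring (Clo L D) :=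
  finite_of_over D.ring K L (Clo L D)

instance instDedClo : IsDedekindDomain (Clo L D) :=
  isDedekindDomain_of_over D.ring K L (Clo L D)

instance instEssClo : Algebra.EssFiniteType ℂ (Clo L D) :=
  Algebra.EssFiniteType.comp ℂ D.ring (Clo L D)

/-- the prime divisors of `L` over `D` -/
def extensions : Set (PrimeDivisorOver L) :=
  {E | ∃ (P : Ideal (Clo L D)) (hP : P.IsMaximal), E = overDivisor D.ring K L (Clo L D) P}

variable {L} {D} {E : PrimeDivisorOver L}

theorem extensions_finite (D : PrimeDivisorOver K) : (extensions L D).Finite := by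
  have h1 : {P : Ideal (Clo L D) | P.IsMaximal}.Finite := by
    have h2 : ∀ P : Ideal (Clo L D), P.IsMaximal →
        P ∈ Ideal.primesOver (maximalIdeal D.ring) (Clo L D) := by
      intro P hP
      have : (P.comap (algebraMap D.ring (Clo L D))).IsMaximal :=
        Ideal.isMaximal_comap_of_isIntegral_of_isMaximal P
      exact ⟨hP.isPrime, ⟨(IsLocalRing.eq_maximalIdeal this).symm⟩⟩
    refine Set.Finite.subset ?_ h2
    exact Algebra.QuasiFinite.finite_primesOver (maximalIdeal D.ring)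
  have h3 := h1.to_subtype
  have h4 : extensions L D = Set.range (fun P : {P : Ideal (Clo L D) // P.IsMaximal} =>
      haveI := P.2
      overDivisor D.ring K L (Clo L D) P.1) := by
    ext E
    constructor
    · rintro ⟨P, hP, rfl⟩
      exact ⟨⟨P, hP⟩, rfl⟩
    · rintro ⟨⟨P, hP⟩, rfl⟩
      exact ⟨P, hP, rfl⟩
  rw [h4]
  have h5 : Finite {P : Ideal (Clo L D) // P.IsMaximal} := h3
  exact Set.finite_range _

theorem mem_of_mem_extensions (hE : E ∈ extensions L D) {y : K} (hy : y ∈ D.ring) :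
    algebraMap K L y ∈ E.ring := by
  obtain ⟨P, hP, rfl⟩ := hE
  exact algebraMap_mem_overDivisor' D.ring K L (Clo L D) P ⟨y, hy⟩

theorem ge_one_of_mem_extensions (hE : E ∈ extensions L D) {y : K} (hy : D.ge 1 y) :
    E.ge 1 (algebraMap K L y) := by
  have hm : y ∈ D.ring := by
    rw [D.mem_iff_ge]; exact D.ge_mono zero_le_one hy
  obtain ⟨P, hP, rfl⟩ := hE
  refine ge_one_of_mem_maximalIdeal D.ring K L (Clo L D) P ⟨y, hm⟩ ?_
  rw [D.mem_maximalIdeal_iff]
  exact hy

theorem v_eq_zero_of_mem_extensions (hE : E ∈ extensions L D) {y : K} (hy0 : y ≠ 0)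
    (hy : D.v y = 0) : E.v (algebraMap K L y) = 0 := by
  have h0 : algebraMap K L y ≠ 0 := by simpa using hy0
  have h1 : y ∈ D.ring := by rw [D.mem_iff_ge, D.ge_iff hy0, hy]
  have h2 : y⁻¹ ∈ D.ring := by
    rw [D.mem_iff_ge, D.ge_iff (inv_ne_zero hy0), D.v_inv hy0, hy]; simp
  have h3 := mem_of_mem_extensions hE h1
  have h4 := mem_of_mem_extensions hE h2
  rw [E.mem_iff_ge, E.ge_iff h0] at h3
  rw [map_inv₀, E.mem_iff_ge, E.ge_iff (inv_ne_zero h0), E.v_inv h0] at h4
  omega

theorem one_le_v_of_mem_extensions (hE : E ∈ extensions L D) {y : K} (hy0 : y ≠ 0)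
    (hy : 1 ≤ D.v y) : 1 ≤ E.v (algebraMap K L y) := by
  have h0 : algebraMap K L y ≠ 0 := by simpa using hy0
  rw [← E.ge_iff h0]
  exact ge_one_of_mem_extensions hE ((D.ge_iff hy0).mpr hy)

/-- trace of an element of positive valuation everywhere -/
theorem ge_one_trace (y : L) (hy : ∀ E ∈ extensions L D, E.ge 1 y) :
    D.ge 1 (Algebra.trace K L y) := by
  obtain ⟨t, ht, h⟩ := trace_mem_maximalIdeal D.ring K L (Clo L D) y fun P hP =>
    hy _ ⟨P, hP, rfl⟩
  rw [h]
  rw [D.mem_maximalIdeal_iff] at ht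
  exact ht

theorem irreducible_of_v_eq_one (D : PrimeDivisorOver K) {ϖ : K} (hϖ0 : ϖ ≠ 0) (hϖ : D.v ϖ = 1) :
    ∃ p : D.ring, (p : K) = ϖ ∧ Irreducible p := by
  have hm : ϖ ∈ D.ring := by rw [D.mem_iff_ge, D.ge_iff hϖ0, hϖ]; simp
  refine ⟨⟨ϖ, hm⟩, rfl, ?_⟩
  obtain ⟨u, hu⟩ := D.exists_unit ϖ hϖ0
  rw [hϖ, zpow_one] at hu
  have h1 : (⟨ϖ, hm⟩ : D.ring) = D.unif * u := Subtype.ext hu
  rw [h1, irreducible_mul_units]
  exact D.unif_irreducible

theorem trace_mem_ring (ϖ : K) (hϖ0 : ϖ ≠ 0) (hϖ : D.v ϖ = 1) (y : L)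
    (hy : ∀ E ∈ extensions L D, E.ge 1 (algebraMap K L ϖ * y)) :
    Algebra.trace K L y ∈ D.ring := by
  obtain ⟨p, rfl, hp⟩ := irreducible_of_v_eq_one D hϖ0 hϖ
  obtain ⟨t, ht⟩ := trace_mem D.ring K L (Clo L D) p hp y fun P hP => hy _ ⟨P, hP, rfl⟩
  rw [ht]
  exact t.2

theorem ge_one_of_trace_mem (ϖ : K) (hϖ0 : ϖ ≠ 0) (hϖ : D.v ϖ = 1) (y : L)
    (hy : ∀ b : L, IsIntegral D.ring b → Algebra.trace K L (y * b) ∈ D.ring)
    (hE : E ∈ extensions L D) : E.ge 1 (algebraMap K L ϖ * y) := by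
  obtain ⟨p, rfl, hp⟩ := irreducible_of_v_eq_one D hϖ0 hϖ
  obtain ⟨P, hP, rfl⟩ := hE
  let _ : Algebra ℚ D.ring := Algebra.compHom _ (algebraMap ℚ ℂ)
  refine ge_of_trace_mem D.ring K L (Clo L D) p hp y (fun b => ?_) P
  have hb : IsIntegral D.ring (algebraMap (Clo L D) L b) :=
    (IsIntegralClosure.isIntegral D.ring L b).map (IsScalarTower.toAlgHom D.ring (Clo L D) L)
  exact ⟨⟨_, hy _ hb⟩, rfl⟩

theorem isIntegral_of_forall_mem (y : L) (hy : ∀ E ∈ extensions L D, y ∈ E.ring) :
    IsIntegral D.ring y := by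
  obtain ⟨b, rfl⟩ := mem_of_forall_mem D.ring K L (Clo L D) y fun P hP => hy _ ⟨P, hP, rfl⟩
  exact (IsIntegralClosure.isIntegral D.ring L b).map (IsScalarTower.toAlgHom D.ring (Clo L D) L)

theorem mem_of_isIntegral (hE : E ∈ extensions L D) {y : L} (hy : IsIntegral D.ring y) :
    y ∈ E.ring := by
  obtain ⟨P, hP, rfl⟩ := hE
  obtain ⟨b, rfl⟩ := (IsIntegralClosure.isIntegral_iff (A := Clo L D)).mp hy
  exact algebraMap_mem_overDivisor D.ring K L (Clo L D) P b

theorem exists_integral_fraction (hE : E ∈ extensions L D) {y : L} (hy : y ∈ E.ring) :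
    ∃ b s : L, IsIntegral D.ring b ∧ IsIntegral D.ring s ∧ ¬ E.ge 1 s ∧ y * s = b := by
  obtain ⟨P, hP, rfl⟩ := hE
  rw [overDivisor_ring, mem_locRing] at hy
  obtain ⟨b, s, hs, rfl⟩ := hy
  have hs0 : algebraMap (Clo L D) L s ≠ 0 := by
    intro h
    apply hs
    rw [IsFractionRing.injective (Clo L D) L (h.trans (map_zero _).symm)]
    exact P.zero_mem
  refine ⟨algebraMap _ L b, algebraMap _ L s, ?_, ?_, ?_, ?_⟩
  · exact (IsIntegralClosure.isIntegral D.ring L b).map (IsScalarTower.toAlgHom D.ring (Clo L D) L)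
  · exact (IsIntegralClosure.isIntegral D.ring L s).map (IsScalarTower.toAlgHom D.ring (Clo L D) L)
  · rwa [← mem_iff_ge_overDivisor D.ring K L (Clo L D)]
  · field_simp

end

end Vale.Agent.P282
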