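import Vale.Agent.Lib.P282.OrdDiv

/-!
Divisors on a normal affine variety which is finite over affine space.
-/

set_option autoImplicit false
set_option linter.unusedSectionVars false

namespace Vale.Agent.P282

open IsLocalRing MvPolynomial

section

variable {n : ℕ} (K L A : Type) [Field K] [Field L] [Algebra ℂ K] [Algebra ℂ L] [Algebra K L]
  [IsScalarTower ℂ K L] [FiniteDimensional K L] [Algebra (Pol n) K] [IsScalarTower ℂ (Pol n) K]
  [IsFractionRing (Pol n) K] [CommRing A] [IsDomain A] [Algebra ℂ A] [Algebra A L]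
  [IsScalarTower ℂ A L] [Algebra (Pol n) A] [Algebra (Pol n) L] [IsScalarTower (Pol n) A L]
  [IsScalarTower (Pol n) K L] [IsScalarTower ℂ (Pol n) L] [IsIntegralClosure A (Pol n) L]

/-- the divisor of `K` attached to a prime polynomial -/
noncomputable abbrev polDiv (h : Pol n) (hh : Prime h) : PrimeDivisorOver K := primeDiv K h hh

theorem polDiv_isLocalization (h : Pol n) (hh : Prime h) :
    have : (Ideal.span {h}).IsPrime := (Ideal.span_singleton_prime hh.ne_zero).mpr hh
    ∃ _ : Algebra (Pol n) (polDiv K h hh).ring, IsScalarTower (Pol n) (polDiv K h hh).ring K ∧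
      IsLocalization.AtPrime (polDiv K h hh).ring (Ideal.span {h}) := by
  have : (Ideal.span {h}).IsPrime := (Ideal.span_singleton_prime hh.ne_zero).mpr hh
  exact ⟨(inferInstance : Algebra (Pol n) (locRing K (Ideal.span {h}))),
    (inferInstance : IsScalarTower (Pol n) (locRing K (Ideal.span {h})) K),
    (inferInstance : IsLocalization.AtPrime (locRing K (Ideal.span {h})) (Ideal.span {h}))⟩

variable {K L A}

theorem isIntegral_polDiv_of_A {h : Pol n} {hh : Prime h} (a : A) :
    IsIntegral (polDiv K h hh).ring (algebraMap A L a) := by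
  obtain ⟨h1, h2, h3⟩ := polDiv_isLocalization K h hh
  have h4 : IsScalarTower (Pol n) (polDiv K h hh).ring L := by
    refine IsScalarTower.of_algebraMap_eq fun s => ?_
    have e1 : algebraMap (polDiv K h hh).ring L (algebraMap (Pol n) (polDiv K h hh).ring s) =
        algebraMap K L (algebraMap (polDiv K h hh).ring K
          (algebraMap (Pol n) (polDiv K h hh).ring s)) := rfl
    rw [e1, ← IsScalarTower.algebraMap_apply (Pol n) (polDiv K h hh).ring K,
      ← IsScalarTower.algebraMap_apply]
  have h5 : IsIntegral (Pol n) (algebraMap A L a) :=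
    (IsIntegralClosure.isIntegral (Pol n) L a).map (IsScalarTower.toAlgHom (Pol n) A L)
  exact h5.tower_top

theorem exists_mul_mem_of_isIntegral {h : Pol n} {hh : Prime h} {b : L}
    (hb : IsIntegral (polDiv K h hh).ring b) :
    ∃ (s : Pol n) (a : A), ¬ h ∣ s ∧ algebraMap (Pol n) L s * b = algebraMap A L a := by
  have hP : (Ideal.span {h}).IsPrime := (Ideal.span_singleton_prime hh.ne_zero).mpr hh
  obtain ⟨h1, h2, h3⟩ := polDiv_isLocalization K h hh
  have h4 : IsScalarTower (Pol n) (polDiv K h hh).ring L := by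
    refine IsScalarTower.of_algebraMap_eq fun s => ?_
    have e1 : algebraMap (polDiv K h hh).ring L (algebraMap (Pol n) (polDiv K h hh).ring s) =
        algebraMap K L (algebraMap (polDiv K h hh).ring K
          (algebraMap (Pol n) (polDiv K h hh).ring s)) := rfl
    rw [e1, ← IsScalarTower.algebraMap_apply (Pol n) (polDiv K h hh).ring K,
      ← IsScalarTower.algebraMap_apply]
  obtain ⟨m, hm⟩ := IsIntegral.exists_multiple_integral_of_isLocalization
    (Ideal.span {h}).primeCompl b hb
  obtain ⟨a, ha⟩ := (IsIntegralClosure.isIntegral_iff (A := A)).mp hm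
  refine ⟨m, a, ?_, ?_⟩
  · rw [← Ideal.mem_span_singleton]; exact m.2
  · rw [ha, Submonoid.smul_def, Algebra.smul_def]

theorem isOver_of_mem {h : Pol n} {hh : Prime h} {E : PrimeDivisorOver L}
    (hE : E ∈ extensions L (polDiv K h hh)) : E.IsOver A := fun a =>
  mem_of_isIntegral hE (isIntegral_polDiv_of_A a)

variable (K) in
include K in
theorem exists_fraction (u : L) : ∃ (s : Pol n) (a : A), s ≠ 0 ∧
    algebraMap (Pol n) L s * u = algebraMap A L a := by
  have hinj : Function.Injective (algebraMap (Pol n) L) := by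
    rw [IsScalarTower.algebraMap_eq (Pol n) K L]
    exact (algebraMap K L).injective.comp (IsFractionRing.injective (Pol n) K)
  have halg : IsAlgebraic (Pol n) u := by
    rw [IsFractionRing.isAlgebraic_iff (Pol n) K L]
    exact Algebra.IsAlgebraic.isAlgebraic u
  obtain ⟨y, hy0, hy⟩ := halg.exists_integral_multiple
  obtain ⟨a, ha⟩ := (IsIntegralClosure.isIntegral_iff (A := A)).mp hy
  exact ⟨y, a, hy0, by rw [ha, Algebra.smul_def]⟩

/-- a polynomial fraction with no poles is a polynomial -/
theorem mem_of_forall_polDiv (y : K) (hy : ∀ (h : Pol n) (hh : Prime h), y ∈ (polDiv K h hh).ring) :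
    ∃ s : Pol n, algebraMap (Pol n) K s = y := by
  obtain ⟨a, b, hab, rfl⟩ := IsFractionRing.exists_reduced_fraction (A := Pol n) y
  have hb0 : (b : Pol n) ≠ 0 := nonZeroDivisors.ne_zero b.2
  have hbK : algebraMap (Pol n) K b ≠ 0 := fun h0 =>
    hb0 (IsFractionRing.injective (Pol n) K (h0.trans (map_zero _).symm))
  have hb : IsUnit (b : Pol n) := by
    by_contra hcon
    obtain ⟨h, hirr, hdvd⟩ := WfDvdMonoid.exists_irreducible_factor hcon hb0
    have hh : Prime h := hirr.prime
    have h1 := hy h hh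
    rw [mem_primeDiv] at h1
    obtain ⟨a1, s1, hs1, he⟩ := h1
    have hs0 : s1 ≠ 0 := by rintro rfl; exact hs1 (dvd_zero _)
    have hsK : algebraMap (Pol n) K s1 ≠ 0 := fun h0 =>
      hs0 (IsFractionRing.injective (Pol n) K (h0.trans (map_zero _).symm))
    have h2 : a * s1 = a1 * b := by
      apply IsFractionRing.injective (Pol n) K
      rw [IsFractionRing.mk'_eq_div] at he
      rw [map_mul, map_mul]
      field_simp at he
      rw [he, mul_comm]
    have h3 : h ∣ a * s1 := by rw [h2]; exact Dvd.dvd.mul_left hdvd a1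
    rcases hh.dvd_or_dvd h3 with h4 | h4
    · exact hirr.not_isUnit (hab h4 hdvd)
    · exact hs1 h4
  obtain ⟨v, hv⟩ := hb
  refine ⟨a * ((v⁻¹ : (Pol n)ˣ) : Pol n), ?_⟩
  rw [IsFractionRing.mk'_eq_div, eq_div_iff hbK, ← map_mul, mul_assoc, ← hv, Units.inv_mul, mul_one]

theorem associated_polDiv {h h' : Pol n} (hh : Prime h) (hh' : Prime h') (ha : Associated h h') :
    polDiv K h hh = polDiv K h' hh' := by
  have h1 : (polDiv K h hh).ring = (polDiv K h' hh').ring := by
    ext y
    rw [mem_primeDiv, mem_primeDiv]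
    constructor
    · rintro ⟨a, s, hs, he⟩
      exact ⟨a, s, fun h => hs (ha.dvd_iff_dvd_left.mpr h), he⟩
    · rintro ⟨a, s, hs, he⟩
      exact ⟨a, s, fun h => hs (ha.dvd_iff_dvd_left.mp h), he⟩
  revert h1
  generalize polDiv K h hh = D
  generalize polDiv K h' hh' = D'
  intro h1
  cases D
  cases D'
  simp only at h1
  subst h1
  rfl

/-- an element of `L` regular at all divisors is in `A` -/
theorem mem_of_forall_extensions (y : L) (hy : ∀ (h : Pol n) (hh : Prime h),
    ∀ E ∈ extensions L (polDiv K h hh), y ∈ E.ring) : ∃ a : A, algebraMap A L a = y := by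
  have h1 : ∀ (h : Pol n) (hh : Prime h), IsIntegral (polDiv K h hh).ring y := fun h hh =>
    isIntegral_of_forall_mem y (hy h hh)
  have h2 : ∀ i, ∃ s : Pol n, algebraMap (Pol n) K s = (minpoly K y).coeff i := by
    intro i
    apply mem_of_forall_polDiv
    intro h hh
    have h3 := minpoly.isIntegrallyClosed_eq_field_fractions' K (h1 h hh)
    rw [h3, Polynomial.coeff_map]
    exact ((minpoly (polDiv K h hh).ring y).coeff i).2
  have h3 : IsIntegral (Pol n) y := by
    have h4 : minpoly K y ∈ Polynomial.lifts (algebraMap (Pol n) K) := by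
      rw [Polynomial.lifts_iff_coeff_lifts]
      intro i
      obtain ⟨s, hs⟩ := h2 i
      exact ⟨s, hs⟩
    have hmonic := minpoly.monic (Algebra.IsIntegral.isIntegral (R := K) y)
    obtain ⟨q, hq1, _, hq3⟩ := Polynomial.lifts_and_natDegree_eq_and_monic h4 hmonic
    refine ⟨q, hq3, ?_⟩
    rw [IsScalarTower.algebraMap_eq (Pol n) K L, ← Polynomial.eval₂_map, hq1]
    exact minpoly.aeval K y
  exact (IsIntegralClosure.isIntegral_iff (A := A)).mp h3

/-- the divisors where `u` may have a pole form a finite set -/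
theorem finite_poles (s : Pol n) (hs : s ≠ 0) :
    {E : PrimeDivisorOver L | ∃ (h : Pol n) (hh : Prime h), h ∣ s ∧
      E ∈ extensions L (polDiv K h hh)}.Finite := by
  classical
  have h1 : {E : PrimeDivisorOver L | ∃ (h : Pol n) (hh : Prime h), h ∣ s ∧
      E ∈ extensions L (polDiv K h hh)} ⊆
      ⋃ q ∈ (UniqueFactorizationMonoid.factors s).toFinset,
        (if hq : Prime q then extensions L (polDiv K q hq) else ∅) := by
    rintro E ⟨h, hh, hdvd, hE⟩
    obtain ⟨q, hq, hhq⟩ := UniqueFactorizationMonoid.exists_mem_factors_of_dvd hs hh.irreducible hdvd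
    have hqp : Prime q := UniqueFactorizationMonoid.prime_of_factor q hq
    rw [Set.mem_iUnion₂]
    refine ⟨q, Multiset.mem_toFinset.mpr hq, ?_⟩
    rw [dif_pos hqp, ← associated_polDiv hh hqp hhq]
    exact hE
  refine Set.Finite.subset ?_ h1
  apply Set.Finite.biUnion (Finset.finite_toSet _)
  intro q _
  split_ifs
  · exact extensions_finite _
  · exact Set.finite_empty

/-- If `u` has no pole at the divisors through `x` then some `g ∉ x` kills all its poles. -/
theorem exists_fix (x : Ideal A) [hx : x.IsPrime] (u : L) (κ : Pol n → PrimeDivisorOver L → ℤ)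
    (hκ : ∀ (h : Pol n) (hh : Prime h), ∀ E ∈ extensions L (polDiv K h hh), κ h E ≤ 0)
    (hu : ∀ (h : Pol n) (hh : Prime h), ∀ E ∈ extensions L (polDiv K h hh),
      ∀ hE : E.IsOver A, E.center hE ≤ x → E.ge (κ h E) u) :
    ∃ g : A, g ∉ x ∧ ∀ (h : Pol n) (hh : Prime h), ∀ E ∈ extensions L (polDiv K h hh),
      E.ge (κ h E) (algebraMap A L g * u) := by
  classical
  by_cases hu0 : u = 0
  · refine ⟨1, (Ideal.ne_top_iff_one x).mp hx.ne_top, ?_⟩
    intro h hh E _
    rw [hu0, mul_zero]
    exact E.ge_zero _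
  obtain ⟨s, a, hs0, hsa⟩ := exists_fraction (n := n) (A := A) K u
  have hsL : algebraMap (Pol n) L s ≠ 0 := by
    rw [IsScalarTower.algebraMap_apply (Pol n) K L]
    simp only [ne_eq, map_eq_zero]
    exact fun h0 => hs0 (IsFractionRing.injective (Pol n) K (h0.trans (map_zero _).symm))
  have hfin := finite_poles (K := K) (L := L) s hs0
  -- choice of a good multiplier for each bad divisor
  have hw : ∀ E : PrimeDivisorOver L, ∃ w : A, w ∉ x ∧
      ((∃ hE : E.IsOver A, ¬ E.center hE ≤ x) → E.ge 0 (algebraMap A L w * u)) := by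
    intro E
    by_cases hE : ∃ hE : E.IsOver A, ¬ E.center hE ≤ x
    · obtain ⟨hE1, hE2⟩ := hE
      rw [SetLike.not_le_iff_exists] at hE2
      obtain ⟨w, hw1, hw2⟩ := hE2
      rw [E.mem_center] at hw1
      obtain ⟨m, hm⟩ : ∃ m : ℕ, - E.v u ≤ m := ⟨(- E.v u).toNat, Int.self_le_toNat _⟩
      refine ⟨w ^ m, fun h => hw2 (hx.mem_of_pow_mem m h), fun _ => ?_⟩
      have h1 := E.ge_mul (E.ge_pow hw1 m) ((E.ge_iff hu0).mpr le_rfl)
      rw [← map_pow] at h1
      exact E.ge_mono (by omega) h1
    · exact ⟨1, (Ideal.ne_top_iff_one x).mp hx.ne_top, fun h => absurd h hE⟩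
  choose w hw1 hw2 using hw
  refine ⟨∏ E ∈ hfin.toFinset, w E, ?_, ?_⟩
  · intro h
    rw [Ideal.IsPrime.prod_mem_iff] at h
    obtain ⟨E, _, hE⟩ := h
    exact hw1 E hE
  · intro h hh E hE
    have hEA : E.IsOver A := isOver_of_mem hE
    have hA0 : ∀ b : A, E.ge 0 (algebraMap A L b) := fun b => (E.mem_iff_ge).mp (hEA b)
    by_cases hc : E.center hEA ≤ x
    · have h1 := E.ge_mul (hA0 (∏ E ∈ hfin.toFinset, w E)) (hu h hh E hE hEA hc)
      simpa using h1
    · refine E.ge_mono (hκ h hh E hE) ?_
      by_cases hdvd : h ∣ s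
      · have hmem : E ∈ hfin.toFinset := by
          rw [Set.Finite.mem_toFinset]
          exact ⟨h, hh, hdvd, hE⟩
        rw [← Finset.prod_erase_mul _ _ hmem, map_mul, mul_assoc]
        have h1 := E.ge_mul (hA0 (∏ E ∈ hfin.toFinset.erase E, w E)) (hw2 E ⟨hEA, hc⟩)
        simpa using h1
      · have hsK : algebraMap (Pol n) K s ≠ 0 := fun h0 =>
          hs0 (IsFractionRing.injective (Pol n) K (h0.trans (map_zero _).symm))
        have hvs : E.v (algebraMap (Pol n) L s) = 0 := by
          rw [IsScalarTower.algebraMap_apply (Pol n) K L]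
          exact v_eq_zero_of_mem_extensions hE hsK (primeDiv_v_eq_zero K h hh hdvd)
        have h1 : E.ge 0 u := by
          have h2 := hA0 a
          rw [← hsa, E.ge_iff (mul_ne_zero hsL hu0), E.v_mul hsL hu0, hvs, zero_add] at h2
          exact (E.ge_iff hu0).mpr h2
        have h3 := E.ge_mul (hA0 (∏ E ∈ hfin.toFinset, w E)) h1
        simpa using h3

/-- a rational function without poles through `x` is regular at `x`. -/
theorem exists_mul_mem (x : Ideal A) [hx : x.IsPrime] (u : L)
    (hu : ∀ (h : Pol n) (hh : Prime h), ∀ E ∈ extensions L (polDiv K h hh),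
      ∀ hE : E.IsOver A, E.center hE ≤ x → E.ge 0 u) :
    ∃ g a : A, g ∉ x ∧ algebraMap A L g * u = algebraMap A L a := by
  obtain ⟨g, hg, h1⟩ := exists_fix x u (fun _ _ => 0) (fun _ _ _ _ => le_rfl) hu
  obtain ⟨a, ha⟩ := mem_of_forall_extensions (A := A) (K := K) (algebraMap A L g * u)
    fun h hh E hE => (E.mem_iff_ge).mpr (h1 h hh E hE)
  exact ⟨g, a, hg, ha.symm⟩

variable (K) in
include K in
/-- there is a divisor through `x` -/
theorem exists_divisor_through (x : Ideal A) [hx : x.IsPrime] (hx0 : x ≠ ⊥) :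
    ∃ (h : Pol n) (hh : Prime h), ∃ E ∈ extensions L (polDiv K h hh),
      ∃ hE : E.IsOver A, E.center hE ≤ x := by
  by_contra hcon
  push Not at hcon
  obtain ⟨a, hax, ha0⟩ := Submodule.exists_mem_ne_zero_of_ne_bot hx0
  have hinj : Function.Injective (algebraMap A L) :=
    IsIntegralClosure.algebraMap_injective A (Pol n) L
  have haL : algebraMap A L a ≠ 0 := fun h0 => ha0 (hinj (h0.trans (map_zero _).symm))
  obtain ⟨g, b, hg, hgb⟩ := exists_mul_mem (K := K) x (algebraMap A L a)⁻¹
    fun h hh E hE hEA hc => absurd hc (hcon h hh E hE hEA)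
  apply hg
  have : g = b * a := by
    apply hinj
    rw [map_mul, ← hgb]
    field_simp
  rw [this]
  exact x.mul_mem_left _ hax

/-- divisors over prime polynomials are divisors on `Spec A` -/
theorem isOn_of_mem {h : Pol n} {hh : Prime h} {E : PrimeDivisorOver L}
    (hE : E ∈ extensions L (polDiv K h hh)) (hEA : E.IsOver A) : E.IsOn hEA := by
  intro y hy
  obtain ⟨b, s, hb, hs, hs1, hys⟩ := exists_integral_fraction hE hy
  obtain ⟨t1, a1, ht1, ha1⟩ := exists_mul_mem_of_isIntegral (A := A) hb
  obtain ⟨t2, a2, ht2, ha2⟩ := exists_mul_mem_of_isIntegral (A := A) hs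
  refine ⟨algebraMap (Pol n) A t2 * a1, algebraMap (Pol n) A t1 * a2, ?_, ?_⟩
  · rw [E.mem_center, map_mul, ← ha2, ← IsScalarTower.algebraMap_apply]
    intro hcon
    apply hs1
    have hv : ∀ t : Pol n, ¬ h ∣ t → algebraMap (Pol n) L t ≠ 0 ∧
        E.v (algebraMap (Pol n) L t) = 0 := by
      intro t ht
      have ht0 : t ≠ 0 := by rintro rfl; exact ht (dvd_zero _)
      have htK : algebraMap (Pol n) K t ≠ 0 := fun h0 =>
        ht0 (IsFractionRing.injective (Pol n) K (h0.trans (map_zero _).symm))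
      rw [IsScalarTower.algebraMap_apply (Pol n) K L]
      exact ⟨by simpa using htK,
        v_eq_zero_of_mem_extensions hE htK (primeDiv_v_eq_zero K h hh ht)⟩
    by_cases hs0 : s = 0
    · rw [hs0]; exact E.ge_zero 1
    · obtain ⟨h1, h2⟩ := hv t1 ht1
      obtain ⟨h3, h4⟩ := hv t2 ht2
      rw [E.ge_iff (mul_ne_zero h1 (mul_ne_zero h3 hs0)), E.v_mul h1 (mul_ne_zero h3 hs0),
        E.v_mul h3 hs0, h2, h4] at hcon
      rw [E.ge_iff hs0]
      omega
  · rw [map_mul, map_mul, ← ha1, ← ha2, ← hys, ← IsScalarTower.algebraMap_apply,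
      ← IsScalarTower.algebraMap_apply]
    ring

end

end Vale.Agent.P282
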