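import Mathlib

/-!
Freeness over a regular local ring.
-/

set_option autoImplicit false

namespace Vale.Agent.P282

open IsLocalRing RingTheory.Sequence

theorem free_aux (m : ℕ) : ∀ (R M : Type) [CommRing R] [IsLocalRing R] [IsNoetherianRing R]
    [AddCommGroup M] [Module R M] [Module.Finite R M] (rs : List R), rs.length = m →
    Ideal.ofList rs = maximalIdeal R → IsWeaklyRegular M rs → Module.Free R M := by
  induction m with
  | zero =>
    intro R M _ _ _ _ _ _ rs hrs hmax _
    rw [List.length_eq_zero_iff] at hrs
    subst hrs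
    rw [Ideal.ofList_nil] at hmax
    have hf : IsField R := by
      rw [IsLocalRing.isField_iff_maximalIdeal_eq]
      exact hmax.symm
    let _ := hf.toField
    exact Module.Free.of_divisionRing R M
  | succ m ih =>
    intro R M _ _ _ _ _ _ rs hrs hmax hreg
    obtain ⟨r, rs', rfl⟩ : ∃ r rs', rs = r :: rs' := by
      cases rs with
      | nil => simp at hrs
      | cons r rs' => exact ⟨r, rs', rfl⟩
    rw [isWeaklyRegular_cons_iff'] at hreg
    have hr : r ∈ maximalIdeal R := by
      rw [← hmax, Ideal.ofList_cons]
      exact Ideal.mem_sup_left (Ideal.mem_span_singleton_self r)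
    have hnt : Nontrivial (R ⧸ Ideal.span {r}) := by
      apply Ideal.Quotient.nontrivial_iff.mpr
      intro h
      have h1 : Ideal.span {r} ≤ maximalIdeal R := (Ideal.span_singleton_le_iff_mem _).mpr hr
      rw [h] at h1
      exact (maximalIdeal.isMaximal R).ne_top (top_le_iff.mp h1)
    have hloc : IsLocalRing (R ⧸ Ideal.span {r}) :=
      IsLocalRing.of_surjective' _ Ideal.Quotient.mk_surjective
    have hfin : Module.Finite (R ⧸ Ideal.span {r}) (QuotSMulTop r M) :=
      Module.Finite.of_restrictScalars_finite R _ _
    have hmax' : Ideal.ofList (rs'.map (Ideal.Quotient.mk (Ideal.span {r}))) =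
        maximalIdeal (R ⧸ Ideal.span {r}) := by
      rw [← Ideal.map_ofList]
      have h1 : (maximalIdeal R).map (Ideal.Quotient.mk (Ideal.span {r})) =
          maximalIdeal (R ⧸ Ideal.span {r}) := by
        apply IsLocalRing.eq_maximalIdeal
        apply Ideal.IsMaximal.map_of_surjective_of_ker_le Ideal.Quotient.mk_surjective
        rw [Ideal.mk_ker]
        exact (Ideal.span_singleton_le_iff_mem _).mpr hr
      rw [← h1, ← hmax, Ideal.ofList_cons, Ideal.map_sup, Ideal.map_quotient_self, bot_sup_eq]
    have h2 := ih (R ⧸ Ideal.span {r}) (QuotSMulTop r M) (rs'.map (Ideal.Quotient.mk _))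
      (by simpa using hrs) hmax' hreg.2
    have hfp : Module.FinitePresentation R M := Module.finitePresentation_of_finite R M
    rw [← Module.free_quotSMulTop_iff_free R M (x := r) _ hreg.1]
    · exact h2
    · rw [IsLocalRing.jacobson_eq_maximalIdeal ⊥ bot_ne_top]
      exact hr

end Vale.Agent.P282
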