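import Vale.Agent.Lib.P282.AFacts
import Vale.Agent.Lib.P282.Free0

/-!
Freeness of a Cohen-Macaulay algebra over affine space, and duality for traces.
-/

set_option autoImplicit false
set_option linter.unusedSectionVars false

namespace Vale.Agent.P282

open IsLocalRing MvPolynomial RingTheory.Sequence

section

variable {n : ℕ} (K L A : Type) [Field K] [Field L] [Algebra ℂ K] [Algebra ℂ L] [Algebra K L]
  [IsScalarTower ℂ K L] [FiniteDimensional K L] [Algebra (Pol n) K] [IsScalarTower ℂ (Pol n) K]
  [IsFractionRing (Pol n) K] [CommRing A] [IsDomain A] [Algebra ℂ A] [Algebra A L]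
  [IsScalarTower ℂ A L] [Algebra (Pol n) A] [Algebra (Pol n) L] [IsScalarTower (Pol n) A L]
  [IsScalarTower (Pol n) K L] [IsScalarTower ℂ (Pol n) L] [IsIntegralClosure A (Pol n) L]

variable (n) in
/-- the local ring of the origin of affine space -/
noncomputable abbrev Tr : Subalgebra ℂ K := locRing K (org n)

theorem mem_Tr {y : K} : y ∈ Tr n K ↔ ∃ a s : Pol n, constantCoeff s ≠ 0 ∧
    y = algebraMap (Pol n) K a * (algebraMap (Pol n) K s)⁻¹ := by
  rw [mem_locRing]
  simp only [mem_idealOfVars_iff, ne_eq]

theorem algebraMap_K_ne_zero {s : Pol n} (hs : constantCoeff s ≠ 0) :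
    algebraMap (Pol n) K s ≠ 0 := fun h0 => by
  have : s = 0 := IsFractionRing.injective (Pol n) K (h0.trans (map_zero _).symm)
  rw [this, map_zero] at hs
  exact hs rfl

include K in
theorem algebraMap_L_ne_zero {s : Pol n} (hs : constantCoeff s ≠ 0) :
    algebraMap (Pol n) L s ≠ 0 := by
  rw [IsScalarTower.algebraMap_apply (Pol n) K L]
  simpa using algebraMap_K_ne_zero K hs

theorem Tr_smul (t : Tr n K) (y : L) : t • y = algebraMap K L (t : K) * y := by
  rw [← Algebra.smul_def]; rfl

/-- the semilocalization of `A` at the origin of affine space, inside `L` -/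
noncomputable def AT : Submodule (Tr n K) L where
  carrier := {y | ∃ (F : Pol n) (a : A), constantCoeff F ≠ 0 ∧
    algebraMap (Pol n) L F * y = algebraMap A L a}
  zero_mem' := ⟨1, 0, by simp, by simp⟩
  add_mem' := by
    rintro y y' ⟨F, a, hF, h⟩ ⟨F', a', hF', h'⟩
    refine ⟨F * F', algebraMap (Pol n) A F' * a + algebraMap (Pol n) A F * a', ?_, ?_⟩
    · rw [map_mul]; exact mul_ne_zero hF hF'
    · rw [map_add, map_mul, map_mul, map_mul, ← h, ← h', ← IsScalarTower.algebraMap_apply,
        ← IsScalarTower.algebraMap_apply]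
      ring
  smul_mem' := by
    rintro t y ⟨F, a, hF, h⟩
    obtain ⟨b, s, hs, hbs⟩ := (mem_Tr K).mp t.2
    refine ⟨F * s, algebraMap (Pol n) A b * a, ?_, ?_⟩
    · rw [map_mul]; exact mul_ne_zero hF hs
    · have h1 := algebraMap_L_ne_zero K L hs
      rw [Tr_smul, hbs, map_mul, map_mul, map_mul, map_inv₀, ← IsScalarTower.algebraMap_apply,
        ← IsScalarTower.algebraMap_apply, ← h, ← IsScalarTower.algebraMap_apply]
      field_simp

noncomputable instance instAddAT : AddCommGroup (AT K L A (n := n)) :=
  Submodule.addCommGroup (AT K L A (n := n))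

noncomputable instance instModAT : Module (Tr n K) (AT K L A (n := n)) :=
  Submodule.module (AT K L A (n := n))

variable {K L A}

theorem mem_AT {y : L} : y ∈ AT K L A (n := n) ↔ ∃ (F : Pol n) (a : A), constantCoeff F ≠ 0 ∧
    algebraMap (Pol n) L F * y = algebraMap A L a := Iff.rfl

theorem algebraMap_mem_AT (a : A) : algebraMap A L a ∈ AT K L A (n := n) :=
  ⟨1, a, by simp, by simp⟩

theorem inv_mem_Tr {F : Pol n} (hF : constantCoeff F ≠ 0) :
    (algebraMap (Pol n) K F)⁻¹ ∈ Tr n K := by
  rw [mem_Tr]
  exact ⟨1, F, hF, by simp⟩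

theorem finite_AT [Module.Finite (Pol n) A] : Module.Finite (Tr n K) (AT K L A (n := n)) := by
  rw [Module.Finite.iff_fg]
  obtain ⟨s, hs⟩ := (Module.Finite.fg_top : (⊤ : Submodule (Pol n) A).FG)
  classical
  refine ⟨s.image (algebraMap A L), ?_⟩
  apply le_antisymm
  · rw [Submodule.span_le]
    intro y hy
    rw [Finset.coe_image] at hy
    obtain ⟨a, _, rfl⟩ := hy
    exact algebraMap_mem_AT a
  · rintro y ⟨F, a, hF, h⟩
    have h1 : ∀ b : A, algebraMap A L b ∈
        Submodule.span (Tr n K) ((s.image (algebraMap A L) : Finset L) : Set L) := by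
      intro b
      have hb : b ∈ Submodule.span (Pol n) (s : Set A) := by rw [hs]; trivial
      induction hb using Submodule.span_induction with
      | mem x hx =>
        apply Submodule.subset_span
        rw [Finset.coe_image]
        exact ⟨x, hx, rfl⟩
      | zero => rw [map_zero]; exact Submodule.zero_mem _
      | add x y _ _ hx hy => rw [map_add]; exact Submodule.add_mem _ hx hy
      | smul c x _ hx =>
        have : algebraMap A L (c • x) = algebraMap (Pol n) (Tr n K) c • algebraMap A L x := by
          rw [Tr_smul, coe_algebraMap_locRing, ← IsScalarTower.algebraMap_apply,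
            Algebra.smul_def, map_mul, ← IsScalarTower.algebraMap_apply]
        rw [this]
        exact Submodule.smul_mem _ _ hx
    have h2 : y = (⟨_, inv_mem_Tr hF⟩ : Tr n K) • algebraMap A L a := by
      rw [Tr_smul, ← h, map_inv₀, ← IsScalarTower.algebraMap_apply]
      have := algebraMap_L_ne_zero K L hF
      field_simp
    rw [h2]
    exact Submodule.smul_mem _ _ (h1 a)

/-- membership in the ideal generated by some of the coordinates -/
theorem mem_smul_top_iff (s : Set (Fin n)) (y : AT K L A (n := n)) :
    y ∈ (Ideal.span ((fun j => algebraMap (Pol n) (Tr n K) (X j)) '' s) • ⊤ :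
      Submodule (Tr n K) (AT K L A (n := n))) ↔
    ∃ (F : Pol n) (a : A), constantCoeff F ≠ 0 ∧
      a ∈ Ideal.span ((fun j => algebraMap (Pol n) A (X j)) '' s) ∧
      algebraMap (Pol n) L F * (y : L) = algebraMap A L a := by
  set I := Ideal.span ((fun j => algebraMap (Pol n) (Tr n K) (X j)) '' s) with hI
  set J := Ideal.span ((fun j => algebraMap (Pol n) A (X j)) '' s) with hJ
  constructor
  · intro hy
    let N : Submodule (Tr n K) (AT K L A (n := n)) :=
      { carrier := {y | ∃ (F : Pol n) (a : A), constantCoeff F ≠ 0 ∧ a ∈ J ∧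
          algebraMap (Pol n) L F * (y : L) = algebraMap A L a}
        zero_mem' := ⟨1, 0, by simp, J.zero_mem, by simp⟩
        add_mem' := by
          rintro y y' ⟨F, a, hF, ha, h⟩ ⟨F', a', hF', ha', h'⟩
          refine ⟨F * F', algebraMap (Pol n) A F' * a + algebraMap (Pol n) A F * a', ?_, ?_, ?_⟩
          · rw [map_mul]; exact mul_ne_zero hF hF'
          · exact J.add_mem (J.mul_mem_left _ ha) (J.mul_mem_left _ ha')
          · rw [map_add, map_mul, map_mul, map_mul, ← h, ← h', ← IsScalarTower.algebraMap_apply,
              ← IsScalarTower.algebraMap_apply]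
            push_cast
            ring
        smul_mem' := by
          rintro t y ⟨F, a, hF, ha, h⟩
          obtain ⟨b, s, hs, hbs⟩ := (mem_Tr K).mp t.2
          refine ⟨F * s, algebraMap (Pol n) A b * a, ?_, J.mul_mem_left _ ha, ?_⟩
          · rw [map_mul]; exact mul_ne_zero hF hs
          · have h1 := algebraMap_L_ne_zero K L hs
            rw [Submodule.coe_smul, Tr_smul, hbs, map_mul, map_mul, map_mul, map_inv₀,
              ← IsScalarTower.algebraMap_apply, ← IsScalarTower.algebraMap_apply, ← h,
              ← IsScalarTower.algebraMap_apply]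
            field_simp }
    have hIN : I • (⊤ : Submodule (Tr n K) (AT K L A (n := n))) ≤ N := by
      rw [Submodule.smul_le]
      intro r hr m _
      induction hr using Submodule.span_induction with
      | mem x hx =>
        obtain ⟨j, hj, rfl⟩ := hx
        obtain ⟨F, a, hF, h⟩ := m.2
        refine ⟨F, algebraMap (Pol n) A (X j) * a, hF, ?_, ?_⟩
        · exact J.mul_mem_right _ (Ideal.subset_span ⟨j, hj, rfl⟩)
        · rw [Submodule.coe_smul, Tr_smul, coe_algebraMap_locRing,
            ← IsScalarTower.algebraMap_apply, map_mul, ← h, ← IsScalarTower.algebraMap_apply]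
          ring
      | zero => rw [zero_smul]; exact N.zero_mem
      | add x y _ _ hx hy => rw [add_smul]; exact N.add_mem hx hy
      | smul c x _ hx => rw [smul_assoc]; exact N.smul_mem c hx
    exact hIN hy
  · rintro ⟨F, a, hF, ha, h⟩
    have h1 : ∀ a ∈ J, ∀ b : A, (⟨algebraMap A L (b * a), algebraMap_mem_AT (b * a)⟩ :
        AT K L A (n := n)) ∈ I • (⊤ : Submodule (Tr n K) (AT K L A (n := n))) := by
      intro a ha
      induction ha using Submodule.span_induction with
      | mem x hx =>
        intro b
        obtain ⟨j, hj, rfl⟩ := hx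
        have h2 : (⟨algebraMap A L (b * algebraMap (Pol n) A (X j)), algebraMap_mem_AT _⟩ :
            AT K L A (n := n)) = algebraMap (Pol n) (Tr n K) (X j) •
              (⟨algebraMap A L b, algebraMap_mem_AT b⟩ : AT K L A (n := n)) := by
          apply Subtype.ext
          rw [Submodule.coe_smul, Tr_smul, coe_algebraMap_locRing]
          show algebraMap A L (b * algebraMap (Pol n) A (X j)) = _ * algebraMap A L b
          rw [map_mul, ← IsScalarTower.algebraMap_apply, ← IsScalarTower.algebraMap_apply,
            mul_comm]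
        show (⟨algebraMap A L (b * algebraMap (Pol n) A (X j)), algebraMap_mem_AT _⟩ :
            AT K L A (n := n)) ∈ _
        rw [h2]
        exact Submodule.smul_mem_smul (Ideal.subset_span ⟨j, hj, rfl⟩) trivial
      | zero =>
        intro b
        have h2 : (⟨algebraMap A L (b * 0), algebraMap_mem_AT _⟩ : AT K L A (n := n)) = 0 :=
          Subtype.ext (by show algebraMap A L (b * 0) = 0; rw [mul_zero, map_zero])
        rw [h2]; exact Submodule.zero_mem _
      | add x y _ _ hx hy =>
        intro b
        have h2 : (⟨algebraMap A L (b * (x + y)), algebraMap_mem_AT _⟩ : AT K L A (n := n)) =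
            ⟨algebraMap A L (b * x), algebraMap_mem_AT _⟩ +
              ⟨algebraMap A L (b * y), algebraMap_mem_AT _⟩ :=
          Subtype.ext (by
            show algebraMap A L (b * (x + y)) = algebraMap A L (b * x) + algebraMap A L (b * y)
            rw [mul_add, map_add])
        rw [h2]; exact Submodule.add_mem _ (hx b) (hy b)
      | smul c x _ hx =>
        intro b
        have h2 : (⟨algebraMap A L (b * (c • x)), algebraMap_mem_AT _⟩ : AT K L A (n := n)) =
            ⟨algebraMap A L ((b * c) * x), algebraMap_mem_AT _⟩ :=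
          Subtype.ext (by
            show algebraMap A L (b * (c • x)) = algebraMap A L ((b * c) * x)
            rw [smul_eq_mul, mul_assoc])
        rw [h2]; exact hx (b * c)
    have h2 : y = (⟨_, inv_mem_Tr hF⟩ : Tr n K) •
        (⟨algebraMap A L (1 * a), algebraMap_mem_AT (1 * a)⟩ : AT K L A (n := n)) := by
      apply Subtype.ext
      rw [Submodule.coe_smul, Tr_smul]
      show (y : L) = algebraMap K L (algebraMap (Pol n) K F)⁻¹ * algebraMap A L (1 * a)
      rw [one_mul, ← h, map_inv₀, ← IsScalarTower.algebraMap_apply]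
      have := algebraMap_L_ne_zero K L hF
      field_simp
    rw [h2]
    exact Submodule.smul_mem _ _ (h1 a ha 1)

theorem isWeaklyRegular_AT [Module.Finite (Pol n) A] [IsScalarTower ℂ (Pol n) A]
    [FaithfulSMul (Pol n) A]
    (hCM : ∀ (y : Ideal A) [y.IsMaximal], IsCohenMacaulayLocal (Localization.AtPrime y)) :
    IsWeaklyRegular (AT K L A (n := n))
      (List.ofFn fun j : Fin n => algebraMap (Pol n) (Tr n K) (X j)) := by
  have hinj : Function.Injective (algebraMap A L) :=
    IsIntegralClosure.algebraMap_injective A (Pol n) L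
  constructor
  intro i hi
  rw [isSMulRegular_quotient_iff_mem_of_smul_mem, List.getElem_ofFn, ofList_take]
  intro y hy
  have hi' : i < n := by simpa using hi
  rw [mem_smul_top_iff] at hy ⊢
  obtain ⟨F, a, hF, ha, h⟩ := hy
  obtain ⟨G, b, hG, hb⟩ := mem_AT.mp y.2
  have h1 : algebraMap (Pol n) A (X ⟨i, hi'⟩) * (algebraMap (Pol n) A F * b) =
      algebraMap (Pol n) A G * a := by
    apply hinj
    rw [map_mul, map_mul, map_mul, ← h, ← hb, ← IsScalarTower.algebraMap_apply,
      ← IsScalarTower.algebraMap_apply, ← IsScalarTower.algebraMap_apply, Submodule.coe_smul,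
      Tr_smul, coe_algebraMap_locRing, ← IsScalarTower.algebraMap_apply]
    ring
  obtain ⟨H, hH, hHb⟩ := regular_of_cohenMacaulay hCM ⟨i, hi'⟩ (algebraMap (Pol n) A F * b) (by
    rw [h1]
    exact Ideal.mul_mem_left _ _ ha)
  refine ⟨H * (F * G), algebraMap (Pol n) A H * (algebraMap (Pol n) A F * b), ?_, hHb, ?_⟩
  · rw [map_mul, map_mul]
    exact mul_ne_zero (by rw [hH]; exact one_ne_zero) (mul_ne_zero hF hG)
  · rw [map_mul, map_mul, map_mul, map_mul, ← hb, ← IsScalarTower.algebraMap_apply,
      ← IsScalarTower.algebraMap_apply]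
    ring

theorem free_AT [Module.Finite (Pol n) A] [IsScalarTower ℂ (Pol n) A]
    [FaithfulSMul (Pol n) A]
    (hCM : ∀ (y : Ideal A) [y.IsMaximal], IsCohenMacaulayLocal (Localization.AtPrime y)) :
    Module.Free (Tr n K) (AT K L A (n := n)) := by
  have hloc : IsLocalRing (Tr n K) := IsLocalization.AtPrime.isLocalRing (Tr n K) (org n)
  have hN : IsNoetherianRing (Tr n K) :=
    IsLocalization.isNoetherianRing (org n).primeCompl (Tr n K) inferInstance
  have hfin := finite_AT (K := K) (L := L) (A := A) (n := n)
  refine free_aux n (Tr n K) (AT K L A (n := n))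
    (List.ofFn fun j : Fin n => algebraMap (Pol n) (Tr n K) (X j)) (by simp) ?_
    (isWeaklyRegular_AT hCM)
  have h4 := ofList_take (Tr n K) (fun j : Fin n => algebraMap (Pol n) (Tr n K) (X j)) n
  rw [List.take_of_length_le (by simp)] at h4
  rw [h4, ← IsLocalization.AtPrime.map_eq_maximalIdeal (org n) (Tr n K), Ideal.map_span,
    ← Set.range_comp]
  congr 1
  ext r
  simp

/-- duality -/
theorem exists_dual [Module.Finite (Pol n) A] [IsScalarTower ℂ (Pol n) A]
    [FaithfulSMul (Pol n) A]
    (hCM : ∀ (y : Ideal A) [y.IsMaximal], IsCohenMacaulayLocal (Localization.AtPrime y)) (w : L)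
    (hw : ∀ a : A, ∃ G : Pol n, constantCoeff G = 0 ∧
      Algebra.trace K L (w * algebraMap A L a) = algebraMap (Pol n) K G) :
    ∃ u : Fin n → L, w = ∑ k, algebraMap (Pol n) L (X k) * u k ∧
      ∀ k, ∀ a : A, Algebra.trace K L (u k * algebraMap A L a) ∈ Tr n K := by
  classical
  have hfree := free_AT (n := n) (K := K) (L := L) hCM
  have hfin := finite_AT (K := K) (L := L) (A := A) (n := n)
  have hloc : IsLocalRing (Tr n K) := IsLocalization.AtPrime.isLocalRing (Tr n K) (org n)
  let ι := Module.Free.ChooseBasisIndex (Tr n K) (AT K L A (n := n))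
  let b : Module.Basis ι (Tr n K) (AT K L A (n := n)) :=
    Module.Free.chooseBasis (Tr n K) (AT K L A (n := n))
  have hι : Finite ι := inferInstance
  have _ := Fintype.ofFinite ι
  -- the basis of `L`
  have hli : LinearIndependent K (fun i => (b i : L)) := by
    rw [← LinearIndependent.iff_fractionRing (R := Tr n K) (K := K)]
    exact b.linearIndependent.map' (AT K L A (n := n)).subtype (Submodule.ker_subtype _)
  have hspan : ⊤ ≤ Submodule.span K (Set.range fun i => (b i : L)) := by
    intro y _
    obtain ⟨s, a, hs, hsa⟩ := exists_fraction (n := n) (A := A) K y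
    have h1 : ∀ y : AT K L A (n := n), (y : L) ∈ Submodule.span K (Set.range fun i => (b i : L)) := by
      intro y
      have h2 := b.sum_repr y
      rw [← h2, Submodule.coe_sum]
      refine Submodule.sum_mem _ fun i _ => ?_
      rw [Submodule.coe_smul, Tr_smul, ← Algebra.smul_def]
      exact Submodule.smul_mem _ _ (Submodule.subset_span ⟨i, rfl⟩)
    have hsK : algebraMap (Pol n) K s ≠ 0 := fun h0 =>
      hs (IsFractionRing.injective (Pol n) K (h0.trans (map_zero _).symm))
    have h3 : y = (algebraMap (Pol n) K s)⁻¹ • algebraMap A L a := by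
      rw [← hsa, Algebra.smul_def, map_inv₀, ← IsScalarTower.algebraMap_apply]
      have : algebraMap (Pol n) L s ≠ 0 := by
        rw [IsScalarTower.algebraMap_apply (Pol n) K L]; simpa using hsK
      field_simp
    rw [h3]
    exact Submodule.smul_mem _ _ (h1 ⟨_, algebraMap_mem_AT a⟩)
  let B : Module.Basis ι K L := Module.Basis.mk hli hspan
  have hB : ∀ i, B i = (b i : L) := fun i => by rw [Module.Basis.mk_apply]
  -- traces against the basis
  have htr : ∀ i, ∃ c : Fin n → Tr n K, Algebra.trace K L (w * B i) =
      ∑ k, algebraMap (Pol n) K (X k) * (c k : K) := by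
    intro i
    obtain ⟨F, a, hF, hFa⟩ := mem_AT.mp (b i).2
    obtain ⟨G, hG0, hG⟩ := hw a
    rw [← mem_idealOfVars_iff, Ideal.mem_span_range_iff_exists_fun] at hG0
    obtain ⟨g, hg⟩ := hG0
    refine ⟨fun k => ⟨_, inv_mem_Tr hF⟩ * algebraMap (Pol n) (Tr n K) (g k), ?_⟩
    have hFK := algebraMap_K_ne_zero K hF
    have h1 : algebraMap (Pol n) K F * Algebra.trace K L (w * B i) = algebraMap (Pol n) K G := by
      rw [← hG, ← smul_eq_mul, ← map_smul, Algebra.smul_def, ← IsScalarTower.algebraMap_apply,
        ← hFa, hB]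
      congr 1
      ring
    have h2 : Algebra.trace K L (w * B i) = (algebraMap (Pol n) K F)⁻¹ * algebraMap (Pol n) K G := by
      rw [← h1]; field_simp
    rw [h2, ← hg, map_sum, Finset.mul_sum]
    refine Finset.sum_congr rfl fun k _ => ?_
    rw [map_mul]
    show _ = algebraMap (Pol n) K (X k) * ((algebraMap (Pol n) K F)⁻¹ * algebraMap (Pol n) K (g k))
    ring
  choose c hc using htr
  refine ⟨fun k => ∑ i, algebraMap K L (c i k : K) * B.traceDual i, ?_, ?_⟩
  · have h1 := B.traceDual.sum_repr w
    rw [← h1]
    have h2 : ∀ i, B.traceDual.repr w i = ∑ k, algebraMap (Pol n) K (X k) * (c i k : K) := by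
      intro i
      rw [Module.Basis.traceDual_repr_apply, Algebra.traceForm_apply, hc]
    simp_rw [h2, Finset.mul_sum, Algebra.smul_def, map_sum, Finset.sum_mul]
    rw [Finset.sum_comm]
    refine Finset.sum_congr rfl fun k _ => Finset.sum_congr rfl fun i _ => ?_
    rw [map_mul, ← IsScalarTower.algebraMap_apply]
    ring
  · intro k a
    obtain ⟨r, hr⟩ : ∃ r : ι → Tr n K, algebraMap A L a =
        ∑ i, algebraMap K L ((r i : Tr n K) : K) * B i := by
      have h1 := b.sum_repr (⟨_, algebraMap_mem_AT a⟩ : AT K L A (n := n))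
      refine ⟨fun i => b.repr ⟨_, algebraMap_mem_AT a⟩ i, ?_⟩
      have h3 := congrArg (fun y : AT K L A (n := n) => (y : L)) h1
      simp only [Submodule.coe_sum, Submodule.coe_smul, Tr_smul] at h3
      refine h3.symm.trans ?_
      refine Finset.sum_congr rfl fun i _ => ?_
      rw [hB]
    have h4 : Algebra.trace K L ((∑ i, algebraMap K L (c i k : K) * B.traceDual i) *
        algebraMap A L a) = ∑ i, (c i k : K) * ((r i : Tr n K) : K) := by
      rw [hr, Finset.sum_mul_sum, map_sum]
      refine Finset.sum_congr rfl fun i _ => ?_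
      rw [map_sum, Finset.sum_eq_single i]
      · have h5 : algebraMap K L (c i k : K) * B.traceDual i *
            (algebraMap K L ((r i : Tr n K) : K) * B i) =
            ((c i k : K) * ((r i : Tr n K) : K)) • (B.traceDual i * B i) := by
          rw [Algebra.smul_def, map_mul]; ring
        rw [h5, map_smul, Module.Basis.trace_traceDual_mul, if_pos rfl, smul_eq_mul, mul_one]
      · intro j _ hj
        have h5 : algebraMap K L (c i k : K) * B.traceDual i *
            (algebraMap K L ((r j : Tr n K) : K) * B j) =
            ((c i k : K) * ((r j : Tr n K) : K)) • (B.traceDual i * B j) := by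
          rw [Algebra.smul_def, map_mul]; ring
        rw [h5, map_smul, Module.Basis.trace_traceDual_mul, if_neg hj, smul_zero]
      · intro h; exact absurd (Finset.mem_univ _) h
    show Algebra.trace K L ((∑ i, algebraMap K L (c i k : K) * B.traceDual i) *
        algebraMap A L a) ∈ Tr n K
    rw [h4]
    exact Subalgebra.sum_mem _ fun i _ => (Tr n K).mul_mem (c i k).2 (r i).2

end

end Vale.Agent.P282
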