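import Mathlib

set_option autoImplicit false

namespace Vale.Agent.P282

open MvPolynomial

theorem aeval_mul_of_isHomogeneous {R L σ : Type} [CommRing R] [CommRing L] [Algebra R L]
    [Fintype σ] {k : ℕ} {Q : MvPolynomial σ R} (hQ : Q.IsHomogeneous k) (w : L) (y : σ → L) :
    aeval (fun i => w * y i) Q = w ^ k * aeval y Q := by
  rw [aeval_def, aeval_def, eval₂_eq', eval₂_eq', Finset.mul_sum]
  apply Finset.sum_congr rfl
  intro d hd
  have hdeg : ∑ i, d i = k := by
    have := hQ.degree_eq_sum_deg_support hd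
    rw [this]
    exact (Finset.sum_subset (Finset.subset_univ _) (by
      intro i _ hi
      simpa using hi)).symm
  simp only [mul_pow]
  rw [Finset.prod_mul_distrib, Finset.prod_pow_eq_pow_sum, hdeg]
  ring

section

variable {L : Type} [Field L] [Algebra ℂ L] (V : ValuationSubring L)
  (hV : ∀ c : ℂ, algebraMap ℂ L c ∈ V)

include hV

theorem val_const {c : ℂ} (hc : c ≠ 0) : V.valuation (algebraMap ℂ L c) = 1 := by
  have h1 : V.valuation (algebraMap ℂ L c) ≤ 1 := (V.valuation_le_one_iff _).mpr (hV c)
  have h2 : V.valuation (algebraMap ℂ L c⁻¹) ≤ 1 := (V.valuation_le_one_iff _).mpr (hV c⁻¹)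
  have h3 : V.valuation (algebraMap ℂ L c) * V.valuation (algebraMap ℂ L c⁻¹) = 1 := by
    rw [← map_mul, ← map_mul, mul_inv_cancel₀ hc, map_one, map_one]
  refine le_antisymm h1 ?_
  calc (1 : V.ValueGroup) = V.valuation (algebraMap ℂ L c) * V.valuation (algebraMap ℂ L c⁻¹) :=
        h3.symm
    _ ≤ V.valuation (algebraMap ℂ L c) * 1 := mul_le_mul_right h2 _
    _ = _ := mul_one _

theorem val_aeval_sub_lt {m : ℕ} (y : Fin m → L) (lam : Fin m → ℂ)
    (hy : ∀ i, V.valuation (y i - algebraMap ℂ L (lam i)) < 1) (Q : MvPolynomial (Fin m) ℂ) :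
    V.valuation (aeval y Q - algebraMap ℂ L (eval lam Q)) < 1 := by
  have hy1 : ∀ i, V.valuation (y i) ≤ 1 := by
    intro i
    have : y i = (y i - algebraMap ℂ L (lam i)) + algebraMap ℂ L (lam i) := by ring
    rw [this]
    exact V.valuation.map_add_le (hy i).le ((V.valuation_le_one_iff _).mpr (hV _))
  induction Q using MvPolynomial.induction_on with
  | C a => simp
  | add p q hp hq =>
    have e : aeval y (p + q) - algebraMap ℂ L (eval lam (p + q)) =
        (aeval y p - algebraMap ℂ L (eval lam p)) + (aeval y q - algebraMap ℂ L (eval lam q)) := by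
      rw [map_add, map_add, map_add]; ring
    rw [e]
    exact V.valuation.map_add_lt hp hq
  | mul_X p i hp =>
    have e : aeval y (p * X i) - algebraMap ℂ L (eval lam (p * X i)) =
        (aeval y p - algebraMap ℂ L (eval lam p)) * y i
          + algebraMap ℂ L (eval lam p) * (y i - algebraMap ℂ L (lam i)) := by
      rw [map_mul, map_mul, map_mul, aeval_X, eval_X]; ring
    rw [e]
    apply V.valuation.map_add_lt
    · rw [map_mul]
      calc _ ≤ V.valuation (aeval y p - algebraMap ℂ L (eval lam p)) * 1 :=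
            mul_le_mul_right (hy1 i) _
        _ < 1 := by rw [mul_one]; exact hp
    · rw [map_mul]
      calc _ ≤ 1 * V.valuation (y i - algebraMap ℂ L (lam i)) :=
            mul_le_mul_left ((V.valuation_le_one_iff _).mpr (hV _)) _
        _ < 1 := by rw [one_mul]; exact hy i

theorem key_projection {n : ℕ} (z : Fin (n + 1) → L) (P : MvPolynomial (Fin (n + 1)) ℂ)
    (k0 : ℕ) (mu : Fin (n + 1) → ℂ) (hmu : mu (Fin.last n) ≠ 0) (hP : aeval z P = 0)
    (hk : eval mu (homogeneousComponent k0 P) ≠ 0) (hw : z (Fin.last n) ≠ 0)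
    (hlt : ∀ i : Fin n, V.valuation
      (z i.castSucc - (mu i.castSucc / mu (Fin.last n)) • z (Fin.last n)) <
        V.valuation (z (Fin.last n)))
    (hside : ∀ k, k ≠ k0 → homogeneousComponent k P ≠ 0 →
      V.valuation (z (Fin.last n)) ^ k < V.valuation (z (Fin.last n)) ^ k0) : False := by
  set w := z (Fin.last n) with hwdef
  have hvw : V.valuation w ≠ 0 := (V.valuation.ne_zero_iff).mpr hw
  have hvwpos : 0 < V.valuation w := zero_lt_iff.mpr hvw
  let y : Fin (n + 1) → L := fun i => z i / w
  let lam : Fin (n + 1) → ℂ := fun i => mu i / mu (Fin.last n)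
  have hzy : z = fun i => w * y i := by
    funext i
    simp only [y]
    rw [mul_div_cancel₀ _ hw]
  have hy : ∀ i, V.valuation (y i - algebraMap ℂ L (lam i)) < 1 := by
    intro i
    refine Fin.lastCases ?_ ?_ i
    · have : y (Fin.last n) - algebraMap ℂ L (lam (Fin.last n)) = 0 := by
        simp only [y, lam]
        rw [← hwdef, div_self hw, div_self hmu, map_one, sub_self]
      rw [this, map_zero]
      exact zero_lt_one
    · intro i
      have e : y i.castSucc - algebraMap ℂ L (lam i.castSucc) =
          (z i.castSucc - (mu i.castSucc / mu (Fin.last n)) • w) / w := by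
        simp only [y, lam]
        rw [Algebra.smul_def, sub_div, mul_div_cancel_right₀ _ hw]
      rw [e, map_div₀, div_lt_one₀ hvwpos]
      exact hlt i
  have hle : ∀ Q : MvPolynomial (Fin (n + 1)) ℂ, V.valuation (aeval y Q) ≤ 1 := by
    intro Q
    have h1 := val_aeval_sub_lt V hV y lam hy Q
    have e : aeval y Q = (aeval y Q - algebraMap ℂ L (eval lam Q)) + algebraMap ℂ L (eval lam Q) := by
      ring
    rw [e]
    exact V.valuation.map_add_le h1.le ((V.valuation_le_one_iff _).mpr (hV _))
  have hcomp : ∀ k, aeval z (homogeneousComponent k P) =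
      w ^ k * aeval y (homogeneousComponent k P) := by
    intro k
    conv_lhs => rw [hzy]
    exact aeval_mul_of_isHomogeneous (homogeneousComponent_isHomogeneous k P) w y
  have hlam : eval lam (homogeneousComponent k0 P) ≠ 0 := by
    intro h0
    apply hk
    have h1 := aeval_mul_of_isHomogeneous (homogeneousComponent_isHomogeneous k0 P)
      (mu (Fin.last n)) lam
    have h2 : (fun i => mu (Fin.last n) * lam i) = mu := by
      funext i
      simp only [lam]
      rw [mul_div_cancel₀ _ hmu]
    rw [h2, aeval_eq_eval, aeval_eq_eval] at h1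
    rw [h1, h0, mul_zero]
  have hk0 : V.valuation (aeval y (homogeneousComponent k0 P)) = 1 := by
    refine le_antisymm (hle _) ?_
    by_contra hcon
    push Not at hcon
    have h1 := val_aeval_sub_lt V hV y lam hy (homogeneousComponent k0 P)
    have h2 := V.valuation.map_sub_lt hcon h1
    rw [sub_sub_cancel, val_const V hV hlam] at h2
    exact lt_irrefl _ h2
  have hne : homogeneousComponent k0 P ≠ 0 := by
    intro h0
    rw [h0, map_zero] at hk
    exact hk rfl
  have hk0le : k0 ∈ Finset.range (P.totalDegree + 1) := by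
    rw [Finset.mem_range, Nat.lt_succ_iff]
    by_contra hcon
    push Not at hcon
    exact hne (homogeneousComponent_eq_zero _ _ hcon)
  have hsum : ∑ k ∈ Finset.range (P.totalDegree + 1), aeval z (homogeneousComponent k P) = 0 := by
    rw [← map_sum, sum_homogeneousComponent, hP]
  rw [← Finset.add_sum_erase _ _ hk0le] at hsum
  have h1 : aeval z (homogeneousComponent k0 P) =
      - ∑ k ∈ (Finset.range (P.totalDegree + 1)).erase k0, aeval z (homogeneousComponent k P) :=
    eq_neg_of_add_eq_zero_left hsum
  have h2 : V.valuation (aeval z (homogeneousComponent k0 P)) = V.valuation w ^ k0 := by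
    rw [hcomp, map_mul, map_pow, hk0, mul_one]
  have h3 : V.valuation (∑ k ∈ (Finset.range (P.totalDegree + 1)).erase k0,
      aeval z (homogeneousComponent k P)) < V.valuation w ^ k0 := by
    apply V.valuation.map_sum_lt (pow_ne_zero _ hvw)
    intro k hk'
    rw [Finset.mem_erase] at hk'
    by_cases h0 : homogeneousComponent k P = 0
    · rw [h0, map_zero, map_zero]
      exact zero_lt_iff.mpr (pow_ne_zero _ hvw)
    · rw [hcomp, map_mul, map_pow]
      calc _ ≤ V.valuation w ^ k * 1 := mul_le_mul_right (hle _) _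
        _ = V.valuation w ^ k := mul_one _
        _ < _ := hside k hk'.1 h0
  rw [h1, Valuation.map_neg] at h2
  exact absurd h2 h3.ne

theorem val_span_lt {N : ℕ} (t : Fin N → L) (ht : ∀ j, V.valuation (t j) < 1) {x : L}
    (hx : x ∈ Submodule.span ℂ (Set.range t)) : V.valuation x < 1 := by
  induction hx using Submodule.span_induction with
  | mem y hy => obtain ⟨j, rfl⟩ := hy; exact ht j
  | zero => rw [map_zero]; exact zero_lt_one
  | add y z _ _ hy hz => exact V.valuation.map_add_lt hy hz
  | smul r y _ hy =>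
    rw [Algebra.smul_def, map_mul]
    calc _ ≤ 1 * V.valuation y := mul_le_mul_left ((V.valuation_le_one_iff _).mpr (hV _)) _
      _ < 1 := by rw [one_mul]; exact hy

end

/-- Goodness of a family of linear forms -/
def GoodProj {L : Type} [Field L] [Algebra ℂ L] {N n : ℕ} (t : Fin N → L) (z : Fin n → L) : Prop :=
  (∀ i, z i ∈ Submodule.span ℂ (Set.range t)) ∧
      ∀ V : ValuationSubring L, (∀ c : ℂ, algebraMap ℂ L c ∈ V) →
        ((∀ i, z i ∈ V) → ∀ j, t j ∈ V) ∧
        ((∀ j, V.valuation (t j) < 1) → ∀ g : L, (∀ i, V.valuation (z i) ≤ V.valuation g) →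
          ∀ j, V.valuation (t j) ≤ V.valuation g)

theorem exists_direction {m : ℕ} (P : MvPolynomial (Fin (m + 1)) ℂ) (hP : P ≠ 0) :
    ∃ (d e : ℕ) (mu : Fin (m + 1) → ℂ), mu (Fin.last m) ≠ 0 ∧
      eval mu (homogeneousComponent d P) ≠ 0 ∧ eval mu (homogeneousComponent e P) ≠ 0 ∧
      ∀ k, homogeneousComponent k P ≠ 0 → e ≤ k ∧ k ≤ d := by
  classical
  let S := (Finset.range (P.totalDegree + 1)).filter (fun k => homogeneousComponent k P ≠ 0)
  have hS : S.Nonempty := by
    by_contra hcon
    rw [Finset.not_nonempty_iff_eq_empty, Finset.filter_eq_empty_iff] at hcon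
    apply hP
    rw [← sum_homogeneousComponent P]
    apply Finset.sum_eq_zero
    intro k hk
    have := hcon hk
    push Not at this
    exact this
  have hd := S.max'_mem hS
  have he := S.min'_mem hS
  have hd' : homogeneousComponent (S.max' hS) P ≠ 0 := (Finset.mem_filter.mp hd).2
  have he' : homogeneousComponent (S.min' hS) P ≠ 0 := (Finset.mem_filter.mp he).2
  have hprod : homogeneousComponent (S.max' hS) P * homogeneousComponent (S.min' hS) P
      * X (Fin.last m) ≠ 0 := mul_ne_zero (mul_ne_zero hd' he') (X_ne_zero _)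
  obtain ⟨mu, hmu⟩ : ∃ mu : Fin (m + 1) → ℂ, eval mu (homogeneousComponent (S.max' hS) P *
      homogeneousComponent (S.min' hS) P * X (Fin.last m)) ≠ 0 := by
    by_contra hcon
    push Not at hcon
    apply hprod
    apply MvPolynomial.funext
    intro x
    rw [hcon x, map_zero]
  rw [map_mul, map_mul, eval_X] at hmu
  refine ⟨S.max' hS, S.min' hS, mu, right_ne_zero_of_mul hmu,
    left_ne_zero_of_mul (left_ne_zero_of_mul hmu),
    right_ne_zero_of_mul (left_ne_zero_of_mul hmu), ?_⟩
  intro k hk
  have hkS : k ∈ S := by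
    rw [Finset.mem_filter]
    refine ⟨?_, hk⟩
    rw [Finset.mem_range, Nat.lt_succ_iff]
    by_contra hcon
    push Not at hcon
    exact hk (homogeneousComponent_eq_zero _ _ hcon)
  exact ⟨S.min'_le k hkS, S.le_max' k hkS⟩

theorem goodProj_step {L : Type} [Field L] [Algebra ℂ L] {N n : ℕ} (t : Fin N → L)
    (z : Fin (n + 1) → L) (hz : GoodProj t z) (hdep : ¬ AlgebraicIndependent ℂ z) :
    ∃ z' : Fin n → L, GoodProj t z' := by
  rw [algebraicIndependent_iff] at hdep
  push Not at hdep
  obtain ⟨P, hP0, hPne⟩ := hdep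
  obtain ⟨d, e, mu, hmu, hd, he, hde⟩ := exists_direction P hPne
  obtain ⟨hspan, hval⟩ := hz
  refine ⟨fun i => z i.castSucc - (mu i.castSucc / mu (Fin.last n)) • z (Fin.last n), ?_, ?_⟩
  · intro i
    exact Submodule.sub_mem _ (hspan _) (Submodule.smul_mem _ _ (hspan _))
  · intro V hV
    obtain ⟨hA, hB⟩ := hval V hV
    -- recover z from z' and last
    have hrec : ∀ g : V.ValueGroup, (∀ i : Fin n, V.valuation
        (z i.castSucc - (mu i.castSucc / mu (Fin.last n)) • z (Fin.last n)) ≤ g) →
        V.valuation (z (Fin.last n)) ≤ g → ∀ i, V.valuation (z i) ≤ g := by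
      intro g h1 h2 i
      refine Fin.lastCases h2 ?_ i
      intro i
      have e1 : z i.castSucc = (z i.castSucc - (mu i.castSucc / mu (Fin.last n)) • z (Fin.last n))
          + (mu i.castSucc / mu (Fin.last n)) • z (Fin.last n) := by abel
      rw [e1]
      apply V.valuation.map_add_le (h1 i)
      rw [Algebra.smul_def, map_mul]
      calc _ ≤ 1 * V.valuation (z (Fin.last n)) :=
            mul_le_mul_left ((V.valuation_le_one_iff _).mpr (hV _)) _
        _ ≤ g := by rw [one_mul]; exact h2
    constructor
    · intro hz'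
      apply hA
      intro i
      rw [← V.valuation_le_one_iff]
      refine hrec 1 (fun i => (V.valuation_le_one_iff _).mpr (hz' i)) ?_ i
      by_contra hcon
      push Not at hcon
      have hw : z (Fin.last n) ≠ 0 := by
        intro h0
        rw [h0, map_zero] at hcon
        exact not_lt_zero hcon
      refine key_projection V hV z P d mu hmu hP0 hd hw ?_ ?_
      · intro i
        exact lt_of_le_of_lt ((V.valuation_le_one_iff _).mpr (hz' i)) hcon
      · intro k hk hkne
        exact pow_lt_pow_right₀ hcon (lt_of_le_of_ne (hde k hkne).2 hk)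
    · intro ht g hg
      have hlt1 : ∀ i, V.valuation (z i) < 1 := fun i => val_span_lt V hV t ht (hspan i)
      apply hB ht g
      refine hrec _ hg ?_
      by_contra hcon
      push Not at hcon
      have hw : z (Fin.last n) ≠ 0 := by
        intro h0
        rw [h0, map_zero] at hcon
        exact not_lt_zero hcon
      refine key_projection V hV z P e mu hmu hP0 he hw ?_ ?_
      · intro i
        exact lt_of_le_of_lt (hg i) hcon
      · intro k hk hkne
        exact pow_lt_pow_right_of_lt_one₀ (zero_lt_iff.mpr ((V.valuation.ne_zero_iff).mpr hw))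
          (hlt1 _) (lt_of_le_of_ne (hde k hkne).1 (Ne.symm hk))

theorem goodProj_exists {L : Type} [Field L] [Algebra ℂ L] {N : ℕ} (t : Fin N → L) :
    ∀ (n : ℕ) (z : Fin n → L), GoodProj t z →
      ∃ (m : ℕ) (z' : Fin m → L), GoodProj t z' ∧ AlgebraicIndependent ℂ z' := by
  intro n
  induction n with
  | zero =>
    intro z hz
    refine ⟨0, z, hz, ?_⟩
    rw [algebraicIndependent_empty_type_iff]
    exact (algebraMap ℂ L).injective
  | succ n ih =>
    intro z hz
    by_cases h : AlgebraicIndependent ℂ z
    · exact ⟨n + 1, z, hz, h⟩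
    · obtain ⟨z', hz'⟩ := goodProj_step t z hz h
      exact ih z' hz'

/-- Generic linear projection. `V.valuation` is multiplicative, `V.valuation x ≤ 1 ↔ x ∈ V`. -/
theorem exists_linear_projection {L : Type} [Field L] [Algebra ℂ L] {N : ℕ} (t : Fin N → L) :
    ∃ (n : ℕ) (z : Fin n → L), (∀ i, z i ∈ Submodule.span ℂ (Set.range t)) ∧
      AlgebraicIndependent ℂ z ∧
      ∀ V : ValuationSubring L, (∀ c : ℂ, algebraMap ℂ L c ∈ V) →
        ((∀ i, z i ∈ V) → ∀ j, t j ∈ V) ∧
        ((∀ j, V.valuation (t j) < 1) → ∀ g : L, (∀ i, V.valuation (z i) ≤ V.valuation g) →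
          ∀ j, V.valuation (t j) ≤ V.valuation g) := by
  have h0 : GoodProj t t :=
    ⟨fun i => Submodule.subset_span ⟨i, rfl⟩, fun V _ => ⟨fun h => h, fun _ g hg => hg⟩⟩
  obtain ⟨m, z', ⟨h1, h2⟩, h3⟩ := goodProj_exists t N t h0
  exact ⟨m, z', h1, h3, h2⟩

end Vale.Agent.P282
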