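import Vale.Agent.Lib.P282.Alt

set_option autoImplicit false

namespace Vale.Agent.P282

open scoped TensorProduct IntermediateField.algebraAdjoinAdjoin in
theorem linearIndependent_D_basis {L ι : Type} [Field L] [Algebra ℂ L] (v : ι → L)
    (hv : IsTranscendenceBasis ℂ v) :
    LinearIndependent L (fun i => KaehlerDifferential.D ℂ L (v i)) := by
  classical
  let : Algebra (MvPolynomial ι ℂ) L := (MvPolynomial.aeval (R := ℂ) v).toRingHom.toAlgebra
  have : IsScalarTower ℂ (MvPolynomial ι ℂ) L :=
    .of_algebraMap_eq (fun r => by simp [RingHom.algebraMap_toAlgebra])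
  have : Algebra.FormallyEtale (MvPolynomial ι ℂ) L := by
    let e := hv.1.aevalEquiv
    let : Algebra (MvPolynomial ι ℂ) (Algebra.adjoin ℂ (Set.range v)) :=
      (e : MvPolynomial ι ℂ →+* Algebra.adjoin ℂ (Set.range v)).toAlgebra
    have : IsScalarTower (MvPolynomial ι ℂ) (Algebra.adjoin ℂ (Set.range v)) L := by
      refine .of_algebraMap_eq (fun r => ?_)
      simp [RingHom.algebraMap_toAlgebra, e]
    have : Algebra.FormallyEtale (MvPolynomial ι ℂ) (Algebra.adjoin ℂ (Set.range v)) :=
      Algebra.FormallyEtale.of_equiv (R := MvPolynomial ι ℂ) (A := MvPolynomial ι ℂ)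
        { e with commutes' := fun r => rfl }
    have : Algebra.FormallyEtale (Algebra.adjoin ℂ (Set.range v))
      (IntermediateField.adjoin ℂ (Set.range v)) :=
      .of_isLocalization (nonZeroDivisors _)
    have : Algebra.IsAlgebraic (IntermediateField.adjoin ℂ (Set.range v)) L :=
      hv.isAlgebraic_field
    have : Algebra.FormallyEtale (IntermediateField.adjoin ℂ (Set.range v)) L :=
      Algebra.FormallyEtale.of_isSeparable _ L
    have : Algebra.FormallyEtale (Algebra.adjoin ℂ (Set.range v)) L :=
      .comp _ (IntermediateField.adjoin ℂ (Set.range v)) _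
    exact .comp _ (Algebra.adjoin ℂ (Set.range v)) _
  let b := ((KaehlerDifferential.mvPolynomialBasis ℂ ι).baseChange L).map
    (KaehlerDifferential.tensorKaehlerEquivOfFormallyEtale ℂ (MvPolynomial ι ℂ) L)
  have hb : ∀ i, b i = KaehlerDifferential.D ℂ L (v i) := by
    intro i
    simp only [b, Module.Basis.map_apply, Module.Basis.baseChange_apply,
      KaehlerDifferential.mvPolynomialBasis_apply,
      KaehlerDifferential.tensorKaehlerEquivOfFormallyEtale_apply,
      KaehlerDifferential.mapBaseChange_tmul, KaehlerDifferential.map_D, one_smul]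
    congr 1
    simp [RingHom.algebraMap_toAlgebra]
  have := b.linearIndependent
  rw [show (⇑b) = (fun i => KaehlerDifferential.D ℂ L (v i)) from funext hb] at this
  exact this

/-- In characteristic zero, differentials of algebraically independent elements are linearly
independent. -/
theorem linearIndependent_D {L : Type} [Field L] [Algebra ℂ L] {n : ℕ} (z : Fin n → L)
    (hz : AlgebraicIndependent ℂ z) :
    LinearIndependent L (fun i => KaehlerDifferential.D ℂ L (z i)) := by
  have hz' : AlgebraicIndepOn ℂ id (Set.range z) := by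
    exact hz.coe_range
  obtain ⟨t, ht, hB⟩ := exists_isTranscendenceBasis_superset hz'
  have h1 := linearIndependent_D_basis _ hB
  let j : Fin n → t := fun i => ⟨z i, ht ⟨i, rfl⟩⟩
  have hj : Function.Injective j := by
    intro a b hab
    exact hz.injective (congrArg Subtype.val hab)
  exact h1.comp j hj

/-- If moreover `L` is algebraic over `ℂ(z)`, then the top form `dz₁ ∧ ⋯ ∧ dzₙ` is nonzero. -/
theorem topForm_ne_zero {L : Type} [Field L] [Algebra ℂ L] {n : ℕ} (z : Fin n → L)
    (hz : AlgebraicIndependent ℂ z) :
    wedge L n (fun i => KaehlerDifferential.D ℂ L (z i)) ≠ 0 := by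
  classical
  have h1 := linearIndependent_D z hz
  set w := fun i => KaehlerDifferential.D ℂ L (z i) with hw
  let b := Module.Basis.extend h1.linearIndepOn_id
  have hinj : Function.Injective w := h1.injective
  let idx : Fin n → h1.linearIndepOn_id.extend (Set.subset_univ _) :=
    fun i => ⟨w i, Module.Basis.subset_extend h1.linearIndepOn_id ⟨i, rfl⟩⟩
  have hidx : Function.Injective idx := by
    intro a c hac
    exact hinj (congrArg Subtype.val hac)
  have hbi : ∀ i, b (idx i) = w i := by
    intro i
    simp [b, idx]
  intro h0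
  -- the dual derivations
  let Dd : Fin n → Derivation ℂ L L := fun i => (b.coord (idx i)).compDer (KaehlerDifferential.D ℂ L)
  have h2 := congrFun h0 Dd
  rw [wedge_apply] at h2
  have h3 : (Matrix.of fun j i => (Dd i).liftKaehlerDifferential (w j)) = 1 := by
    ext j i
    rw [Matrix.of_apply]
    have h4 : (Dd i).liftKaehlerDifferential (w j) = Dd i (z j) :=
      Derivation.liftKaehlerDifferential_comp_D (Dd i) (z j)
    have h5 : Dd i (z j) = b.coord (idx i) (w j) := rfl
    rw [h4, h5, ← hbi j, Module.Basis.coord_apply, Module.Basis.repr_self,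
      Finsupp.single_apply, Matrix.one_apply]
    simp only [hidx.eq_iff]
  have h6 : (Matrix.of fun j i => (Dd i).liftKaehlerDifferential (w j)).det = 0 := h2
  rw [h3, Matrix.det_one] at h6
  exact one_ne_zero h6

end Vale.Agent.P282
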