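import Mathlib

set_option autoImplicit false

open scoped ENNReal

namespace Vale.Agent.P282

/-- If `ℓ t ≤ e * C(n + k - 1, n)` whenever `t ≤ k * q`, then `limsup n! ℓ(t) / t^n ≤ e / q^n`. -/
theorem limsup_le_of_le_choose (n q e : ℕ) (hq : 0 < q) (ℓ : ℕ → ℝ≥0∞)
    (h : ∀ t k : ℕ, t ≤ k * q → ℓ t ≤ (e * (n + k - 1).choose n : ℕ)) :
    Filter.limsup (fun t : ℕ => (n.factorial : ℝ≥0∞) * ℓ t / (t : ℝ≥0∞) ^ n) Filter.atTop
      ≤ (e : ℝ≥0∞) / (q : ℝ≥0∞) ^ n := by
  have hq' : (0 : ℝ) < q := by exact_mod_cast hq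
  -- the real upper bound
  let f : ℕ → ℝ := fun t => e * ((n : ℝ) * (1 / (t : ℝ)) + 1 / q) ^ n
  have hf : Filter.Tendsto f Filter.atTop (nhds (e * ((n : ℝ) * 0 + 1 / q) ^ n)) := by
    apply Filter.Tendsto.const_mul
    apply Filter.Tendsto.pow
    apply Filter.Tendsto.add_const
    apply Filter.Tendsto.const_mul
    exact tendsto_one_div_atTop_nhds_zero_nat
  have hlim : Filter.Tendsto (fun t => ENNReal.ofReal (f t)) Filter.atTop
      (nhds ((e : ℝ≥0∞) / (q : ℝ≥0∞) ^ n)) := by
    have h1 := ENNReal.tendsto_ofReal hf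
    have h2 : ENNReal.ofReal (e * ((n : ℝ) * 0 + 1 / q) ^ n) = (e : ℝ≥0∞) / (q : ℝ≥0∞) ^ n := by
      rw [mul_zero, zero_add, one_div, inv_pow, ← div_eq_mul_inv,
        ENNReal.ofReal_div_of_pos (by positivity), ENNReal.ofReal_natCast,
        ENNReal.ofReal_pow hq'.le, ENNReal.ofReal_natCast]
    rwa [h2] at h1
  rw [← hlim.limsup_eq]
  refine Filter.limsup_le_limsup ?_
  · filter_upwards [Filter.eventually_ge_atTop 1] with t ht
    have ht0 : (0 : ℝ) < t := by exact_mod_cast ht
    have hk : t ≤ (t / q + 1) * q := by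
      have := Nat.lt_mul_div_succ t hq
      rw [mul_comm]
      exact this.le
    have hl := h t (t / q + 1) hk
    have e1 : n + (t / q + 1) - 1 = n + t / q := by
      rw [← Nat.add_assoc, Nat.add_sub_cancel]
    rw [e1] at hl
    have h1 : (n.factorial : ℝ≥0∞) * ℓ t ≤ ((e * (n + t / q) ^ n : ℕ) : ℝ≥0∞) := by
      calc (n.factorial : ℝ≥0∞) * ℓ t ≤ (n.factorial : ℝ≥0∞) * (e * (n + t / q).choose n : ℕ) := by
            gcongr
        _ = ((e * (n.factorial * (n + t / q).choose n) : ℕ) : ℝ≥0∞) := by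
            push_cast; ring
        _ ≤ _ := by
            apply Nat.cast_le.mpr
            apply Nat.mul_le_mul_left
            rw [← Nat.descFactorial_eq_factorial_mul_choose]
            exact Nat.descFactorial_le_pow _ _
    have h2 : ((e * (n + t / q) ^ n : ℕ) : ℝ) ≤ f t * (t : ℝ) ^ n := by
      have h3 : f t * (t : ℝ) ^ n = e * ((n : ℝ) + t / q) ^ n := by
        simp only [f]
        rw [mul_assoc, ← mul_pow]
        congr 2
        field_simp
      rw [h3]
      push_cast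
      gcongr
      exact Nat.cast_div_le
    rw [ENNReal.div_le_iff_le_mul (by left; positivity) (by left; finiteness)]
    refine h1.trans ?_
    rw [← ENNReal.ofReal_natCast (e * (n + t / q) ^ n), ← ENNReal.ofReal_natCast t,
      ← ENNReal.ofReal_pow ht0.le, ← ENNReal.ofReal_mul (by positivity)]
    exact ENNReal.ofReal_le_ofReal h2

end Vale.Agent.P282
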