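import Vale.Agent.Lib.P282.Val

/-!
Prime divisors obtained by localizing a ring at a prime.
-/

set_option autoImplicit false

namespace Vale.Agent.P282

section

variable {L : Type} [Field L] [Algebra ℂ L] {B : Type} [CommRing B] [IsDomain B] [Algebra ℂ B]
  [Algebra B L] [IsScalarTower ℂ B L] [IsFractionRing B L]

/-- the localization of `B` at `P`, inside `L` -/
noncomputable def locRing (L : Type) [Field L] [Algebra ℂ L] {B : Type} [CommRing B] [IsDomain B]
    [Algebra ℂ B] [Algebra B L] [IsScalarTower ℂ B L] [IsFractionRing B L]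
    (P : Ideal B) [P.IsPrime] : Subalgebra ℂ L :=
  (Localization.subalgebra.ofField L P.primeCompl P.primeCompl_le_nonZeroDivisors).restrictScalars ℂ

theorem mem_locRing {P : Ideal B} [P.IsPrime] {x : L} :
    x ∈ locRing L P ↔ ∃ a s : B, s ∉ P ∧ x = algebraMap B L a * (algebraMap B L s)⁻¹ := by
  have : x ∈ locRing L P ↔ ∃ (a s : B) (_ : s ∈ P.primeCompl),
    x = algebraMap B L a * (algebraMap B L s)⁻¹ := Iff.rfl
  rw [this]
  constructor
  · rintro ⟨a, s, hs, h⟩; exact ⟨a, s, hs, h⟩
  · rintro ⟨a, s, hs, h⟩; exact ⟨a, s, hs, h⟩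

theorem algebraMap_mem_locRing (P : Ideal B) [P.IsPrime] (b : B) :
    algebraMap B L b ∈ locRing L P := by
  rw [mem_locRing]
  refine ⟨b, 1, ?_, by simp⟩
  exact (Ideal.ne_top_iff_one P).mp (Ideal.IsPrime.ne_top inferInstance)

noncomputable instance locRingAlgebra (P : Ideal B) [P.IsPrime] : Algebra B (locRing L P) :=
  inferInstanceAs (Algebra B
    (Localization.subalgebra.ofField L P.primeCompl P.primeCompl_le_nonZeroDivisors))

instance (P : Ideal B) [P.IsPrime] : IsScalarTower B (locRing L P) L :=
  inferInstanceAs (IsScalarTower B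
    (Localization.subalgebra.ofField L P.primeCompl P.primeCompl_le_nonZeroDivisors) L)

theorem coe_algebraMap_locRing (P : Ideal B) [P.IsPrime] (b : B) :
    ((algebraMap B (locRing L P) b : locRing L P) : L) = algebraMap B L b := rfl

instance (P : Ideal B) [P.IsPrime] : IsScalarTower ℂ B (locRing L P) := by
  refine IsScalarTower.of_algebraMap_eq fun c => ?_
  apply Subtype.ext
  rw [coe_algebraMap_locRing, ← IsScalarTower.algebraMap_apply]
  rfl

instance (P : Ideal B) [P.IsPrime] : IsLocalization.AtPrime (locRing L P) P :=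
  inferInstanceAs (IsLocalization.AtPrime
    (Localization.subalgebra.ofField L P.primeCompl P.primeCompl_le_nonZeroDivisors) P)

instance (P : Ideal B) [P.IsPrime] : IsFractionRing (locRing L P) L :=
  inferInstanceAs (IsFractionRing
    (Localization.subalgebra.ofField L P.primeCompl P.primeCompl_le_nonZeroDivisors) L)

instance [Algebra.EssFiniteType ℂ B] (P : Ideal B) [P.IsPrime] :
    Algebra.EssFiniteType ℂ (locRing L P) := by
  have : Algebra.EssFiniteType B (locRing L P) :=
    Algebra.EssFiniteType.of_isLocalization _ P.primeCompl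
  exact Algebra.EssFiniteType.comp ℂ B (locRing L P)

/-- the prime divisor attached to a prime of `B` whose local ring is a discrete valuation ring -/
noncomputable def divisorOfPrime (L : Type) [Field L] [Algebra ℂ L] {B : Type} [CommRing B] [IsDomain B]
    [Algebra ℂ B] [Algebra B L] [IsScalarTower ℂ B L] [IsFractionRing B L]
    [Algebra.EssFiniteType ℂ B] (P : Ideal B) [P.IsPrime]
    (h : IsDiscreteValuationRing (locRing L P)) : PrimeDivisorOver L :=
  { ring := locRing L P, dvr := h, frac := inferInstance, essFin := inferInstance }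

variable [Algebra.EssFiniteType ℂ B] (P : Ideal B) [P.IsPrime]
  (h : IsDiscreteValuationRing (locRing L P))

theorem divisorOfPrime_ring : (divisorOfPrime L P h).ring = locRing L P := rfl

theorem divisorOfPrime_isOver : (divisorOfPrime L P h).IsOver B := fun b =>
  algebraMap_mem_locRing P b

theorem divisorOfPrime_center :
    (divisorOfPrime L P h).center (divisorOfPrime_isOver P h) = P := by
  have hl : IsLocalRing (locRing L P) := h.toIsLocalRing
  have h1 := IsLocalization.AtPrime.under_maximalIdeal (locRing L P) P
  exact h1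

theorem mem_iff_ge_divisorOfPrime (b : B) :
    b ∈ P ↔ (divisorOfPrime L P h).ge 1 (algebraMap B L b) := by
  rw [← PrimeDivisorOver.mem_center _ (divisorOfPrime_isOver P h), divisorOfPrime_center]

end

end Vale.Agent.P282
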