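import Vale.Agent.Lib.P282.Red

/-!
The main theorem.
-/

set_option autoImplicit false
set_option linter.unusedSectionVars false

open scoped ENNReal

namespace Vale.Agent.P282

open IsLocalRing MvPolynomial

section

variable {A L : Type} [CommRing A] [Algebra ℂ A] [Field L] [Algebra ℂ L] [Algebra A L]
  [IsScalarTower ℂ A L]

/-- elements of the image of a linear span -/
theorem exists_lift_span {N m : ℕ} (t : Fin N → A) (z : Fin m → L)
    (hz : ∀ i, z i ∈ Submodule.span ℂ (Set.range fun j => algebraMap A L (t j))) :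
    ∃ z' : Fin m → A, (∀ i, algebraMap A L (z' i) = z i) ∧
      ∀ i, z' i ∈ Submodule.span ℂ (Set.range t) := by
  have h : ∀ i, ∃ a : A, algebraMap A L a = z i ∧ a ∈ Submodule.span ℂ (Set.range t) := by
    intro i
    obtain ⟨c, hc⟩ := (Submodule.mem_span_range_iff_exists_fun ℂ).mp (hz i)
    refine ⟨∑ j, c j • t j, ?_, Submodule.sum_mem _ fun j _ => Submodule.smul_mem _ _
      (Submodule.subset_span ⟨j, rfl⟩)⟩
    rw [← hc, map_sum]
    refine Finset.sum_congr rfl fun j _ => ?_
    rw [Algebra.smul_def, Algebra.smul_def, map_mul, ← IsScalarTower.algebraMap_apply]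
  choose z' h1 h2 using h
  exact ⟨z', h1, h2⟩

/-- integrality from valuations -/
theorem isIntegral_of_valuation {m : ℕ} (z : Fin m → L) (y : L)
    (hy : ∀ V : ValuationSubring L, (∀ c : ℂ, algebraMap ℂ L c ∈ V) → (∀ i, z i ∈ V) → y ∈ V) :
    ((aeval z : MvPolynomial (Fin m) ℂ →ₐ[ℂ] L) : MvPolynomial (Fin m) ℂ →+* L).IsIntegralElem y := by
  set s : Set L := Set.range (algebraMap ℂ L) ∪ Set.range z with hs
  have h1 := iInf_valuationSubring_superset (K := L) (s := s)
  have h2 : y ∈ (⨅ V : {V : ValuationSubring L // s ⊆ V.toSubring}, V.1.toSubring) := by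
    rw [Subring.mem_iInf]
    rintro ⟨V, hV⟩
    exact hy V (fun c => hV (Or.inl ⟨c, rfl⟩)) (fun i => hV (Or.inr ⟨i, rfl⟩))
  rw [h1] at h2
  have h3 : IsIntegral (Subring.closure s) y := h2
  obtain ⟨p, hp, hpy⟩ := h3
  have h4 : ∀ a ∈ Subring.closure s, ∃ F : MvPolynomial (Fin m) ℂ, aeval z F = a := by
    intro a ha
    have h5 : Subring.closure s ≤ (aeval z : MvPolynomial (Fin m) ℂ →ₐ[ℂ] L).range.toSubring := by
      rw [Subring.closure_le]
      rintro _ (⟨c, rfl⟩ | ⟨i, rfl⟩)
      · exact ⟨C c, by simp⟩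
      · exact ⟨X i, by simp⟩
    exact h5 ha
  have h5 : p.map (algebraMap (Subring.closure s) L) ∈ Polynomial.lifts
      ((aeval z : MvPolynomial (Fin m) ℂ →ₐ[ℂ] L) : MvPolynomial (Fin m) ℂ →+* L) := by
    rw [Polynomial.lifts_iff_coeff_lifts]
    intro i
    rw [Polynomial.coeff_map]
    obtain ⟨F, hF⟩ := h4 _ (p.coeff i).2
    exact ⟨F, hF⟩
  obtain ⟨q, hq1, _, hq3⟩ := Polynomial.lifts_and_natDegree_eq_and_monic h5 (hp.map _)
  refine ⟨q, hq3, ?_⟩
  rw [Polynomial.eval₂_eq_eval_map, hq1, ← Polynomial.eval₂_eq_eval_map]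
  exact hpy

/-- The main theorem: a Gorenstein klt germ of dimension `n` and embedding dimension `n + c`. -/
theorem exists_bound {n c : ℕ} (hn : 2 ≤ n) (x : Ideal A) (ω : RationalForm n L)
    (hG : IsGorensteinKltGerm n A x ω) (hc1 : 1 ≤ c)
    (hcot : Module.finrank ℂ x.Cotangent = n + c) :
    ∃ s : ℕ, 1 ≤ s ∧ s < n ∧ (2 ≤ c → 2 ≤ s) ∧
      normalizedVolume n x ω ≤ (((1 + (c + s - 1).choose c) * (n - s) ^ n : ℕ) : ℝ≥0∞) := by
  have hdom := hG.domain
  have hfrac := hG.frac
  have hft := hG.finiteType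
  have hnorm := hG.normal
  have hmax := hG.maximal
  have hinj : Function.Injective (algebraMap A L) := IsFractionRing.injective A L
  obtain ⟨N, t, htx, htA, hxt⟩ := exists_generators x
  obtain ⟨m, zL, hzL1, hzL2, hzL3⟩ := exists_linear_projection (fun j => algebraMap A L (t j))
  obtain ⟨z, hz1, hz2⟩ := exists_lift_span t zL hzL1
  have hzx : ∀ i, z i ∈ x := by
    intro i
    have h1 : Submodule.span ℂ (Set.range t) ≤ x.restrictScalars ℂ := by
      rw [Submodule.span_le]; rintro _ ⟨j, rfl⟩; exact htx j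
    exact h1 (hz2 i)
  let algA : Algebra (Pol m) A := (aeval z : MvPolynomial (Fin m) ℂ →ₐ[ℂ] A).toRingHom.toAlgebra
  let algL : Algebra (Pol m) L := (aeval zL : MvPolynomial (Fin m) ℂ →ₐ[ℂ] L).toRingHom.toAlgebra
  have hAalg : ∀ F : Pol m, algebraMap (Pol m) A F = aeval z F := fun F => rfl
  have hLalg : ∀ F : Pol m, algebraMap (Pol m) L F = aeval zL F := fun F => rfl
  have tower1 : IsScalarTower (Pol m) A L := by
    refine IsScalarTower.of_algebraMap_eq fun F => ?_
    rw [hAalg, hLalg]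
    have h1 : (IsScalarTower.toAlgHom ℂ A L).comp (aeval z) = aeval zL := by
      ext i
      simp [hz1]
    rw [← h1]; rfl
  have tower2 : IsScalarTower ℂ (Pol m) A := by
    refine IsScalarTower.of_algebraMap_eq fun c => ?_
    rw [hAalg, MvPolynomial.algebraMap_eq, aeval_C]
  have tower3 : IsScalarTower ℂ (Pol m) L := by
    refine IsScalarTower.of_algebraMap_eq fun c => ?_
    rw [hLalg, MvPolynomial.algebraMap_eq, aeval_C]
  have hinjL : Function.Injective (algebraMap (Pol m) L) :=
    algebraicIndependent_iff_injective_aeval.mp hzL2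
  have hfaithL : FaithfulSMul (Pol m) L := (faithfulSMul_iff_algebraMap_injective _ _).mpr hinjL
  have hfaith : FaithfulSMul (Pol m) A := by
    rw [faithfulSMul_iff_algebraMap_injective]
    rw [IsScalarTower.algebraMap_eq (Pol m) A L, RingHom.coe_comp] at hinjL
    exact hinjL.of_comp
  -- integrality
  have hint : Algebra.IsIntegral (Pol m) A := by
    have h1 : ∀ j, IsIntegral (Pol m) (t j) := by
      intro j
      have h2 : IsIntegral (Pol m) (algebraMap A L (t j)) :=
        isIntegral_of_valuation zL _ fun V hV hVz => (hzL3 V hV).1 hVz j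
      exact (isIntegral_algebraMap_iff hinj).mp h2
    constructor
    intro a
    have ha : a ∈ Algebra.adjoin ℂ (Set.range t) := by rw [htA]; trivial
    induction ha using Algebra.adjoin_induction with
    | mem y hy => obtain ⟨j, rfl⟩ := hy; exact h1 j
    | algebraMap s =>
      rw [IsScalarTower.algebraMap_apply ℂ (Pol m) A]
      exact isIntegral_algebraMap
    | add y z _ _ hy hz => exact hy.add hz
    | mul y z _ _ hy hz => exact hy.mul hz
  have hft' : Algebra.FiniteType (Pol m) A :=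
    Algebra.FiniteType.of_restrictScalars_finiteType ℂ (Pol m) A
  have hfin : Module.Finite (Pol m) A := Algebra.IsIntegral.finite
  have hic : IsIntegralClosure A (Pol m) L := IsIntegralClosure.of_isIntegrallyClosed _ _ _
  have hzx' : ∀ j, algebraMap (Pol m) A (X j) ∈ x := by
    intro j; rw [hAalg, aeval_X]; exact hzx j
  -- dimension
  have hmn : m = n := by
    have h1 := ringKrullDim_le (n := m) (A := A)
    have h2 := le_height (n := m) x hzx'
    have h3 := Ideal.height_le_ringKrullDim_of_ne_top hmax.ne_top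
    rw [hG.dim] at h1 h3
    apply le_antisymm
    · have h4 : ((m : ℕ∞) : WithBot ℕ∞) ≤ (n : WithBot ℕ∞) := le_trans (by exact_mod_cast h2) h3
      exact_mod_cast h4
    · exact_mod_cast h1
  subst hmn
  -- the field of rational functions
  let K : Type := FractionRing (Pol m)
  let algKL : Algebra K L := FractionRing.liftAlgebra (Pol m) L
  have tower4 : IsScalarTower (Pol m) K L := FractionRing.isScalarTower_liftAlgebra (Pol m) L
  have tower5 : IsScalarTower ℂ K L := by
    refine IsScalarTower.of_algebraMap_eq fun c => ?_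
    rw [IsScalarTower.algebraMap_apply ℂ (Pol m) L, IsScalarTower.algebraMap_apply (Pol m) K L,
      ← IsScalarTower.algebraMap_apply ℂ (Pol m) K]
  have halg : Algebra.IsAlgebraic K L := isAlgebraic_of_isFractionRing (Pol m) A K L
  have hloc : IsLocalization (Algebra.algebraMapSubmonoid A (nonZeroDivisors (Pol m))) L :=
    IsIntegralClosure.isLocalization _ K _ _
  have hfd : FiniteDimensional K L := Module.Finite.of_isLocalization (Pol m) A (nonZeroDivisors (Pol m))
  have hm0 : 0 < m := by omega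
  -- the Jacobian
  have hx0 : x ≠ ⊥ := by
    intro h0
    have h1 := hzx' ⟨0, hm0⟩
    rw [h0, Ideal.mem_bot] at h1
    exact X_ne_zero (R := ℂ) (⟨0, hm0⟩ : Fin m)
      (FaithfulSMul.algebraMap_injective (Pol m) A (h1.trans (map_zero _).symm))
  obtain ⟨h, hh, E₀, hE₀, hEA₀, hEc₀⟩ := exists_divisor_through (n := m) (L := L) K x hx0
  have hgen₀ := hG.generator E₀ hEA₀ (isOn_of_mem hE₀ hEA₀) hEc₀
  have hXz : ∀ j, algebraMap (Pol m) L (X j) = zL j := fun j => by rw [hLalg, aeval_X]
  have htop : wedge L m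
      (fun j => KaehlerDifferential.D ℂ L (algebraMap (Pol m) L (X j))) ≠ 0 := by
    simp_rw [hXz]
    exact topForm_ne_zero zL hzL2
  have hmem : wedge L m
      (fun j => KaehlerDifferential.D ℂ L (algebraMap (Pol m) L (X j))) ∈
      regularForms m E₀.ring := by
    have hmem' : ∀ j, algebraMap (Pol m) L (X j) ∈ E₀.ring := by
      intro j
      rw [IsScalarTower.algebraMap_apply (Pol m) A L]
      exact hEA₀ _
    exact Submodule.subset_span ⟨fun j => ⟨algebraMap (Pol m) L (X j), hmem' j⟩, wedge_D _⟩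
  rw [← hgen₀, Submodule.mem_span_singleton] at hmem
  obtain ⟨J, hJ⟩ := hmem
  rw [coe_smul_form] at hJ
  have hω0 : ω ≠ 0 := by
    rintro rfl
    rw [smul_zero] at hJ
    exact htop hJ.symm
  have hJ0 : (J : L) ≠ 0 := by
    intro h0
    rw [h0, zero_smul] at hJ
    exact htop hJ.symm
  have S : Setup m K L A x ω (J : L) :=
    { hzx := hzx'
      cm := hG.cohenMacaulay
      ω_ne := hω0
      J_ne := hJ0
      jac := hJ.symm
      gen := hG.generator }
  refine S.exists_bound (i₀ := ⟨0, hm0⟩) (fun j => ?_) (exists_residue x) ?_ hG.klt c hc1 hcot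
  · rw [Fin.le_def]; exact Nat.zero_le _
  · intro E hE hEA hcE a ha
    have h1 : ∀ j, E.ge (E.v (algebraMap (Pol m) L (X ⟨0, hm0⟩))) (algebraMap A L (t j)) := by
      have h0 : zL ⟨0, hm0⟩ ≠ 0 := by
        rw [← hXz]
        exact algebraMap_Pol_L_ne_zero' K (X_ne_zero _)
      intro j
      rw [hXz, ← vsub_le_iff E h0]
      refine (hzL3 (vsub E) (fun c => ?_)).2 (fun j => ?_) (zL ⟨0, hm0⟩) (fun i => ?_) j
      · rw [mem_vsub, ← E.mem_iff_ge]; exact E.const_mem c
      · apply vsub_lt_one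
        rw [← E.mem_center hEA, hcE]
        exact htx j
      · rw [vsub_le_iff E h0, ← hXz, ← hXz]
        exact ge_X hE i
    have h2 : ∀ b ∈ Ideal.span (Set.range t),
        E.ge (E.v (algebraMap (Pol m) L (X ⟨0, hm0⟩))) (algebraMap A L b) := by
      intro b hb
      induction hb using Submodule.span_induction with
      | mem y hy => obtain ⟨j, rfl⟩ := hy; exact h1 j
      | zero => rw [map_zero]; exact E.ge_zero _
      | add y z _ _ hy hz => rw [map_add]; exact E.ge_add hy hz
      | smul c y _ hy =>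
        rw [smul_eq_mul, map_mul]
        have := E.ge_mul (ge_A hEA c) hy
        rwa [zero_add] at this
    exact h2 a (hxt ha)

theorem main_bound {n c : ℕ} (hn : 2 ≤ n) (x : Ideal A) (ω : RationalForm n L)
    (hG : IsGorensteinKltGerm n A x ω) (hc1 : 1 ≤ c)
    (hcot : Module.finrank ℂ x.Cotangent = n + c)
    (hc : c ≤ 3 ∨ (n ≤ 16 ∧ c ≤ 4) ∨ (n ≤ 7 ∧ c ≤ 5) ∨ (n ≤ 5 ∧ c ≤ 6) ∨ (n = 4 ∧ c ≤ 8)) :
    normalizedVolume n x ω ≤ ENNReal.ofReal (2 * ((n : ℝ) - 1) ^ n) ∧
      (2 ≤ c → normalizedVolume n x ω < ENNReal.ofReal (2 * ((n : ℝ) - 1) ^ n)) := by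
  obtain ⟨s, hs1, hsn, hs2, hs⟩ := exists_bound hn x ω hG hc1 hcot
  rw [ofReal_two_mul n (by omega)]
  have hlt : 2 ≤ c → normalizedVolume n x ω < ((2 * (n - 1) ^ n : ℕ) : ℝ≥0∞) := by
    intro hc2
    refine lt_of_le_of_lt hs ?_
    exact_mod_cast num_ineq n s c (hs2 hc2) hsn hc2 hc
  refine ⟨?_, hlt⟩
  rcases Nat.lt_or_ge c 2 with h | h
  · have hc' : c = 1 := by omega
    subst hc'
    refine hs.trans ?_
    have := num_one n s hs1 hsn
    rw [Nat.add_sub_cancel_left, Nat.choose_one_right]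
    exact_mod_cast this
  · exact (hlt h).le

end

end Vale.Agent.P282
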