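import Mathlib

set_option autoImplicit false

namespace Vale.Agent.P282

theorem choose_mono_aux (s : ℕ) (hs : 1 ≤ s) {c c' : ℕ} (h : c ≤ c') :
    (c + s - 1).choose c ≤ (c' + s - 1).choose c' := by
  induction h with
  | refl => exact le_rfl
  | @step m _ ih =>
    refine ih.trans ?_
    have e : m + 1 + s - 1 = (m + s - 1) + 1 := by omega
    rw [Nat.succ_eq_add_one, e, Nat.choose_succ_succ]
    exact Nat.le_add_right _ _

theorem choose_three (s : ℕ) : 6 * (s + 2).choose 3 = s * (s + 1) * (s + 2) := by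
  induction s with
  | zero => simp [Nat.choose]
  | succ k ih =>
    have h1 : (k + 1 + 2).choose 3 = (k + 2).choose 2 + (k + 2).choose 3 := by
      rw [show k + 1 + 2 = (k + 2) + 1 by ring, Nat.choose_succ_succ]
    have h2 : 2 * (k + 2).choose 2 = (k + 1) * (k + 2) := by
      have := Nat.triangle_succ (k + 1)
      rw [Nat.choose_two_right]
      have h3 : 2 ∣ (k + 2) * (k + 2 - 1) := by
        rw [show k + 2 - 1 = k + 1 by omega, mul_comm]
        exact (Nat.even_mul_succ_self (k + 1)).two_dvd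
      rw [Nat.mul_div_cancel' h3, show k + 2 - 1 = k + 1 by omega]
      ring
    rw [h1, mul_add, ih]
    nlinarith

theorem exp_bound (k : ℕ) : (1 : ℝ) + ((k + 2 : ℝ) * (k + 3) * (k + 4)) / 6 ≤
    2 * Real.exp (k + 1) := by
  have he : (2.7 : ℝ) ≤ Real.exp 1 := by
    have := Real.exp_one_gt_d9
    linarith
  induction k with
  | zero => norm_num; linarith
  | succ m ih =>
    rcases Nat.eq_zero_or_pos m with hm | hm
    · subst hm
      have e2 : Real.exp ((0 + 1 : ℕ) + 1) = Real.exp 1 * Real.exp 1 := by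
        rw [← Real.exp_add]; norm_num
      rw [e2]
      push_cast
      nlinarith
    · have e2 : Real.exp ((m + 1 : ℕ) + 1) = Real.exp (m + 1) * Real.exp 1 := by
        rw [← Real.exp_add]; push_cast; ring_nf
      rw [e2]
      have hm1 : (1 : ℝ) ≤ m := by exact_mod_cast hm
      have h3 : 2 * (Real.exp (m + 1) * Real.exp 1) ≥
          (1 + ((m + 2 : ℝ) * (m + 3) * (m + 4)) / 6) * 2.7 := by
        have := mul_le_mul ih he (by norm_num) (by positivity)
        linarith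
      refine le_trans ?_ h3
      push_cast
      nlinarith [mul_nonneg (sub_nonneg.2 hm1) (sub_nonneg.2 hm1),
        mul_nonneg (mul_nonneg (sub_nonneg.2 hm1) (sub_nonneg.2 hm1)) (sub_nonneg.2 hm1)]

theorem num_three (n s : ℕ) (hs : 2 ≤ s) (hsn : s < n) :
    (1 + (3 + s - 1).choose 3) * (n - s) ^ n < 2 * (n - 1) ^ n := by
  obtain ⟨k, rfl⟩ : ∃ k, s = k + 2 := ⟨s - 2, by omega⟩
  obtain ⟨m, rfl⟩ : ∃ m, n = m + k + 3 := ⟨n - k - 3, by omega⟩
  have e1 : m + k + 3 - (k + 2) = m + 1 := by omega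
  have e2 : m + k + 3 - 1 = m + k + 2 := by omega
  have e3 : 3 + (k + 2) - 1 = (k + 2) + 2 := by omega
  rw [e1, e2, e3]
  have hch := choose_three (k + 2)
  have hchR : (((k + 2 + 2).choose 3 : ℕ) : ℝ) = ((k + 2 : ℝ) * (k + 3) * (k + 4)) / 6 := by
    have : (6 * ((k + 2 + 2).choose 3 : ℕ) : ℝ) = ((k + 2 : ℕ) : ℝ) * ((k + 2 + 1 : ℕ)) * ((k + 2 + 2 : ℕ)) := by
      exact_mod_cast hch
    push_cast at this
    linarith
  have hb := exp_bound k
  have hpos : (0 : ℝ) < (m + k + 2 : ℝ) := by positivity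
  -- (m+1)/(m+k+2) ≤ exp (-(k+1)/(m+k+2))
  have h1 : ((m + 1 : ℝ) / (m + k + 2)) ≤ Real.exp (-((k + 1 : ℝ) / (m + k + 2))) := by
    have := Real.add_one_le_exp (-((k + 1 : ℝ) / (m + k + 2)))
    have e : (m + 1 : ℝ) / (m + k + 2) = -((k + 1 : ℝ) / (m + k + 2)) + 1 := by
      field_simp
      ring
    rw [e]; exact this
  have h2 : ((m + 1 : ℝ) / (m + k + 2)) ^ (m + k + 3) ≤
      Real.exp (-((k + 1 : ℝ) / (m + k + 2))) ^ (m + k + 3) :=
    pow_le_pow_left₀ (by positivity) h1 _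
  have h3 : Real.exp (-((k + 1 : ℝ) / (m + k + 2))) ^ (m + k + 3) < Real.exp (-(k + 1 : ℝ)) := by
    rw [← Real.exp_nat_mul]
    apply Real.exp_lt_exp.mpr
    push_cast
    have : ((m : ℝ) + k + 3) * -((k + 1) / (m + k + 2)) = -(k + 1) - (k + 1) / (m + k + 2) := by
      field_simp
      ring
    rw [this]
    have : (0 : ℝ) < (k + 1) / (m + k + 2) := by positivity
    linarith
  have h4 : ((m + 1 : ℝ) / (m + k + 2)) ^ (m + k + 3) < Real.exp (-(k + 1 : ℝ)) :=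
    lt_of_le_of_lt h2 h3
  rw [div_pow, div_lt_iff₀ (by positivity)] at h4
  have h5 : (1 + (((k + 2 + 2).choose 3 : ℕ) : ℝ)) * (m + 1 : ℝ) ^ (m + k + 3)
      < 2 * (m + k + 2 : ℝ) ^ (m + k + 3) := by
    rw [hchR]
    have hP : (0 : ℝ) < (m + k + 2 : ℝ) ^ (m + k + 3) := by positivity
    calc (1 + ((k + 2 : ℝ) * (k + 3) * (k + 4)) / 6) * (m + 1 : ℝ) ^ (m + k + 3)
        < (1 + ((k + 2 : ℝ) * (k + 3) * (k + 4)) / 6) *
          (Real.exp (-(k + 1 : ℝ)) * (m + k + 2 : ℝ) ^ (m + k + 3)) :=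
          mul_lt_mul_of_pos_left h4 (by positivity)
      _ ≤ (2 * Real.exp (k + 1)) * (Real.exp (-(k + 1 : ℝ)) * (m + k + 2 : ℝ) ^ (m + k + 3)) :=
          mul_le_mul_of_nonneg_right hb (by positivity)
      _ = 2 * (Real.exp (k + 1) * Real.exp (-(k + 1 : ℝ))) * (m + k + 2 : ℝ) ^ (m + k + 3) := by
          ring
      _ = 2 * (m + k + 2 : ℝ) ^ (m + k + 3) := by
          rw [← Real.exp_add, add_neg_cancel, Real.exp_zero]; ring
  exact_mod_cast h5

theorem num_four : ∀ n < 17, ∀ s < n, 2 ≤ s →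
    (1 + (4 + s - 1).choose 4) * (n - s) ^ n < 2 * (n - 1) ^ n := by
  decide +kernel

theorem num_five : ∀ n < 8, ∀ s < n, 2 ≤ s →
    (1 + (5 + s - 1).choose 5) * (n - s) ^ n < 2 * (n - 1) ^ n := by
  decide +kernel

theorem num_six : ∀ n < 6, ∀ s < n, 2 ≤ s →
    (1 + (6 + s - 1).choose 6) * (n - s) ^ n < 2 * (n - 1) ^ n := by
  decide +kernel

theorem num_eight : ∀ s < 4, 2 ≤ s →
    (1 + (8 + s - 1).choose 8) * (4 - s) ^ 4 < 2 * (4 - 1) ^ 4 := by
  decide +kernel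

/-- The numerical inequality used at the end of the proof. -/
theorem num_ineq (n s c : ℕ) (hs : 2 ≤ s) (hsn : s < n) (hc2 : 2 ≤ c)
    (hc : c ≤ 3 ∨ (n ≤ 16 ∧ c ≤ 4) ∨ (n ≤ 7 ∧ c ≤ 5) ∨ (n ≤ 5 ∧ c ≤ 6) ∨ (n = 4 ∧ c ≤ 8)) :
    (1 + (c + s - 1).choose c) * (n - s) ^ n < 2 * (n - 1) ^ n := by
  have key : ∀ c', c ≤ c' → (1 + (c' + s - 1).choose c') * (n - s) ^ n < 2 * (n - 1) ^ n →
      (1 + (c + s - 1).choose c) * (n - s) ^ n < 2 * (n - 1) ^ n := by
    intro c' hcc' h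
    exact lt_of_le_of_lt (Nat.mul_le_mul_right _
      (Nat.add_le_add_left (choose_mono_aux s (by omega) hcc') 1)) h
  rcases hc with h | ⟨hn, h⟩ | ⟨hn, h⟩ | ⟨hn, h⟩ | ⟨hn, h⟩
  · exact key 3 h (num_three n s hs hsn)
  · exact key 4 h (num_four n (by omega) s hsn hs)
  · exact key 5 h (num_five n (by omega) s hsn hs)
  · exact key 6 h (num_six n (by omega) s hsn hs)
  · subst hn
    exact key 8 h (num_eight s hsn hs)

end Vale.Agent.P282
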