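import Mathlib

/-!
Lengths of quotients.
-/

set_option autoImplicit false

namespace Vale.Agent.P282

theorem length_le_finrank {A : Type} [CommRing A] [Algebra ℂ A] (𝔞 : Ideal A)
    [Module.Finite ℂ (A ⧸ 𝔞)] :
    Module.length A (A ⧸ 𝔞) ≤ (Module.finrank ℂ (A ⧸ 𝔞) : ℕ∞) := by
  rw [← Module.length_eq_finrank ℂ (A ⧸ 𝔞)]
  have h := Order.krullDim_le_of_strictMono
    (fun N : Submodule A (A ⧸ 𝔞) => N.restrictScalars ℂ) (fun a b hab => by
      rw [SetLike.lt_iff_le_and_exists] at hab ⊢
      exact hab)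
  rw [← Module.coe_length, ← Module.coe_length] at h
  exact_mod_cast h

theorem finrank_quotient_le {A : Type} [CommRing A] [Algebra ℂ A] {n e : ℕ} (z : Fin n → A)
    (I 𝔞 : Ideal A) (b : Fin e → A)
    (hb : (⊤ : Submodule ℂ A) ≤ Submodule.span ℂ (Set.range b) ⊔ I.restrictScalars ℂ)
    (hI : I ≤ Ideal.span (Set.range z) ⊔ 𝔞) (k : ℕ) (hk : Ideal.span (Set.range z) ^ k ≤ 𝔞) :
    Module.Finite ℂ (A ⧸ 𝔞) ∧ Module.finrank ℂ (A ⧸ 𝔞) ≤ e * (n + k - 1).choose n := by
  classical
  set Z := Ideal.span (Set.range z) with hZ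
  rcases Nat.eq_zero_or_pos k with rfl | hkpos
  · have h1 : 𝔞 = ⊤ := by
      rw [pow_zero, Ideal.one_eq_top] at hk
      exact top_le_iff.mp hk
    subst h1
    have : Subsingleton (A ⧸ (⊤ : Ideal A)) := Ideal.Quotient.subsingleton_iff.mpr rfl
    exact ⟨inferInstance, by rw [Module.finrank_zero_of_subsingleton]; exact Nat.zero_le _⟩
  let z' : Option (Fin n) → A := fun o => o.elim 1 z
  let mon : (m : ℕ) → Sym (Option (Fin n)) m × Fin e → A := fun m p =>
    ((p.1 : Multiset (Option (Fin n))).map z').prod * b p.2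
  let W : ℕ → Submodule ℂ A := fun m => Submodule.span ℂ (Set.range (mon m))
  have hmul : ∀ m (o : Option (Fin n)), ∀ w ∈ W m, z' o * w ∈ W (m + 1) := by
    intro m o w hw
    induction hw using Submodule.span_induction with
    | mem y hy =>
      obtain ⟨p, rfl⟩ := hy
      apply Submodule.subset_span
      refine ⟨(o ::ₛ p.1, p.2), ?_⟩
      simp only [mon]
      have e1 : ((o ::ₛ p.1 : Sym (Option (Fin n)) (m + 1)) : Multiset (Option (Fin n)))
          = o ::ₘ (p.1 : Multiset (Option (Fin n))) := rfl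
      rw [e1, Multiset.map_cons, Multiset.prod_cons, mul_assoc]
    | zero => simp
    | add y z _ _ hy hz => rw [mul_add]; exact Submodule.add_mem _ hy hz
    | smul r y _ hy => rw [mul_smul_comm]; exact Submodule.smul_mem _ _ hy
  have hWmono : ∀ m, W m ≤ W (m + 1) := by
    intro m w hw
    have := hmul m none w hw
    simpa [z'] using this
  have hb0 : ∀ i, b i ∈ W 0 := by
    intro i
    apply Submodule.subset_span
    refine ⟨(Sym.nil, i), ?_⟩
    simp only [mon]
    have e1 : ((Sym.nil : Sym (Option (Fin n)) 0) : Multiset (Option (Fin n))) = 0 := rfl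
    rw [e1, Multiset.map_zero, Multiset.prod_zero, one_mul]
  let R : Ideal A → Submodule ℂ A := fun J => J.restrictScalars ℂ
  have hRmem : ∀ (J : Ideal A) (a : A), a ∈ R J ↔ a ∈ J := fun J a => Iff.rfl
  have hbase : ∀ a : A, a ∈ W 0 ⊔ R (Z ^ 1) ⊔ R 𝔞 := by
    intro a
    obtain ⟨u, hu, w, hw, rfl⟩ := Submodule.mem_sup.mp (hb (Submodule.mem_top : a ∈ ⊤))
    obtain ⟨p, hp, q, hq, rfl⟩ := Submodule.mem_sup.mp (hI hw)
    have h1 : u ∈ W 0 := by
      have : Submodule.span ℂ (Set.range b) ≤ W 0 := by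
        rw [Submodule.span_le]; rintro _ ⟨i, rfl⟩; exact hb0 i
      exact this hu
    refine Submodule.add_mem _ (Submodule.mem_sup_left (Submodule.mem_sup_left h1))
      (Submodule.add_mem _ (Submodule.mem_sup_left (Submodule.mem_sup_right ?_))
        (Submodule.mem_sup_right hq))
    rw [hRmem, pow_one]; exact hp
  have hQ : ∀ m : ℕ, R (Z ^ m) ≤ W m ⊔ R (Z ^ (m + 1)) ⊔ R 𝔞 := by
    intro m
    induction m with
    | zero => intro a _; exact hbase a
    | succ m ih =>
      have hprod : ∀ y ∈ Z ^ m, ∀ i, z i * y ∈ W (m + 1) ⊔ R (Z ^ (m + 2)) ⊔ R 𝔞 := by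
        intro y hy i
        obtain ⟨u, hu, w, hw, rfl⟩ := Submodule.mem_sup.mp (ih hy)
        obtain ⟨p, hp, q, hq, rfl⟩ := Submodule.mem_sup.mp hu
        rw [mul_add, mul_add]
        refine Submodule.add_mem _ (Submodule.add_mem _
          (Submodule.mem_sup_left (Submodule.mem_sup_left (hmul m (some i) p hp)))
          (Submodule.mem_sup_left (Submodule.mem_sup_right ?_)))
          (Submodule.mem_sup_right (𝔞.mul_mem_left _ hw))
        rw [hRmem, show m + 2 = (m + 1) + 1 by ring, pow_succ' Z (m + 1)]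
        exact Ideal.mul_mem_mul (Ideal.subset_span ⟨i, rfl⟩) hq
      intro y hy
      rw [hRmem, pow_succ'] at hy
      induction hy using Submodule.mul_induction_on' with
      | mem_mul_mem u hu y hy =>
        obtain ⟨a, rfl⟩ := (Ideal.mem_span_range_iff_exists_fun).mp hu
        rw [Finset.sum_mul]
        apply Submodule.sum_mem
        intro i _
        have : a i * z i * y = z i * (a i * y) := by ring
        rw [this]
        exact hprod _ (Ideal.mul_mem_left _ _ hy) i
      | add u _ v _ hu hv => exact Submodule.add_mem _ hu hv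
  have hP : ∀ m : ℕ, (⊤ : Submodule ℂ A) ≤ W m ⊔ R (Z ^ (m + 1)) ⊔ R 𝔞 := by
    intro m
    induction m with
    | zero => intro a _; exact hbase a
    | succ m ih =>
      refine ih.trans ?_
      refine sup_le (sup_le ?_ (hQ (m + 1))) ?_
      · exact (hWmono m).trans (le_sup_of_le_left le_sup_left)
      · exact le_sup_right
  obtain ⟨k', rfl⟩ : ∃ k', k = k' + 1 := ⟨k - 1, by omega⟩
  let f : Sym (Option (Fin n)) k' × Fin e → A ⧸ 𝔞 := fun p => Ideal.Quotient.mk 𝔞 (mon k' p)
  have hspan : Submodule.span ℂ (Set.range f) = ⊤ := by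
    rw [eq_top_iff]
    intro y _
    obtain ⟨a, rfl⟩ := Ideal.Quotient.mk_surjective y
    have hW : ∀ w ∈ W k', Ideal.Quotient.mk 𝔞 w ∈ Submodule.span ℂ (Set.range f) := by
      intro w hw
      induction hw using Submodule.span_induction with
      | mem y hy =>
        obtain ⟨p, rfl⟩ := hy
        exact Submodule.subset_span ⟨p, rfl⟩
      | zero => rw [map_zero]; exact Submodule.zero_mem _
      | add y z _ _ hy hz => rw [map_add]; exact Submodule.add_mem _ hy hz
      | smul r y _ hy =>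
        have : Ideal.Quotient.mk 𝔞 (r • y) = r • Ideal.Quotient.mk 𝔞 y := rfl
        rw [this]
        exact Submodule.smul_mem _ _ hy
    have ha := hP k' (Submodule.mem_top : a ∈ (⊤ : Submodule ℂ A))
    obtain ⟨u, hu, w, hw, rfl⟩ := Submodule.mem_sup.mp ha
    obtain ⟨p, hp, q, hq, rfl⟩ := Submodule.mem_sup.mp hu
    rw [map_add, map_add, Ideal.Quotient.eq_zero_iff_mem.mpr hw,
      Ideal.Quotient.eq_zero_iff_mem.mpr (hk hq), add_zero, add_zero]
    exact hW p hp
  have hfin : Module.Finite ℂ (A ⧸ 𝔞) :=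
    ⟨⟨Finset.univ.image f, by rw [Finset.coe_image, Finset.coe_univ, Set.image_univ]; exact hspan⟩⟩
  refine ⟨hfin, ?_⟩
  have h1 := finrank_range_le_card (R := ℂ) f
  rw [Set.finrank, hspan, finrank_top, Fintype.card_prod, Sym.card_sym_eq_choose,
    Fintype.card_option, Fintype.card_fin, Fintype.card_fin] at h1
  have e1 : n + 1 + k' - 1 = n + k' := by omega
  have e2 : n + (k' + 1) - 1 = n + k' := by omega
  rw [e1, Nat.choose_symm_add.symm] at h1
  rw [e2, mul_comm]
  exact h1

end Vale.Agent.P282
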