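import Vale.Agent.Lib.P282.Core2
import Vale.Agent.Lib.P282.Vol
import Vale.Agent.Lib.P282.Num
import Vale.Agent.Lib.P282.Artin
import Vale.Agent.Lib.P282.Limsup

/-!
The bound on the normalized volume in the presence of good coordinates.
-/

set_option autoImplicit false
set_option linter.unusedSectionVars false

open scoped ENNReal

namespace Vale.Agent.P282

open IsLocalRing MvPolynomial

section

variable {n : ℕ} {K L A : Type} [Field K] [Field L] [Algebra ℂ K] [Algebra ℂ L] [Algebra K L]
  [IsScalarTower ℂ K L] [FiniteDimensional K L] [Algebra (Pol n) K] [IsScalarTower ℂ (Pol n) K]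
  [IsFractionRing (Pol n) K] [CommRing A] [IsDomain A] [Algebra ℂ A] [Algebra A L]
  [IsScalarTower ℂ A L] [Algebra (Pol n) A] [Algebra (Pol n) L] [IsScalarTower (Pol n) A L]
  [IsScalarTower (Pol n) K L] [IsScalarTower ℂ (Pol n) L] [IsIntegralClosure A (Pol n) L]
  [Module.Finite (Pol n) A] [IsScalarTower ℂ (Pol n) A] [FaithfulSMul (Pol n) A]

variable {x : Ideal A} {ω : RationalForm n L} {J : L} {i₀ : Fin n} {E : PrimeDivisorOver L}

theorem v_X_pos (hE : E ∈ extensions L (ordDiv K i₀)) :
    1 ≤ E.v (algebraMap (Pol n) L (X i₀)) := by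
  rw [IsScalarTower.algebraMap_apply _ K L]
  exact one_le_v_of_mem_extensions hE (algebraMap_X_ne_zero K i₀) (ordDiv_v_X K i₀).ge

theorem ge_X (hE : E ∈ extensions L (ordDiv K i₀)) (j : Fin n) :
    E.ge (E.v (algebraMap (Pol n) L (X i₀))) (algebraMap (Pol n) L (X j)) := by
  have h1 := mem_of_mem_extensions hE (ordDiv_mem K i₀ j)
  rw [E.mem_iff_ge, map_div₀, ← IsScalarTower.algebraMap_apply, ← IsScalarTower.algebraMap_apply] at h1
  have h0 : algebraMap (Pol n) L (X i₀) ≠ 0 := algebraMap_Pol_L_ne_zero' K (X_ne_zero i₀)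
  have h2 := E.ge_mul ((E.ge_iff h0).mpr le_rfl) h1
  rw [mul_div_cancel₀ _ h0, add_zero] at h2
  exact h2

theorem v_linear (hE : E ∈ extensions L (ordDiv K i₀)) (c : Fin n → ℂ) (hc : c ≠ 0) :
    E.v (algebraMap (Pol n) L (∑ j, c j • X j)) = E.v (algebraMap (Pol n) L (X i₀)) ∧
      algebraMap (Pol n) L (∑ j, c j • X j) ≠ 0 := by
  have h1 := ordDiv_linear K i₀ c hc
  have h0 : algebraMap (Pol n) K (∑ j, c j • X j) ≠ 0 := by
    intro h
    rw [h] at h1
    simp [PrimeDivisorOver.v] at h1
  have hX := algebraMap_X_ne_zero K i₀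
  have h2 : (ordDiv K i₀).v (algebraMap (Pol n) K (∑ j, c j • X j) /
      algebraMap (Pol n) K (X i₀)) = 0 := by
    rw [PrimeDivisorOver.v_div _ h0 hX, h1, ordDiv_v_X]; rfl
  have h3 := v_eq_zero_of_mem_extensions hE (div_ne_zero h0 hX) h2
  have h0L : algebraMap (Pol n) L (∑ j, c j • X j) ≠ 0 := by
    rw [IsScalarTower.algebraMap_apply _ K L]; exact (map_ne_zero _).mpr h0
  have hXL : algebraMap (Pol n) L (X i₀) ≠ 0 := algebraMap_Pol_L_ne_zero' K (X_ne_zero i₀)
  rw [map_div₀, ← IsScalarTower.algebraMap_apply, ← IsScalarTower.algebraMap_apply,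
    E.v_div h0L hXL] at h3
  exact ⟨by omega, h0L⟩

/-- the log discrepancy of a divisor over the origin -/
theorem Setup.logDiscrepancy_eq (S : Setup n K L A x ω J) (hi : ∀ j, i₀ ≤ j)
    (hE : E ∈ extensions L (ordDiv K i₀)) :
    E.logDiscrepancy n ω = n * E.v (algebraMap (Pol n) L (X i₀)) - E.v J := by
  have h1 := regularForms_ordDiv K i₀ L hi E hE
  simp_rw [← IsScalarTower.algebraMap_apply (Pol n) K L] at h1
  rw [S.jac, smul_smul] at h1
  have h0 : algebraMap (Pol n) L (X i₀) ≠ 0 := algebraMap_Pol_L_ne_zero' K (X_ne_zero i₀)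
  have hpi := zpow_ne_zero (1 - E.v (algebraMap (Pol n) L (X i₀))) E.pi_ne_zero
  have hX := inv_ne_zero (pow_ne_zero (n - 1) h0)
  have h2 := ordForm_eq E S.ω_ne (mul_ne_zero (mul_ne_zero hpi hX) S.J_ne) h1
  unfold PrimeDivisorOver.logDiscrepancy
  rw [h2, E.v_mul (mul_ne_zero hpi hX) S.J_ne, E.v_mul hpi hX, E.v_zpow E.pi_ne_zero, E.v_pi,
    E.v_inv (pow_ne_zero _ h0), E.v_pow h0]
  have hn : 1 ≤ n := by
    have := i₀.2; omega
  push_cast [Nat.cast_sub hn]
  ring

/-- The bound on the colengths of the valuation ideals. -/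
theorem length_valuationIdeal_le [hx : x.IsMaximal] (hzx : ∀ j, algebraMap (Pol n) A (X j) ∈ x)
    (hEA : E.IsOver A) (hc : E.center hEA = x) (q : ℕ)
    (hq : ∀ j, E.ge q (algebraMap (Pol n) L (X j))) [Module.Finite ℂ (A ⧸ I1 n x)]
    (t k : ℕ) (htk : t ≤ k * q) :
    Module.length A (A ⧸ E.valuationIdeal hEA t) ≤
      (Module.finrank ℂ (A ⧸ I1 n x) * (n + k - 1).choose n : ℕ) := by
  obtain ⟨ε, hε1, hε2⟩ := exists_eps x hzx
  let B := Module.finBasis ℂ (A ⧸ I1 n x)
  choose b hb using fun i => Ideal.Quotient.mk_surjective (B i)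
  have h1 := finrank_quotient_le (A := A) (fun j : Fin n => algebraMap (Pol n) A (X j)) (I1 n x)
    (E.valuationIdeal hEA t) b (by
      intro a _
      have h2 := B.sum_repr (Ideal.Quotient.mk (I1 n x) a)
      have h3 : a - ∑ i, B.repr (Ideal.Quotient.mk (I1 n x) a) i • b i ∈ I1 n x := by
        rw [← Ideal.Quotient.eq_zero_iff_mem, map_sub, map_sum, sub_eq_zero]
        conv_lhs => rw [← h2]
        refine Finset.sum_congr rfl fun i _ => ?_
        have : Ideal.Quotient.mk (I1 n x) (B.repr (Ideal.Quotient.mk (I1 n x) a) i • b i) =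
            B.repr (Ideal.Quotient.mk (I1 n x) a) i • Ideal.Quotient.mk (I1 n x) (b i) := rfl
        rw [this, hb]
      have h4 : a = ∑ i, B.repr (Ideal.Quotient.mk (I1 n x) a) i • b i +
        (a - ∑ i, B.repr (Ideal.Quotient.mk (I1 n x) a) i • b i) := by ring
      rw [h4]
      refine Submodule.add_mem_sup (Submodule.sum_mem _ fun i _ => ?_) h3
      exact Submodule.smul_mem _ _ (Submodule.subset_span ⟨i, rfl⟩)) (by
      intro a ha
      -- `a = (1 - (1 - ε) ^ t) a + (1 - ε) ^ t a`
      obtain ⟨d, hd⟩ : ε ∣ 1 - (1 - ε) ^ t := by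
        have := sub_dvd_pow_sub_pow (1 : A) (1 - ε) t
        rw [one_pow] at this
        simpa using this
      have h2 : a = (1 - (1 - ε) ^ t) * a + (1 - ε) ^ t * a := by ring
      rw [h2]
      refine Submodule.add_mem_sup ?_ ?_
      · rw [hd, mul_comm ε d, mul_assoc]
        exact Ideal.mul_mem_left _ _ (hε2 a ha)
      · apply Ideal.mul_mem_right
        rw [E.mem_valuationIdeal, map_pow]
        have h3 : 1 - ε ∈ E.center hEA := by rw [hc]; exact I1_le x hzx hε1
        rw [E.mem_center] at h3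
        have h4 := E.ge_pow h3 t
        rwa [mul_one] at h4) k (by
      have h2 : Ideal.span (Set.range fun j : Fin n => algebraMap (Pol n) A (X j)) ≤
          E.valuationIdeal hEA q := by
        rw [Ideal.span_le]
        rintro _ ⟨j, rfl⟩
        show algebraMap (Pol n) A (X j) ∈ E.valuationIdeal hEA q
        rw [E.mem_valuationIdeal, ← IsScalarTower.algebraMap_apply]
        exact hq j
      refine (Ideal.pow_right_mono h2 k).trans ?_
      have h3 : ∀ k : ℕ, E.valuationIdeal hEA q ^ k ≤ E.valuationIdeal hEA (k * q) := by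
        intro k
        induction k with
        | zero =>
          intro a _
          rw [E.mem_valuationIdeal]
          simpa using ge_A hEA a
        | succ k ih =>
          rw [pow_succ, Ideal.mul_le]
          intro r hr s hs
          have h4 := ih hr
          rw [E.mem_valuationIdeal] at h4 hs ⊢
          rw [map_mul]
          have h5 := E.ge_mul h4 hs
          have h6 : (((k + 1) * q : ℕ) : ℤ) = ((k * q : ℕ) : ℤ) + (q : ℤ) := by push_cast; ring
          rw [h6]
          exact h5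
      refine (h3 k).trans ?_
      intro a ha
      rw [E.mem_valuationIdeal] at ha ⊢
      exact E.ge_mono (by exact_mod_cast htk) ha)
  obtain ⟨h2, h3⟩ := h1
  refine (length_le_finrank _).trans ?_
  exact_mod_cast h3

end

end Vale.Agent.P282
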