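import Vale.Agent.Lib.P282.Main1

/-!
The bound on the normalized volume in the presence of good coordinates.
-/

set_option autoImplicit false
set_option linter.unusedSectionVars false

open scoped ENNReal

namespace Vale.Agent.P282

open IsLocalRing MvPolynomial

section

variable {n : ℕ} {K L A : Type} [Field K] [Field L] [Algebra ℂ K] [Algebra ℂ L] [Algebra K L]
  [IsScalarTower ℂ K L] [FiniteDimensional K L] [Algebra (Pol n) K] [IsScalarTower ℂ (Pol n) K]
  [IsFractionRing (Pol n) K] [CommRing A] [IsDomain A] [Algebra ℂ A] [Algebra A L]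
  [IsScalarTower ℂ A L] [Algebra (Pol n) A] [Algebra (Pol n) L] [IsScalarTower (Pol n) A L]
  [IsScalarTower (Pol n) K L] [IsScalarTower ℂ (Pol n) L] [IsIntegralClosure A (Pol n) L]
  [Module.Finite (Pol n) A] [IsScalarTower ℂ (Pol n) A] [FaithfulSMul (Pol n) A]

variable {x : Ideal A} {ω : RationalForm n L} {J : L} {i₀ : Fin n} {E : PrimeDivisorOver L}

/-- the class of a coordinate in the cotangent space -/
noncomputable def zbar (x : Ideal A) (hzx : ∀ j, algebraMap (Pol n) A (X j) ∈ x) (j : Fin n) :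
    x.Cotangent := x.toCotangent ⟨algebraMap (Pol n) A (X j), hzx j⟩

/-- the coordinates are independent in the cotangent space -/
theorem linearIndependent_zbar [hx : x.IsMaximal] (hzx : ∀ j, algebraMap (Pol n) A (X j) ∈ x)
    (hE : E ∈ extensions L (ordDiv K i₀)) (hEA : E.IsOver A)
    (hproj : ∀ a ∈ x, E.ge (E.v (algebraMap (Pol n) L (X i₀))) (algebraMap A L a)) :
    LinearIndependent ℂ (zbar x hzx) := by
  rw [Fintype.linearIndependent_iff]
  intro c hc
  by_contra hcon
  have hc0 : c ≠ 0 := by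
    rintro rfl
    exact hcon fun i => rfl
  have h1 : ∑ j, c j • zbar x hzx j = x.toCotangent
      (∑ j, c j • (⟨algebraMap (Pol n) A (X j), hzx j⟩ : x)) := by
    rw [map_sum]
    refine Finset.sum_congr rfl fun j _ => ?_
    have h2 : (c j • (⟨algebraMap (Pol n) A (X j), hzx j⟩ : x)) =
        (algebraMap ℂ A (c j)) • (⟨algebraMap (Pol n) A (X j), hzx j⟩ : x) := by
      rw [algebraMap_smul]
    rw [h2, map_smul, algebraMap_smul]
    rfl
  rw [h1, Ideal.toCotangent_eq_zero] at hc
  have h2 : ((∑ j, c j • (⟨algebraMap (Pol n) A (X j), hzx j⟩ : x) : x) : A) =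
      algebraMap (Pol n) A (∑ j, c j • X j) := by
    rw [map_sum, Submodule.coe_sum]
    refine Finset.sum_congr rfl fun j _ => ?_
    rw [Submodule.coe_smul_of_tower, Algebra.smul_def, Algebra.smul_def, map_mul,
      ← IsScalarTower.algebraMap_apply]
  rw [h2] at hc
  obtain ⟨h3, h4⟩ := v_linear hE c hc0
  set q := E.v (algebraMap (Pol n) L (X i₀)) with hq
  have hq1 : 1 ≤ q := v_X_pos hE
  have h5 : ∀ a ∈ x ^ 2, E.ge (q + q) (algebraMap A L a) := by
    intro a ha
    rw [pow_two] at ha
    induction ha using Submodule.mul_induction_on' with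
    | mem_mul_mem r hr s hs =>
      rw [map_mul]
      exact E.ge_mul (hproj r hr) (hproj s hs)
    | add r _ s _ hr hs => rw [map_add]; exact E.ge_add hr hs
  have h6 := h5 _ hc
  rw [← IsScalarTower.algebraMap_apply, E.ge_iff h4, h3] at h6
  omega

theorem toCotangent_smul (x : Ideal A) (c : ℂ) (y : x) :
    x.toCotangent (c • y) = c • x.toCotangent y := by
  have h2 : (c • y) = (algebraMap ℂ A c) • y := by rw [algebraMap_smul]
  rw [h2, map_smul, algebraMap_smul]

/-- elements of `x` completing the coordinates to generators -/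
theorem exists_complement [hx : x.IsMaximal] (hzx : ∀ j, algebraMap (Pol n) A (X j) ∈ x)
    (hli : LinearIndependent ℂ (zbar x hzx)) (c : ℕ)
    (hcot : Module.finrank ℂ x.Cotangent = n + c) [Module.Finite ℂ x.Cotangent]
    (hres : ∀ a : A, ∃ r : ℂ, a - algebraMap ℂ A r ∈ x) :
    ∃ t : Fin c → A, (∀ i, t i ∈ x) ∧ x ≤ Ideal.span (Set.range t) ⊔ I1 n x ⊔ x ^ 2 ∧
      ∀ μ : Fin c → ℂ, (∑ i, algebraMap ℂ A (μ i) * t i) ∈ I1 n x → μ = 0 := by
  set N : Submodule ℂ x.Cotangent := Submodule.span ℂ (Set.range (zbar x hzx)) with hN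
  have hNr : Module.finrank ℂ N = n := by
    rw [hN, finrank_span_eq_card hli, Fintype.card_fin]
  have hQ : Module.finrank ℂ (x.Cotangent ⧸ N) = c := by
    have := Submodule.finrank_quotient_add_finrank N
    omega
  let B := Module.finBasisOfFinrankEq ℂ (x.Cotangent ⧸ N) hQ
  have hsurj : ∀ i, ∃ y : x, N.mkQ (x.toCotangent y) = B i := by
    intro i
    obtain ⟨u, hu⟩ := N.mkQ_surjective (B i)
    obtain ⟨y, hy⟩ := x.toCotangent_surjective u
    exact ⟨y, by rw [hy, hu]⟩
  choose t ht using hsurj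
  -- characterization of `N`
  have hNmem : ∀ y : x, x.toCotangent y ∈ N → (y : A) ∈ zI n A ⊔ x ^ 2 := by
    intro y hy
    rw [hN, Submodule.mem_span_range_iff_exists_fun] at hy
    obtain ⟨r, hr⟩ := hy
    have h1 : x.toCotangent (y - ∑ j, r j • (⟨algebraMap (Pol n) A (X j), hzx j⟩ : x)) = 0 := by
      rw [map_sub, map_sum, ← hr, sub_eq_zero]
      refine Finset.sum_congr rfl fun j _ => ?_
      rw [toCotangent_smul]; rfl
    rw [Ideal.toCotangent_eq_zero] at h1
    have h2 : (y : A) = (∑ j, algebraMap ℂ A (r j) * algebraMap (Pol n) A (X j)) +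
        ((y - ∑ j, r j • (⟨algebraMap (Pol n) A (X j), hzx j⟩ : x) : x) : A) := by
      rw [Submodule.coe_sub, Submodule.coe_sum]
      have : ∀ j, ((r j • (⟨algebraMap (Pol n) A (X j), hzx j⟩ : x) : x) : A) =
          algebraMap ℂ A (r j) * algebraMap (Pol n) A (X j) := fun j => by
        rw [Submodule.coe_smul_of_tower, Algebra.smul_def]
      simp_rw [this]
      ring
    rw [h2]
    refine Submodule.add_mem_sup (Ideal.sum_mem _ fun j _ => ?_) h1
    exact Ideal.mul_mem_left _ _ (Ideal.subset_span ⟨j, rfl⟩)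
  refine ⟨fun i => (t i : A), fun i => (t i).2, ?_, ?_⟩
  · intro a ha
    have h1 := B.sum_repr (N.mkQ (x.toCotangent ⟨a, ha⟩))
    set r := fun i => B.repr (N.mkQ (x.toCotangent ⟨a, ha⟩)) i with hr
    have h2 : N.mkQ (x.toCotangent (⟨a, ha⟩ - ∑ i, r i • t i)) = 0 := by
      rw [map_sub, map_sub, map_sum, map_sum, sub_eq_zero]
      conv_lhs => rw [← h1]
      refine Finset.sum_congr rfl fun i _ => ?_
      rw [toCotangent_smul, map_smul, ht]
    rw [Submodule.mkQ_apply, Submodule.Quotient.mk_eq_zero] at h2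
    have h3 := hNmem _ h2
    have h4 : a = ((⟨a, ha⟩ - ∑ i, r i • t i : x) : A) + ∑ i, algebraMap ℂ A (r i) * (t i : A) := by
      rw [Submodule.coe_sub, Submodule.coe_sum]
      have : ∀ j, ((r j • t j : x) : A) = algebraMap ℂ A (r j) * (t j : A) := fun j => by
        rw [Submodule.coe_smul_of_tower, Algebra.smul_def]
      simp_rw [this]
      ring
    rw [h4]
    refine Ideal.add_mem _ ?_ (Ideal.sum_mem _ fun i _ => ?_)
    · obtain ⟨u, hu, v, hv, huv⟩ := Submodule.mem_sup.mp h3
      rw [← huv]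
      exact Ideal.add_mem _ (Ideal.mem_sup_left (Ideal.mem_sup_right (zI_le_I1 x hu)))
        (Ideal.mem_sup_right hv)
    · exact Ideal.mul_mem_left _ _ (Ideal.mem_sup_left (Ideal.mem_sup_left
        (Ideal.subset_span ⟨i, rfl⟩)))
  · intro μ hμ
    rw [mem_I1] at hμ
    obtain ⟨s, hs, hsμ⟩ := hμ
    obtain ⟨l, hl⟩ := hres s
    have hl0 : l ≠ 0 := by
      rintro rfl
      rw [map_zero, sub_zero] at hl
      exact hs hl
    -- the class of `∑ μ i t i` is in `N`
    have h1 : x.toCotangent (∑ i, (l * μ i) • t i) ∈ N := by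
      have h2 : ((∑ i, (l * μ i) • t i : x) : A) ∈ zI n A ⊔ x ^ 2 := by
        have h3 : ((∑ i, (l * μ i) • t i : x) : A) = s * (∑ i, algebraMap ℂ A (μ i) * (t i : A)) -
            (s - algebraMap ℂ A l) * (∑ i, algebraMap ℂ A (μ i) * (t i : A)) := by
          rw [Submodule.coe_sum, Finset.mul_sum, Finset.mul_sum, ← Finset.sum_sub_distrib]
          refine Finset.sum_congr rfl fun i _ => ?_
          rw [Submodule.coe_smul_of_tower, Algebra.smul_def, map_mul]
          ring
        rw [h3]
        refine Ideal.sub_mem _ (Ideal.mem_sup_left hsμ) (Ideal.mem_sup_right ?_)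
        rw [pow_two]
        exact Ideal.mul_mem_mul hl (Ideal.sum_mem _ fun i _ => Ideal.mul_mem_left _ _ (t i).2)
      obtain ⟨u, hu, v, hv, huv⟩ := Submodule.mem_sup.mp h2
      have hux : u ∈ x := zI_le x hzx hu
      have hvx : v ∈ x := Ideal.pow_le_self two_ne_zero hv
      have h3 : (∑ i, (l * μ i) • t i : x) = ⟨u, hux⟩ + ⟨v, hvx⟩ := Subtype.ext huv.symm
      rw [h3, map_add, (Ideal.toCotangent_eq_zero x ⟨v, hvx⟩).mpr hv, add_zero]
      -- `u ∈ (z)` has class in `N`
      clear h3 huv h2 hv hvx v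
      obtain ⟨a, ha⟩ := (Ideal.mem_span_range_iff_exists_fun).mp hu
      choose r hr using hres
      have h4 : x.toCotangent ⟨u, hux⟩ = ∑ j, r (a j) • zbar x hzx j := by
        have h5 : x.toCotangent (⟨u, hux⟩ - ∑ j, r (a j) •
            (⟨algebraMap (Pol n) A (X j), hzx j⟩ : x)) = 0 := by
          rw [Ideal.toCotangent_eq_zero]
          have h6 : ((⟨u, hux⟩ - ∑ j, r (a j) • (⟨algebraMap (Pol n) A (X j), hzx j⟩ : x) : x) : A) =
              ∑ j, (a j - algebraMap ℂ A (r (a j))) * algebraMap (Pol n) A (X j) := by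
            rw [Submodule.coe_sub, Submodule.coe_sum]
            show u - _ = _
            rw [← ha, ← Finset.sum_sub_distrib]
            refine Finset.sum_congr rfl fun j _ => ?_
            rw [Submodule.coe_smul_of_tower, Algebra.smul_def]
            ring
          rw [h6, pow_two]
          exact Ideal.sum_mem _ fun j _ => Ideal.mul_mem_mul (hr (a j)) (hzx j)
        rw [map_sub, sub_eq_zero, map_sum] at h5
        rw [h5]
        refine Finset.sum_congr rfl fun j _ => ?_
        rw [toCotangent_smul]; rfl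
      rw [h4]
      exact Submodule.sum_mem _ fun j _ => Submodule.smul_mem _ _ (Submodule.subset_span ⟨j, rfl⟩)
    have h2 : ∑ i, (l * μ i) • B i = 0 := by
      have h3 : N.mkQ (x.toCotangent (∑ i, (l * μ i) • t i)) = 0 := by
        rw [Submodule.mkQ_apply, Submodule.Quotient.mk_eq_zero]; exact h1
      rw [map_sum, map_sum] at h3
      rw [← h3]
      refine Finset.sum_congr rfl fun i _ => ?_
      rw [toCotangent_smul, map_smul, ht]
    have h3 := Fintype.linearIndependent_iff.mp B.linearIndependent _ h2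
    funext i
    have h4 := h3 i
    rcases mul_eq_zero.mp h4 with h5 | h5
    · exact absurd h5 hl0
    · exact h5

end

end Vale.Agent.P282
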