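import Vale.Agent.Lib.P282.Main2

/-!
The bound on the normalized volume in the presence of good coordinates.
-/

set_option autoImplicit false
set_option linter.unusedSectionVars false

open scoped ENNReal

namespace Vale.Agent.P282

open IsLocalRing MvPolynomial

section

variable {n : ℕ} {K L A : Type} [Field K] [Field L] [Algebra ℂ K] [Algebra ℂ L] [Algebra K L]
  [IsScalarTower ℂ K L] [FiniteDimensional K L] [Algebra (Pol n) K] [IsScalarTower ℂ (Pol n) K]
  [IsFractionRing (Pol n) K] [CommRing A] [IsDomain A] [Algebra ℂ A] [Algebra A L]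
  [IsScalarTower ℂ A L] [Algebra (Pol n) A] [Algebra (Pol n) L] [IsScalarTower (Pol n) A L]
  [IsScalarTower (Pol n) K L] [IsScalarTower ℂ (Pol n) L] [IsIntegralClosure A (Pol n) L]
  [Module.Finite (Pol n) A] [IsScalarTower ℂ (Pol n) A] [FaithfulSMul (Pol n) A]

variable {x : Ideal A} {ω : RationalForm n L} {J : L} {i₀ : Fin n}

/-- The main bound. -/
theorem Setup.exists_bound (S : Setup n K L A x ω J) [hx : x.IsMaximal] (hi : ∀ j, i₀ ≤ j)
    (hres : ∀ a : A, ∃ r : ℂ, a - algebraMap ℂ A r ∈ x)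
    (hproj : ∀ E ∈ extensions L (ordDiv K i₀), ∀ hEA : E.IsOver A, E.center hEA = x →
      ∀ a ∈ x, E.ge (E.v (algebraMap (Pol n) L (X i₀))) (algebraMap A L a))
    (hklt : ∀ (E : PrimeDivisorOver L) (h : E.IsOver A), E.center h ≤ x →
      0 < E.logDiscrepancy n ω)
    (c : ℕ) (hc1 : 1 ≤ c) (hcot : Module.finrank ℂ x.Cotangent = n + c) :
    ∃ s : ℕ, 1 ≤ s ∧ s < n ∧ (2 ≤ c → 2 ≤ s) ∧
      normalizedVolume n x ω ≤ (((1 + (c + s - 1).choose c) * (n - s) ^ n : ℕ) : ℝ≥0∞) := by
  have hn0 : 0 < n := by have := i₀.2; omega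
  have hfincot : Module.Finite ℂ x.Cotangent := by
    apply Module.finite_of_finrank_pos
    omega
  obtain ⟨Φ, hΦ0, hΦ, hdiv⟩ := S.core (K := K) i₀
  have hI1x : I1 n x ≤ x := I1_le x S.hzx
  -- a first divisor
  have h1 : (1 : A) ∉ I1 n x := fun h => (Ideal.ne_top_iff_one x).mp hx.ne_top (hI1x h)
  have hdiv' : ∀ f, f ∉ I1 n x → ∃ E ∈ extensions L (ordDiv K i₀), ∃ hEA : E.IsOver A,
      E.center hEA = x ∧ E.v (algebraMap A L f) ≤ E.v J := by
    intro f hf
    have h2 : ∃ b, Φ (f * b) ≠ 0 := by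
      by_contra hcon
      push Not at hcon
      exact hf (hΦ f hcon)
    obtain ⟨b, hb⟩ := h2
    exact hdiv f b hb
  obtain ⟨E₁, hE₁, hEA₁, hc₁, _⟩ := hdiv' 1 h1
  have hli := linearIndependent_zbar (x := x) S.hzx hE₁ hEA₁ (hproj E₁ hE₁ hEA₁ hc₁)
  obtain ⟨t, htx, ht, htli⟩ := exists_complement S.hzx hli c hcot hres
  -- the order of the socle
  obtain ⟨m₀, hm₀⟩ := exists_pow_le_I1 x S.hzx
  classical
  have hex : ∃ m, x ^ m ≤ I1 n x := ⟨m₀, hm₀⟩
  set m := Nat.find hex with hm
  have hm1 : x ^ m ≤ I1 n x := Nat.find_spec hex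
  have hm2 : ∀ k < m, ¬ x ^ k ≤ I1 n x := fun k hk => Nat.find_min hex hk
  have hmpos : 2 ≤ m := by
    by_contra hcon
    have h2 : x ^ 1 ≤ I1 n x := (Ideal.pow_le_pow_right (by omega)).trans hm1
    rw [pow_one] at h2
    have h3 := htli (fun _ => 1) (Ideal.sum_mem _ fun i _ => Ideal.mul_mem_left _ _ (h2 (htx i)))
    have h4 := congrFun h3 ⟨0, by omega⟩
    simp at h4
  obtain ⟨s, hs⟩ : ∃ s, m = s + 1 := ⟨m - 1, by omega⟩
  rw [hs] at hm1 hm2 hmpos
  have hs1 : 1 ≤ s := by omega
  obtain ⟨hfin, hfr⟩ := finite_and_finrank_le x (I1 n x) hres hI1x s hs1 hm1 Φ hΦ0 hΦ c t htx ht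
  set e := Module.finrank ℂ (A ⧸ I1 n x) with he
  -- `s ≥ 2`
  have hs2 : 2 ≤ c → 2 ≤ s := by
    intro hc2
    by_contra hcon
    have hs1' : s = 1 := by omega
    have hce : c + 1 ≤ e := by
      have h2 : LinearIndependent ℂ (fun o : Option (Fin c) =>
          Ideal.Quotient.mk (I1 n x) (o.elim 1 t)) := by
        rw [Fintype.linearIndependent_iff]
        intro g hg
        rw [Fintype.sum_option] at hg
        have h3 : (algebraMap ℂ A (g none) + ∑ i, algebraMap ℂ A (g (some i)) * t i) ∈ I1 n x := by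
          rw [← Ideal.Quotient.eq_zero_iff_mem, ← hg, map_add, map_sum]
          congr 1
          · simp only [Option.elim]
            rw [Algebra.algebraMap_eq_smul_one]; rfl
          · refine Finset.sum_congr rfl fun i _ => ?_
            rw [← Algebra.smul_def]; rfl
        have h4 : g none = 0 := by
          by_contra hne
          have h5 : algebraMap ℂ A (g none) ∈ x := by
            have h6 := Ideal.sub_mem _ (hI1x h3) (Ideal.sum_mem x (t := Finset.univ)
              (f := fun i => algebraMap ℂ A (g (some i)) * t i)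
              fun i _ => Ideal.mul_mem_left _ _ (htx i))
            rwa [add_sub_cancel_right] at h6
          exact hx.ne_top (Ideal.eq_top_of_isUnit_mem _ h5 ((isUnit_iff_ne_zero.mpr hne).map _))
        rw [h4, map_zero, zero_add] at h3
        have h5 := htli (fun i => g (some i)) h3
        intro o
        cases o with
        | none => exact h4
        | some i => exact congrFun h5 i
      have h3 := h2.fintype_card_le_finrank
      rw [Fintype.card_option, Fintype.card_fin] at h3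
      exact h3
    rw [hs1'] at hfr
    have : (c + 1 - 1).choose c = 1 := by rw [Nat.add_sub_cancel, Nat.choose_self]
    omega
  -- the good divisor
  obtain ⟨f, hfx, hf⟩ := SetLike.not_le_iff_exists.mp (hm2 s (by omega))
  obtain ⟨E, hE, hEA, hcE, hvf⟩ := hdiv' f hf
  have hinj : Function.Injective (algebraMap A L) :=
    IsIntegralClosure.algebraMap_injective A (Pol n) L
  have hf0 : algebraMap A L f ≠ 0 := fun h0 => by
    rw [hinj (h0.trans (map_zero _).symm)] at hf
    exact hf (Ideal.zero_mem _)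
  obtain ⟨q, hq⟩ : ∃ q : ℕ, E.v (algebraMap (Pol n) L (X i₀)) = q :=
    ⟨_, (Int.toNat_of_nonneg (by have := v_X_pos hE; omega)).symm⟩
  have hqpos : 0 < q := by have := v_X_pos hE; omega
  have hvf' : (s : ℤ) * q ≤ E.v (algebraMap A L f) := by
    have h2 : ∀ k : ℕ, ∀ a ∈ x ^ k, E.ge (k * q) (algebraMap A L a) := by
      intro k
      induction k with
      | zero =>
        intro a _
        simpa using ge_A hEA a
      | succ k ih =>
        intro a ha
        rw [pow_succ] at ha
        induction ha using Submodule.mul_induction_on' with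
        | mem_mul_mem r hr s hs =>
          rw [map_mul]
          have h3 := hproj E hE hEA hcE s hs
          rw [hq] at h3
          have h4 := E.ge_mul (ih r hr) h3
          convert h4 using 1
          push_cast; ring
        | add r _ s _ hr hs => rw [map_add]; exact E.ge_add hr hs
    have h3 := h2 s f hfx
    rwa [E.ge_iff hf0] at h3
  have hA := S.logDiscrepancy_eq hi hE
  rw [hq] at hA
  have hApos := hklt E hEA hcE.le
  have hAle : E.logDiscrepancy n ω ≤ ((n : ℤ) - s) * q := by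
    rw [hA]
    have : ((n : ℤ) - s) * q = n * q - s * q := by ring
    omega
  have hsn : s < n := by
    by_contra hcon
    push Not at hcon
    have h2 : ((n : ℤ) - s) * q ≤ 0 := by
      apply mul_nonpos_of_nonpos_of_nonneg
      · have : (n : ℤ) ≤ s := by exact_mod_cast hcon
        omega
      · positivity
    omega
  -- the volume
  have hvol : E.volume hEA n ≤ (e : ℝ≥0∞) / (q : ℝ≥0∞) ^ n := by
    unfold PrimeDivisorOver.volume
    apply limsup_le_of_le_choose n q e hqpos
    intro t k htk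
    have h2 := length_valuationIdeal_le (E := E) S.hzx hEA hcE q
      (fun j => by rw [← hq]; exact ge_X hE j) t k htk
    have h3 := ENat.toENNReal_le.mpr h2
    rw [ENat.toENNReal_coe] at h3
    exact h3
  have hfinal : (n - s) ^ n * e ≤ (1 + (c + s - 1).choose c) * (n - s) ^ n := by
    rw [mul_comm]
    exact Nat.mul_le_mul_right _ hfr
  have hAe : ENNReal.ofReal (E.logDiscrepancy n ω) ≤ (((n - s) * q : ℕ) : ℝ≥0∞) := by
    rw [← ENNReal.ofReal_natCast]
    apply ENNReal.ofReal_le_ofReal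
    have h2 : (E.logDiscrepancy n ω) ≤ (((n - s) * q : ℕ) : ℤ) := by
      rw [Nat.cast_mul, Nat.cast_sub hsn.le]
      exact hAle
    exact_mod_cast h2
  have hq0 : (q : ℝ≥0∞) ^ n ≠ 0 := pow_ne_zero _ (by exact_mod_cast hqpos.ne')
  have hqt : (q : ℝ≥0∞) ^ n ≠ ⊤ := ENNReal.pow_ne_top (ENNReal.natCast_ne_top q)
  refine ⟨s, hs1, hsn, hs2, ?_⟩
  calc normalizedVolume n x ω ≤ ENNReal.ofReal (E.logDiscrepancy n ω) ^ n * E.volume hEA n :=
        iInf_le_of_le E (iInf_le_of_le hEA (iInf_le_of_le hcE le_rfl))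
    _ ≤ (((n - s) * q : ℕ) : ℝ≥0∞) ^ n * ((e : ℝ≥0∞) / (q : ℝ≥0∞) ^ n) :=
        mul_le_mul' (pow_le_pow_left' hAe n) hvol
    _ = (((n - s) ^ n * e : ℕ) : ℝ≥0∞) := by
        push_cast
        rw [mul_pow, mul_assoc, ENNReal.mul_div_cancel hq0 hqt]
    _ ≤ _ := by exact_mod_cast hfinal

end

theorem ofReal_two_mul (n : ℕ) (hn : 1 ≤ n) :
    ENNReal.ofReal (2 * ((n : ℝ) - 1) ^ n) = ((2 * (n - 1) ^ n : ℕ) : ℝ≥0∞) := by
  rw [← ENNReal.ofReal_natCast]
  congr 1
  push_cast [Nat.cast_sub hn]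
  ring

theorem num_one (n s : ℕ) (hs : 1 ≤ s) (hsn : s < n) : (1 + s) * (n - s) ^ n ≤ 2 * (n - 1) ^ n := by
  obtain ⟨a, rfl⟩ : ∃ a, n = a + s := ⟨n - s, by omega⟩
  obtain ⟨b, rfl⟩ : ∃ b, s = b + 1 := ⟨s - 1, by omega⟩
  have h1 : a + (b + 1) - (b + 1) = a := by omega
  have h2 : a + (b + 1) - 1 = a + b := by omega
  rw [h1, h2]
  have ha : 1 ≤ a := by omega
  -- `(a + b)^N ≥ a^N + N b a^(N-1) ≥ (1 + b) a^N`
  have h3 : ∀ N : ℕ, a ≤ N → a ^ N * (1 + b) ≤ (a + b) ^ N := by
    intro N hN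
    have h4 : ∀ N : ℕ, a ^ N * a + N * b * a ^ N ≤ (a + b) ^ N * a := by
      intro N
      induction N with
      | zero => simp
      | succ N ih =>
        have h5 : (a ^ N * a + N * b * a ^ N) * (a + b) ≤ (a + b) ^ N * a * (a + b) :=
          Nat.mul_le_mul_right _ ih
        calc a ^ (N + 1) * a + (N + 1 : ℕ) * b * a ^ (N + 1)
            ≤ (a ^ N * a + N * b * a ^ N) * (a + b) := by
              have : (a ^ N * a + N * b * a ^ N) * (a + b) =
                a ^ (N + 1) * a + (N + 1 : ℕ) * b * a ^ (N + 1) + N * b * b * a ^ N := by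
                push_cast; ring
              rw [this]; exact Nat.le_add_right _ _
          _ ≤ (a + b) ^ N * a * (a + b) := h5
          _ = (a + b) ^ (N + 1) * a := by ring
    have h5 := h4 N
    have h6 : a * b * a ^ N ≤ N * b * a ^ N :=
      Nat.mul_le_mul_right _ (Nat.mul_le_mul_right _ hN)
    have h7 : a ^ N * (1 + b) * a ≤ (a + b) ^ N * a := by
      calc a ^ N * (1 + b) * a = a ^ N * a + a * b * a ^ N := by ring
        _ ≤ a ^ N * a + N * b * a ^ N := Nat.add_le_add_left h6 _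
        _ ≤ _ := h5
    exact Nat.le_of_mul_le_mul_right h7 ha
  have h4 := h3 (a + (b + 1)) (by omega)
  calc (1 + (b + 1)) * a ^ (a + (b + 1)) ≤ 2 * (a ^ (a + (b + 1)) * (1 + b)) := by
        have : 2 * (a ^ (a + (b + 1)) * (1 + b)) = (1 + (b + 1)) * a ^ (a + (b + 1)) +
          b * a ^ (a + (b + 1)) := by ring
        rw [this]; exact Nat.le_add_right _ _
    _ ≤ 2 * (a + b) ^ (a + (b + 1)) := Nat.mul_le_mul_left _ h4

end Vale.Agent.P282
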