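import Vale.Agent.Lib.P282.Lattice

/-!
Computation of the order of a top form.
-/

set_option autoImplicit false

namespace Vale.Agent.P282

variable {L : Type} [Field L] [Algebra ℂ L] {n : ℕ}

theorem smul_mem_span_iff (E : PrimeDivisorOver L) {ω : RationalForm n L} (hω : ω ≠ 0) {a b : L}
    (ha : a ≠ 0) (hb : b ≠ 0) :
    a • ω ∈ Submodule.span E.ring {b • ω} ↔ E.v b ≤ E.v a := by
  rw [Submodule.mem_span_singleton]
  constructor
  · rintro ⟨c, hc⟩
    have h1 : (c : L) * b = a := by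
      rw [coe_smul_form, smul_smul] at hc
      exact smul_left_injective L hω hc
    have hc0 : (c : L) ≠ 0 := by
      rintro h0
      rw [h0, zero_mul] at h1
      exact ha h1.symm
    have h2 := E.mem_iff_ge.mp c.2
    rw [E.ge_iff hc0] at h2
    rw [← h1, E.v_mul hc0 hb]
    omega
  · intro h
    have h1 : a / b ∈ E.ring := by
      rw [E.mem_iff_ge, E.ge_iff (div_ne_zero ha hb), E.v_div ha hb]
      omega
    refine ⟨⟨a / b, h1⟩, ?_⟩
    rw [coe_smul_form, smul_smul]
    congr 1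
    field_simp

theorem v_eq_of_span_eq (E : PrimeDivisorOver L) {ω : RationalForm n L} (hω : ω ≠ 0) {a b : L}
    (ha : a ≠ 0) (hb : b ≠ 0)
    (h : Submodule.span E.ring {a • ω} = Submodule.span E.ring {b • ω}) : E.v a = E.v b := by
  apply le_antisymm
  · rw [← smul_mem_span_iff E hω hb ha, h]
    exact Submodule.mem_span_singleton_self _
  · rw [← smul_mem_span_iff E hω ha hb, ← h]
    exact Submodule.mem_span_singleton_self _

theorem v_irreducible (E : PrimeDivisorOver L) (ϖ : E.ring) (hϖ : Irreducible ϖ) :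
    (ϖ : L) ≠ 0 ∧ E.v (ϖ : L) = 1 := by
  have h0 : (ϖ : L) ≠ 0 := fun h => hϖ.ne_zero (Subtype.ext h)
  refine ⟨h0, ?_⟩
  obtain ⟨u, hu⟩ := IsDiscreteValuationRing.associated_of_irreducible E.ring E.unif_irreducible hϖ
  have : (ϖ : L) = E.pi ^ (1 : ℤ) * (u : E.ring) := by
    rw [← hu]; simp [PrimeDivisorOver.pi]
  rw [this, E.v_zpow_mul_unit]

theorem ordForm_eq (E : PrimeDivisorOver L) {ω : RationalForm n L} (hω : ω ≠ 0) {b : L} (hb : b ≠ 0)
    (h : regularForms n E.ring = Submodule.span E.ring {b • ω}) :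
    E.ordForm n ω = - E.v b := by
  have h1 : {k : ℤ | ∃ ϖ : E.ring, Irreducible ϖ ∧ ((ϖ : L) ^ (-k)) • ω ∈ regularForms n E.ring} =
      Set.Iic (- E.v b) := by
    ext k
    rw [Set.mem_setOf_eq, Set.mem_Iic]
    constructor
    · rintro ⟨ϖ, hϖ, hk⟩
      obtain ⟨h0, h1⟩ := v_irreducible E ϖ hϖ
      rw [h, smul_mem_span_iff E hω (zpow_ne_zero _ h0) hb, E.v_zpow h0, h1] at hk
      omega
    · intro hk
      obtain ⟨h0, h1⟩ := v_irreducible E E.unif E.unif_irreducible
      refine ⟨E.unif, E.unif_irreducible, ?_⟩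
      rw [h, smul_mem_span_iff E hω (zpow_ne_zero _ h0) hb, E.v_zpow h0, h1]
      omega
  unfold PrimeDivisorOver.ordForm
  rw [h1]
  exact csSup_Iic

end Vale.Agent.P282
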