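import Vale.Agent.Lib.P282.PrimeDiv

/-!
The order of vanishing at the origin of affine space.
-/

set_option autoImplicit false
set_option linter.unusedSectionVars false

namespace Vale.Agent.P282

open IsLocalRing MvPolynomial

/-- polynomial rings over the complex numbers -/
abbrev Pol (n : ℕ) : Type := MvPolynomial (Fin n) ℂ

section

variable {n : ℕ} (K : Type) [Field K] [Algebra ℂ K] [Algebra (Pol n) K] [IsScalarTower ℂ (Pol n) K]
  [IsFractionRing (Pol n) K] (i₀ : Fin n)

/-- the coordinates of the blowup -/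
noncomputable def zc : Fin n → K := fun j =>
  if j = i₀ then algebraMap (Pol n) K (X i₀) else
    algebraMap (Pol n) K (X j) / algebraMap (Pol n) K (X i₀)

theorem zc_self : zc K i₀ i₀ = algebraMap (Pol n) K (X i₀) := by simp [zc]

theorem zc_ne {j : Fin n} (hj : j ≠ i₀) : zc K i₀ j =
    algebraMap (Pol n) K (X j) / algebraMap (Pol n) K (X i₀) := by simp [zc, hj]

theorem algebraMap_X_ne_zero (j : Fin n) : algebraMap (Pol n) K (X j) ≠ 0 := fun h0 =>
  X_ne_zero j (IsFractionRing.injective (Pol n) K (h0.trans (map_zero _).symm))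

theorem zc_mul {j : Fin n} (hj : j ≠ i₀) : zc K i₀ i₀ * zc K i₀ j =
    algebraMap (Pol n) K (X j) := by
  rw [zc_self, zc_ne K i₀ hj]
  have := algebraMap_X_ne_zero K i₀
  field_simp

theorem zc_algebraicIndependent : AlgebraicIndependent ℂ (zc K i₀) := by
  rw [algebraicIndependent_iff_injective_aeval, injective_iff_map_eq_zero]
  -- the substitution `X_j ↦ X_{i₀} X_j`
  let θ : Pol n →ₐ[ℂ] Pol n := aeval (fun j => if j = i₀ then X i₀ else X i₀ * X j)
  have h1 : ∀ G : Pol n, aeval (zc K i₀) (θ G) = algebraMap (Pol n) K G := by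
    intro G
    have : (aeval (zc K i₀)).comp θ = IsScalarTower.toAlgHom ℂ (Pol n) K := by
      ext j
      simp only [AlgHom.coe_comp, Function.comp_apply, θ, aeval_X, IsScalarTower.coe_toAlgHom']
      split_ifs with hj
      · subst hj; rw [aeval_X, zc_self]
      · rw [map_mul, aeval_X, aeval_X, zc_mul K i₀ hj]
    exact DFunLike.congr_fun this G
  have h2 : ∀ F : Pol n, ∃ (M : ℕ) (G : Pol n), X i₀ ^ M * F = θ G := by
    intro F
    induction F using MvPolynomial.induction_on with
    | C a => exact ⟨0, C a, by simp [θ]⟩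
    | add p q hp hq =>
      obtain ⟨M, G, hG⟩ := hp
      obtain ⟨M', G', hG'⟩ := hq
      refine ⟨M + M', X i₀ ^ M' * G + X i₀ ^ M * G', ?_⟩
      rw [map_add, map_mul, map_mul, ← hG, ← hG', map_pow, map_pow]
      simp only [θ, aeval_X, if_true]
      ring
    | mul_X p i hp =>
      obtain ⟨M, G, hG⟩ := hp
      refine ⟨M + 1, (if i = i₀ then X i₀ * X i₀ else X i) * G, ?_⟩
      rw [map_mul, ← hG]
      split_ifs with hi
      · subst hi
        simp only [θ, map_mul, aeval_X, if_true]
        ring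
      · simp only [θ, aeval_X, hi, if_false]
        ring
  intro F hF
  obtain ⟨M, G, hG⟩ := h2 F
  have h3 : algebraMap (Pol n) K G = 0 := by
    rw [← h1, ← hG, map_mul, hF, mul_zero]
  have h4 : G = 0 := IsFractionRing.injective (Pol n) K (h3.trans (map_zero _).symm)
  rw [h4, map_zero] at hG
  rcases mul_eq_zero.mp hG with h5 | h5
  · exact absurd h5 (pow_ne_zero _ (X_ne_zero i₀))
  · exact h5

/-- the coordinate ring of the chart of the blowup -/
abbrev BlS : Type := Algebra.adjoin ℂ (Set.range (zc K i₀))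

/-- the isomorphism with a polynomial ring -/
noncomputable def blψ : MvPolynomial (Fin n) ℂ ≃ₐ[ℂ] BlS K i₀ :=
  (zc_algebraicIndependent K i₀).aevalEquiv

theorem coe_blψ (F : Pol n) : ((blψ K i₀ F : BlS K i₀) : K) = aeval (zc K i₀) F := rfl

theorem algebraMap_mem_BlS (F : Pol n) :
    ∃ G : BlS K i₀, algebraMap (BlS K i₀) K G = algebraMap (Pol n) K F := by
  let θ : Pol n →ₐ[ℂ] Pol n := aeval (fun j => if j = i₀ then X i₀ else X i₀ * X j)
  have h1 : ∀ G : Pol n, aeval (zc K i₀) (θ G) = algebraMap (Pol n) K G := by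
    intro G
    have : (aeval (zc K i₀)).comp θ = IsScalarTower.toAlgHom ℂ (Pol n) K := by
      ext j
      simp only [AlgHom.coe_comp, Function.comp_apply, θ, aeval_X, IsScalarTower.coe_toAlgHom']
      split_ifs with hj
      · subst hj; rw [aeval_X, zc_self]
      · rw [map_mul, aeval_X, aeval_X, zc_mul K i₀ hj]
    exact DFunLike.congr_fun this G
  exact ⟨blψ K i₀ (θ F), h1 F⟩

instance : IsFractionRing (BlS K i₀) K := by
  apply IsFractionRing.of_field
  intro y
  obtain ⟨a, b, _, rfl⟩ := IsFractionRing.div_surjective (A := Pol n) y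
  obtain ⟨a', ha⟩ := algebraMap_mem_BlS K i₀ a
  obtain ⟨b', hb⟩ := algebraMap_mem_BlS K i₀ b
  exact ⟨a', b', by rw [ha, hb]⟩

instance : IsNoetherianRing (BlS K i₀) :=
  isNoetherianRing_of_ringEquiv (Pol n) (blψ K i₀).toRingEquiv

instance : Algebra.FiniteType ℂ (BlS K i₀) :=
  Algebra.FiniteType.equiv inferInstance (blψ K i₀)

theorem prime_blψ : Prime (blψ K i₀ (X i₀)) :=
  (MulEquiv.prime_iff (blψ K i₀)).mpr X_prime

/-- the order of vanishing at the origin -/
noncomputable def ordDiv : PrimeDivisorOver K := primeDiv K (blψ K i₀ (X i₀)) (prime_blψ K i₀)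

theorem algebraMap_blψ (F : Pol n) :
    algebraMap (BlS K i₀) K (blψ K i₀ F) = aeval (zc K i₀) F := rfl

theorem ordDiv_v_X : (ordDiv K i₀).v (algebraMap (Pol n) K (X i₀)) = 1 := by
  have := primeDiv_v_self K (blψ K i₀ (X i₀)) (prime_blψ K i₀)
  rw [algebraMap_blψ, aeval_X, zc_self] at this
  exact this

theorem ordDiv_mem (j : Fin n) :
    algebraMap (Pol n) K (X j) / algebraMap (Pol n) K (X i₀) ∈ (ordDiv K i₀).ring := by
  by_cases hj : j = i₀
  · subst hj
    rw [div_self (algebraMap_X_ne_zero K j)]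
    exact (ordDiv K j).ring.one_mem
  · rw [← zc_ne K i₀ hj, ← aeval_X (R := ℂ) (zc K i₀) j, ← algebraMap_blψ]
    exact algebraMap_mem_primeDiv K _ _ _

/-- linear forms have order exactly one -/
theorem ordDiv_linear (c : Fin n → ℂ) (hc : c ≠ 0) :
    (ordDiv K i₀).v (algebraMap (Pol n) K (∑ j, c j • X j)) = 1 := by
  set F : Pol n := C (c i₀) + ∑ j ∈ Finset.univ.erase i₀, C (c j) * X j with hF
  have h1 : algebraMap (Pol n) K (∑ j, c j • X j) =
      algebraMap (Pol n) K (X i₀) * algebraMap (BlS K i₀) K (blψ K i₀ F) := by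
    rw [algebraMap_blψ, hF, ← Finset.add_sum_erase _ _ (Finset.mem_univ i₀)]
    simp only [map_add, map_sum, map_mul, aeval_X, smul_eq_C_mul]
    rw [mul_add, Finset.mul_sum]
    congr 1
    · rw [mul_comm]
      congr 1
      rw [aeval_C, ← MvPolynomial.algebraMap_eq, ← IsScalarTower.algebraMap_apply]
    · refine Finset.sum_congr rfl fun j hj => ?_
      rw [← zc_mul K i₀ (Finset.ne_of_mem_erase hj), zc_self]
      rw [aeval_C, ← MvPolynomial.algebraMap_eq, ← IsScalarTower.algebraMap_apply]
      ring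
  have h2 : ¬ blψ K i₀ (X i₀) ∣ blψ K i₀ F := by
    rintro ⟨G, hG⟩
    have h3 : F = X i₀ * (blψ K i₀).symm G := by
      apply (blψ K i₀).injective
      rw [map_mul, hG]; simp
    apply hc
    have h4 : ∀ m : Fin n →₀ ℕ, m i₀ = 0 → coeff m F = 0 := by
      intro m hm
      rw [h3, coeff_X_mul', if_neg]
      simp [hm]
    have hF0 : coeff 0 F = c i₀ := by
      rw [hF, coeff_add, coeff_sum, coeff_C, if_pos rfl]
      simp [coeff_C_mul, coeff_zero_X]
    funext j
    by_cases hj : j = i₀
    · subst hj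
      rw [← hF0]
      exact h4 0 rfl
    · have hFj : coeff (Finsupp.single j 1) F = c j := by
        rw [hF, coeff_add, coeff_sum, coeff_C, if_neg (by
          intro h
          have := DFunLike.congr_fun h j
          simp at this), zero_add, Finset.sum_eq_single j]
        · rw [coeff_C_mul, coeff_X, if_pos rfl, mul_one]
        · intro k _ hk
          rw [coeff_C_mul, coeff_X, if_neg, mul_zero]
          intro h
          have := DFunLike.congr_fun h j
          simp [hk] at this
        · intro h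
          exact absurd (Finset.mem_erase.mpr ⟨hj, Finset.mem_univ _⟩) h
      rw [← hFj]
      exact h4 _ (by simp [hj])
  have h3 := primeDiv_v_eq_zero K _ (prime_blψ K i₀) h2
  have h4 : algebraMap (BlS K i₀) K (blψ K i₀ F) ≠ 0 := by
    apply algebraMap_S_K_ne_zero K _ (prime_blψ K i₀)
    intro h; rw [h] at h2; exact h2 (dvd_zero _)
  rw [h1, PrimeDivisorOver.v_mul _ (algebraMap_X_ne_zero K i₀) h4, ordDiv_v_X]
  have h5 : (ordDiv K i₀).v (algebraMap (BlS K i₀) K (blψ K i₀ F)) = 0 := h3
  rw [h5]; rfl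

theorem mem_idealOfVars_iff (G : Pol n) :
    G ∈ Ideal.span (Set.range (X : Fin n → Pol n)) ↔ constantCoeff G = 0 := by
  have h := mem_pow_idealOfVars_iff' (σ := Fin n) (R := ℂ) 1 G
  rw [pow_one] at h
  rw [h, constantCoeff_eq]
  constructor
  · intro h1
    exact h1 0 (by simp)
  · intro h1 x hx
    have : x = 0 := by
      rw [← Finsupp.degree_eq_zero_iff]; omega
    rw [this, h1]

theorem ordDiv_ge_of_mem (G : Pol n) (hG : constantCoeff G = 0) :
    (ordDiv K i₀).ge 1 (algebraMap (Pol n) K G) := by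
  rw [← mem_idealOfVars_iff] at hG
  have hmem : ∀ G : Pol n, algebraMap (Pol n) K G ∈ (ordDiv K i₀).ring := by
    intro G
    obtain ⟨G', hG'⟩ := algebraMap_mem_BlS K i₀ G
    rw [← hG']
    exact algebraMap_mem_primeDiv K _ _ _
  induction hG using Submodule.span_induction with
  | mem x hx =>
    obtain ⟨j, rfl⟩ := hx
    have h1 := ordDiv_mem K i₀ j
    rw [PrimeDivisorOver.mem_iff_ge] at h1
    have h2 : (ordDiv K i₀).ge 1 (algebraMap (Pol n) K (X i₀)) := by
      rw [PrimeDivisorOver.ge_iff _ (algebraMap_X_ne_zero K i₀), ordDiv_v_X]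
    have h3 := (ordDiv K i₀).ge_mul h2 h1
    have h4 := algebraMap_X_ne_zero K i₀
    rw [mul_div_cancel₀ _ h4] at h3
    simpa using h3
  | zero => rw [map_zero]; exact PrimeDivisorOver.ge_zero _ _
  | add x y _ _ hx hy => rw [map_add]; exact PrimeDivisorOver.ge_add _ hx hy
  | smul c x _ hx =>
    rw [smul_eq_mul, map_mul]
    have := (ordDiv K i₀).ge_mul ((PrimeDivisorOver.mem_iff_ge _).mp (hmem c)) hx
    simpa using this

theorem constantCoeff_eq_zero_of_ge (F : Pol n)
    (hF : (ordDiv K i₀).ge 1 (algebraMap (Pol n) K F)) : constantCoeff F = 0 := by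
  by_contra hne
  have h1 := (ordDiv K i₀).ge_add hF ((ordDiv K i₀).ge_neg
    (ordDiv_ge_of_mem K i₀ (F - C (constantCoeff F)) (by simp)))
  rw [← map_neg, ← map_add] at h1
  have h2 : F + -(F - C (constantCoeff F)) = C (constantCoeff F) := by ring
  rw [h2, ← MvPolynomial.algebraMap_eq, ← IsScalarTower.algebraMap_apply] at h1
  have h3 : algebraMap ℂ K (constantCoeff F) ≠ 0 := by simpa using hne
  rw [PrimeDivisorOver.ge_iff _ h3, PrimeDivisorOver.v_const _ _ hne] at h1
  omega

variable (L : Type) [Field L] [Algebra ℂ L] [Algebra K L] [IsScalarTower ℂ K L]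
  [FiniteDimensional K L]

theorem ιMulti_zc (hi : ∀ j, i₀ ≤ j) :
    wedge L n
      (fun j => KaehlerDifferential.D ℂ L (algebraMap K L (algebraMap (Pol n) K (X j)))) =
    (algebraMap K L (algebraMap (Pol n) K (X i₀))) ^ (n - 1) •
    wedge L n (fun j => KaehlerDifferential.D ℂ L (algebraMap K L (zc K i₀ j))) := by
  classical
  set x₀ := algebraMap K L (algebraMap (Pol n) K (X i₀)) with hx₀
  let M : Matrix (Fin n) (Fin n) L := Matrix.of fun i j =>
    if i = j then (if i = i₀ then 1 else x₀) else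
      (if j = i₀ then algebraMap K L (zc K i₀ i) else 0)
  have h1 : ∀ i, KaehlerDifferential.D ℂ L (algebraMap K L (algebraMap (Pol n) K (X i))) =
      ∑ j, M i j • KaehlerDifferential.D ℂ L (algebraMap K L (zc K i₀ j)) := by
    intro i
    by_cases h : i = i₀
    · subst h
      rw [Finset.sum_eq_single i]
      · simp [M, zc_self]
      · intro j _ hj
        simp [M, hj, Ne.symm hj]
      · intro h; exact absurd (Finset.mem_univ _) h
    · rw [← zc_mul K i₀ h, map_mul, Derivation.leibniz, zc_self, ← hx₀,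
        Finset.sum_eq_add (a := i) (b := i₀) h]
      · simp [M, h, zc_self, ← hx₀]
      · intro j _ hj
        simp [M, hj.1.symm, hj.2]
      · intro h; exact absurd (Finset.mem_univ _) h
      · intro h; exact absurd (Finset.mem_univ _) h
  have h2 : M.det = x₀ ^ (n - 1) := by
    rw [Matrix.det_of_isLowerTriangular M]
    · rw [← Finset.mul_prod_erase _ _ (Finset.mem_univ i₀)]
      have : ∀ i ∈ Finset.univ.erase i₀, M i i = x₀ := fun i hi => by
        simp [M, Finset.ne_of_mem_erase hi]
      rw [Finset.prod_congr rfl this]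
      simp [M]
    · intro i j hij
      have hij' : i < j := hij
      have h3 : j ≠ i₀ := by
        rintro rfl
        exact absurd (hi i) (not_le.mpr hij')
      simp [M, hij'.ne, h3]
  simp_rw [h1]
  rw [alt_matrix, h2]

theorem regularForms_ordDiv (hi : ∀ j, i₀ ≤ j) (E : PrimeDivisorOver L)
    (hE : E ∈ extensions L (ordDiv K i₀)) :
    regularForms n E.ring = Submodule.span E.ring
      {(E.pi ^ (1 - E.v (algebraMap K L (algebraMap (Pol n) K (X i₀)))) *
        ((algebraMap K L (algebraMap (Pol n) K (X i₀))) ^ (n - 1))⁻¹) •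
        wedge L n
          (fun j => KaehlerDifferential.D ℂ L (algebraMap K L (algebraMap (Pol n) K (X j))))} := by
  have h1 := regularForms_primeDiv (n := n) K (blψ K i₀ (X i₀)) (prime_blψ K i₀) L (blψ K i₀) E hE
  have h2 : ∀ F : Pol n, algebraMap (BlS K i₀) L (blψ K i₀ F) =
      algebraMap K L (aeval (zc K i₀) F) := fun F => rfl
  have h0 : algebraMap K L (algebraMap (Pol n) K (X i₀)) ≠ 0 := by
    simpa using algebraMap_X_ne_zero K i₀
  rw [h1, h2, aeval_X, zc_self, ιMulti_zc K i₀ L hi, smul_smul, mul_assoc,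
    inv_mul_cancel₀ (pow_ne_zero _ h0), mul_one]
  simp_rw [h2, aeval_X]

end

end Vale.Agent.P282
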