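import Vale.Agent.Lib.P282.Trace
import Vale.Agent.Lib.P282.Loc

/-!
The prime divisors of `L` lying over a discrete valuation ring `O` of a subfield `K`, and traces.
-/

set_option autoImplicit false

namespace Vale.Agent.P282

open IsLocalRing

set_option linter.unusedSectionVars false

section

variable (O K L B : Type) [CommRing O] [IsDomain O] [IsDiscreteValuationRing O] [Field K] [Field L]
  [Algebra O K] [IsFractionRing O K] [Algebra K L] [FiniteDimensional K L] [CharZero K]
  [Algebra O L] [IsScalarTower O K L] [CommRing B] [IsDomain B] [Algebra O B] [Algebra B L]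
  [IsScalarTower O B L] [IsIntegralClosure B O L]

include O K L in
theorem isDedekindDomain_of_over : IsDedekindDomain B := by
  have hsep : Algebra.IsSeparable K L := inferInstance
  exact IsIntegralClosure.isDedekindDomain O K L _

include O K L in
theorem finite_of_over : Module.Finite O B := by
  have hsep : Algebra.IsSeparable K L := inferInstance
  exact IsIntegralClosure.finite O K L _

include O K L in
theorem isFractionRing_of_over : IsFractionRing B L := by
  exact IsIntegralClosure.isFractionRing_of_finite_extension O K L _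

include O K L in
theorem ne_bot_of_over (P : Ideal B) [hP : P.IsMaximal] : P ≠ ⊥ := by
  have : FaithfulSMul O L := by
    rw [faithfulSMul_iff_algebraMap_injective, IsScalarTower.algebraMap_eq O K L]
    exact (algebraMap K L).injective.comp (IsFractionRing.injective O K)
  have hinj : Function.Injective (algebraMap O B) := by
    have h1 := FaithfulSMul.algebraMap_injective O L
    rw [IsScalarTower.algebraMap_eq O B L, RingHom.coe_comp] at h1
    exact h1.of_comp
  have : Algebra.IsIntegral O B := IsIntegralClosure.isIntegral_algebra O L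
  rintro rfl
  have : ((⊥ : Ideal B).comap (algebraMap O B)).IsMaximal :=
    Ideal.isMaximal_comap_of_isIntegral_of_isMaximal _
  rw [← RingHom.ker_eq_comap_bot, (RingHom.injective_iff_ker_eq_bot _).mp hinj] at this
  exact IsDiscreteValuationRing.not_a_field O (IsLocalRing.eq_maximalIdeal this).symm

variable [Algebra ℂ L] [Algebra ℂ B] [IsScalarTower ℂ B L] [IsFractionRing B L]

include O K in
theorem isDVR_of_over (P : Ideal B) [hP : P.IsMaximal] :
    IsDiscreteValuationRing (locRing L P) := by
  have := isDedekindDomain_of_over O K L B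
  exact IsLocalization.AtPrime.isDiscreteValuationRing_of_dedekind_domain B
    (ne_bot_of_over O K L B P) _

variable [Algebra.EssFiniteType ℂ B]

/-- the prime divisor of `L` over `O` given by the maximal ideal `P` of the integral closure. -/
noncomputable def overDivisor (P : Ideal B) [hP : P.IsMaximal] : PrimeDivisorOver L :=
  divisorOfPrime L P (isDVR_of_over O K L B P)

theorem overDivisor_ring (P : Ideal B) [hP : P.IsMaximal] :
    (overDivisor O K L B P).ring = locRing L P := rfl

theorem mem_iff_ge_overDivisor (P : Ideal B) [hP : P.IsMaximal] (b : B) :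
    b ∈ P ↔ (overDivisor O K L B P).ge 1 (algebraMap B L b) :=
  mem_iff_ge_divisorOfPrime P _ b

theorem algebraMap_mem_overDivisor (P : Ideal B) [hP : P.IsMaximal] (b : B) :
    algebraMap B L b ∈ (overDivisor O K L B P).ring :=
  algebraMap_mem_locRing P b

theorem algebraMap_mem_overDivisor' (P : Ideal B) [hP : P.IsMaximal] (b : O) :
    algebraMap O L b ∈ (overDivisor O K L B P).ring := by
  rw [IsScalarTower.algebraMap_apply O B L]
  exact algebraMap_mem_locRing P _

theorem ge_one_of_mem_maximalIdeal (P : Ideal B) [hP : P.IsMaximal] (t : O)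
    (ht : t ∈ maximalIdeal O) : (overDivisor O K L B P).ge 1 (algebraMap O L t) := by
  rw [IsScalarTower.algebraMap_apply O B L, ← mem_iff_ge_overDivisor]
  have : Algebra.IsIntegral O B := IsIntegralClosure.isIntegral_algebra O L
  have : (P.comap (algebraMap O B)).IsMaximal :=
    Ideal.isMaximal_comap_of_isIntegral_of_isMaximal P
  have h := IsLocalRing.eq_maximalIdeal this
  rw [← h] at ht
  exact ht

theorem mem_of_forall_mem (x : L)
    (hx : ∀ (P : Ideal B) [P.IsMaximal], x ∈ (overDivisor O K L B P).ring) :
    ∃ b : B, x = algebraMap B L b := by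
  have h := MaximalSpectrum.iInf_localization_eq_bot B L
  have : x ∈ (⨅ v : MaximalSpectrum B,
    Localization.subalgebra.ofField L _ v.asIdeal.primeCompl_le_nonZeroDivisors) := by
    rw [Algebra.mem_iInf]
    intro v
    have := v.isMaximal
    exact hx v.asIdeal
  rw [h, Algebra.mem_bot] at this
  obtain ⟨b, hb⟩ := this
  exact ⟨b, hb.symm⟩

theorem trace_mem_maximalIdeal (x : L)
    (hx : ∀ (P : Ideal B) [P.IsMaximal], (overDivisor O K L B P).ge 1 x) :
    ∃ t ∈ maximalIdeal O, Algebra.trace K L x = algebraMap O K t := by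
  obtain ⟨b, rfl⟩ := mem_of_forall_mem O K L B x fun P _ => by
    rw [PrimeDivisorOver.mem_iff_ge]
    exact PrimeDivisorOver.ge_mono _ zero_le_one (hx P)
  refine trace_mem_of_forall_mem O K L B b fun P hP => ?_
  rw [mem_iff_ge_overDivisor O K L B]
  exact hx P

theorem trace_mem (ϖ : O) (hϖ : Irreducible ϖ) (u : L)
    (hu : ∀ (P : Ideal B) [P.IsMaximal], (overDivisor O K L B P).ge 1 (algebraMap O L ϖ * u)) :
    ∃ t : O, Algebra.trace K L u = algebraMap O K t := by
  obtain ⟨t, ht, h⟩ := trace_mem_maximalIdeal O K L B _ hu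
  have h1 : algebraMap O L ϖ * u = (algebraMap O K ϖ) • u := by
    rw [Algebra.smul_def, ← IsScalarTower.algebraMap_apply]
  rw [h1, map_smul] at h
  rw [(IsDiscreteValuationRing.irreducible_iff_uniformizer _).1 hϖ, Ideal.mem_span_singleton] at ht
  obtain ⟨r, rfl⟩ := ht
  refine ⟨r, ?_⟩
  rw [map_mul, smul_eq_mul] at h
  refine mul_left_cancel₀ ?_ h
  intro h0
  exact hϖ.ne_zero (IsFractionRing.injective O K (by rw [h0, map_zero]))

theorem ge_of_trace_mem [Algebra ℚ O] (ϖ : O) (hϖ : Irreducible ϖ) (u : L)
    (hu : ∀ b : B, ∃ t : O, Algebra.trace K L (u * algebraMap B L b) = algebraMap O K t)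
    (P : Ideal B) [hP : P.IsMaximal] :
    (overDivisor O K L B P).ge 1 (algebraMap O L ϖ * u) := by
  set E := overDivisor O K L B P with hE
  by_cases hu0 : u = 0
  · subst hu0; rw [mul_zero]; exact E.ge_zero 1
  have hϖ0 : algebraMap O L ϖ ≠ 0 := by
    rw [IsScalarTower.algebraMap_apply O K L]
    simp only [ne_eq, map_eq_zero]
    intro h0
    exact hϖ.ne_zero (IsFractionRing.injective O K (by rw [h0, map_zero]))
  have h0 : algebraMap O L ϖ * u ≠ 0 := mul_ne_zero hϖ0 hu0
  by_contra hcon
  rw [E.ge_iff h0] at hcon
  push Not at hcon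
  have h1 : (algebraMap O L ϖ * u)⁻¹ ∈ E.ring := by
    rw [E.mem_iff_ge, E.ge_iff (inv_ne_zero h0), E.v_inv h0]
    omega
  rw [hE, overDivisor_ring, mem_locRing] at h1
  obtain ⟨b, s, hs, hbs⟩ := h1
  have hs0 : algebraMap B L s ≠ 0 := by
    intro h
    apply hs
    rw [IsFractionRing.injective B L (h.trans (map_zero _).symm)]
    exact P.zero_mem
  refine codifferent_bound O K L B ϖ hϖ P u hu s b hs ?_
  have : algebraMap O L ϖ * u * (algebraMap O L ϖ * u)⁻¹ = 1 := mul_inv_cancel₀ h0
  rw [hbs] at this
  field_simp at this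
  linear_combination -this

end

end Vale.Agent.P282
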