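import Vale.Agent.Lib.P282.Ext
import Vale.Agent.Lib.P282.Ord

/-!
The prime divisor of `K` attached to a prime element of a polynomial ring.
-/

set_option autoImplicit false
set_option linter.unusedSectionVars false

namespace Vale.Agent.P282

open IsLocalRing MvPolynomial

section

variable {n : ℕ} (K : Type) [Field K] [Algebra ℂ K]
  {S : Type} [CommRing S] [IsDomain S] [Algebra ℂ S]
  [Algebra S K] [IsScalarTower ℂ S K] [IsFractionRing S K]
  [IsNoetherianRing S] [Algebra.EssFiniteType ℂ S] (h : S) (hh : Prime h)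

/-- the prime divisor over `K` attached to a prime element -/
noncomputable def primeDiv : PrimeDivisorOver K :=
  haveI : (Ideal.span {h}).IsPrime := (Ideal.span_singleton_prime hh.ne_zero).mpr hh
  divisorOfPrime K (Ideal.span {h}) (isDVR_locRing_span h hh).1

theorem mem_primeDiv {y : K} : y ∈ (primeDiv K h hh).ring ↔
    ∃ a s : S, ¬ h ∣ s ∧ y = algebraMap S K a * (algebraMap S K s)⁻¹ := by
  have hP : (Ideal.span {h}).IsPrime := (Ideal.span_singleton_prime hh.ne_zero).mpr hh
  have : y ∈ (primeDiv K h hh).ring ↔ y ∈ locRing K (Ideal.span {h}) := Iff.rfl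
  rw [this, mem_locRing]
  simp only [Ideal.mem_span_singleton]

theorem algebraMap_mem_primeDiv (s : S) : algebraMap S K s ∈ (primeDiv K h hh).ring := by
  rw [mem_primeDiv]
  exact ⟨s, 1, hh.not_dvd_one, by simp⟩

include h hh in
theorem algebraMap_S_K_ne_zero {s : S} (hs : s ≠ 0) : algebraMap S K s ≠ 0 := fun h0 =>
  hs (IsFractionRing.injective S K (h0.trans (map_zero _).symm))

theorem primeDiv_v_eq_zero {s : S} (hs : ¬ h ∣ s) : (primeDiv K h hh).v (algebraMap S K s) = 0 := by
  set D := primeDiv K h hh with hD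
  have hs0 : s ≠ 0 := by rintro rfl; exact hs (dvd_zero _)
  have h0 : algebraMap S K s ≠ 0 := algebraMap_S_K_ne_zero K h hh hs0
  have h1 := algebraMap_mem_primeDiv K h hh s
  have h2 : (algebraMap S K s)⁻¹ ∈ D.ring := by
    rw [mem_primeDiv]
    exact ⟨1, s, hs, by simp⟩
  rw [← hD, D.mem_iff_ge, D.ge_iff h0] at h1
  rw [D.mem_iff_ge, D.ge_iff (inv_ne_zero h0), D.v_inv h0] at h2
  omega

theorem primeDiv_v_self : (primeDiv K h hh).v (algebraMap S K h) = 1 := by
  have hP : (Ideal.span {h}).IsPrime := (Ideal.span_singleton_prime hh.ne_zero).mpr hh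
  have h1 := (isDVR_locRing_span (K := K) h hh).2
  exact (v_irreducible (primeDiv K h hh) _ h1).2

/-- if the valuation is positive then `h` divides. -/
theorem dvd_of_ge_one {s : S} (hs : (primeDiv K h hh).ge 1 (algebraMap S K s)) : h ∣ s := by
  by_contra hcon
  have hs0 : s ≠ 0 := by rintro rfl; exact hcon (dvd_zero _)
  have h0 : algebraMap S K s ≠ 0 := algebraMap_S_K_ne_zero K h hh hs0
  rw [PrimeDivisorOver.ge_iff _ h0, primeDiv_v_eq_zero K h hh hcon] at hs
  omega

variable (L : Type) [Field L] [Algebra ℂ L] [Algebra K L]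
  [IsScalarTower ℂ K L] [FiniteDimensional K L] [Algebra S L] [IsScalarTower S K L]
  [IsScalarTower ℂ S L]

theorem regularForms_primeDiv (ψ : MvPolynomial (Fin n) ℂ ≃ₐ[ℂ] S) (E : PrimeDivisorOver L)
    (hE : E ∈ extensions L (primeDiv K h hh)) :
    regularForms n E.ring = Submodule.span E.ring
      {E.pi ^ (1 - E.v (algebraMap S L h)) •
        wedge L n
          (fun j => KaehlerDifferential.D ℂ L (algebraMap S L (ψ (X j))))} := by
  have hP : (Ideal.span {h}).IsPrime := (Ideal.span_singleton_prime hh.ne_zero).mpr hh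
  have hdvr : IsDiscreteValuationRing (locRing K (Ideal.span {h})) :=
    (isDVR_locRing_span (K := K) h hh).1
  obtain ⟨P, hPm, rfl⟩ := hE
  let _ : Algebra (locRing K (Ideal.span {h})) (Clo L (primeDiv K h hh)) :=
    (inferInstance : Algebra (primeDiv K h hh).ring (Clo L (primeDiv K h hh)))
  have _ : IsScalarTower (locRing K (Ideal.span {h})) (Clo L (primeDiv K h hh)) L :=
    (inferInstance : IsScalarTower (primeDiv K h hh).ring (Clo L (primeDiv K h hh)) L)
  have _ : IsIntegralClosure (Clo L (primeDiv K h hh)) (locRing K (Ideal.span {h})) L :=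
    (inferInstance : IsIntegralClosure (Clo L (primeDiv K h hh)) (primeDiv K h hh).ring L)
  exact regularForms_dOver K L h (Clo L (primeDiv K h hh)) ψ hh P

end

end Vale.Agent.P282
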