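import Vale.Agent.Lib.P282.Main3
import Vale.Agent.Lib.P282.GenProj
import Vale.Agent.Lib.P282.Kahler

/-!
Reduction to good coordinates.
-/

set_option autoImplicit false
set_option linter.unusedSectionVars false

open scoped ENNReal

namespace Vale.Agent.P282

open IsLocalRing MvPolynomial

section

variable {A : Type} [CommRing A] [Algebra ℂ A]

/-- the residue field at a closed point is `ℂ` -/
theorem exists_residue [Algebra.FiniteType ℂ A] (x : Ideal A) [hx : x.IsMaximal] (a : A) :
    ∃ r : ℂ, a - algebraMap ℂ A r ∈ x := by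
  let _ := Ideal.Quotient.field x
  have h1 : Algebra.FiniteType ℂ (A ⧸ x) :=
    Algebra.FiniteType.of_surjective (Ideal.Quotient.mkₐ ℂ x) (Ideal.Quotient.mkₐ_surjective ℂ x)
  have h2 : Module.Finite ℂ (A ⧸ x) := finite_of_finite_type_of_isJacobsonRing ℂ (A ⧸ x)
  obtain ⟨r, hr⟩ := (IsAlgClosed.algebraMap_bijective_of_isIntegral (k := ℂ) (K := A ⧸ x)).2
    (Ideal.Quotient.mk x a)
  refine ⟨r, ?_⟩
  rw [← Ideal.Quotient.eq_zero_iff_mem, map_sub, ← hr, sub_eq_zero]
  rfl

/-- generators of `A` inside `x` -/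
theorem exists_generators [Algebra.FiniteType ℂ A] (x : Ideal A) [hx : x.IsMaximal] :
    ∃ (N : ℕ) (t : Fin N → A), (∀ j, t j ∈ x) ∧ Algebra.adjoin ℂ (Set.range t) = ⊤ ∧
      x ≤ Ideal.span (Set.range t) := by
  obtain ⟨N, f, hf⟩ := Algebra.FiniteType.iff_quotient_mvPolynomial''.mp
    (inferInstance : Algebra.FiniteType ℂ A)
  choose r hr using fun j : Fin N => exists_residue x (f (X j))
  set t : Fin N → A := fun j => f (X j) - algebraMap ℂ A (r j) with ht
  have h1 : Algebra.adjoin ℂ (Set.range t) = ⊤ := by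
    rw [eq_top_iff]
    intro a _
    obtain ⟨F, rfl⟩ := hf a
    induction F using MvPolynomial.induction_on with
    | C c =>
      rw [← MvPolynomial.algebraMap_eq, AlgHom.commutes]
      exact Subalgebra.algebraMap_mem _ c
    | add p q hp hq => rw [map_add]; exact Subalgebra.add_mem _ (hp trivial) (hq trivial)
    | mul_X p j hp =>
      rw [map_mul]
      refine Subalgebra.mul_mem _ (hp trivial) ?_
      have : f (X j) = t j + algebraMap ℂ A (r j) := by simp [ht]
      rw [this]
      exact Subalgebra.add_mem _ (Algebra.subset_adjoin ⟨j, rfl⟩) (Subalgebra.algebraMap_mem _ _)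
  refine ⟨N, t, hr, h1, ?_⟩
  intro a ha
  have h2 : ∀ b : A, ∃ s : ℂ, b - algebraMap ℂ A s ∈ Ideal.span (Set.range t) := by
    intro b
    have hb : b ∈ Algebra.adjoin ℂ (Set.range t) := by rw [h1]; trivial
    induction hb using Algebra.adjoin_induction with
    | mem y hy => exact ⟨0, by rw [map_zero, sub_zero]; exact Ideal.subset_span hy⟩
    | algebraMap s => exact ⟨s, by rw [sub_self]; exact Ideal.zero_mem _⟩
    | add y z _ _ hy hz =>
      obtain ⟨s, hs⟩ := hy
      obtain ⟨s', hs'⟩ := hz
      refine ⟨s + s', ?_⟩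
      have : y + z - algebraMap ℂ A (s + s') = (y - algebraMap ℂ A s) + (z - algebraMap ℂ A s') := by
        rw [map_add]; ring
      rw [this]
      exact Ideal.add_mem _ hs hs'
    | mul y z _ _ hy hz =>
      obtain ⟨s, hs⟩ := hy
      obtain ⟨s', hs'⟩ := hz
      refine ⟨s * s', ?_⟩
      have : y * z - algebraMap ℂ A (s * s') = z * (y - algebraMap ℂ A s) +
          algebraMap ℂ A s * (z - algebraMap ℂ A s') := by
        rw [map_mul]; ring
      rw [this]
      exact Ideal.add_mem _ (Ideal.mul_mem_left _ _ hs) (Ideal.mul_mem_left _ _ hs')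
  obtain ⟨s, hs⟩ := h2 a
  have h3 : Ideal.span (Set.range t) ≤ x := by
    rw [Ideal.span_le]; rintro _ ⟨j, rfl⟩; exact hr j
  have h4 : s = 0 := by
    by_contra hne
    have h5 : algebraMap ℂ A s ∈ x := by
      have := Ideal.sub_mem _ ha (h3 hs)
      rwa [sub_sub_cancel] at this
    exact hx.ne_top (Ideal.eq_top_of_isUnit_mem _ h5 ((isUnit_iff_ne_zero.mpr hne).map _))
  rwa [h4, map_zero, sub_zero] at hs

end

section

variable {L : Type} [Field L] [Algebra ℂ L]

/-- the valuation subring of a prime divisor -/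
noncomputable def vsub (E : PrimeDivisorOver L) : ValuationSubring L :=
  { E.ring.toSubring with
    mem_or_inv_mem' := fun y => by
      by_cases hy : y = 0
      · left; rw [hy]; exact E.ring.zero_mem
      · rcases le_total 0 (E.v y) with h | h
        · left
          exact (E.mem_iff_ge).mpr ((E.ge_iff hy).mpr h)
        · right
          refine (E.mem_iff_ge).mpr ((E.ge_iff (inv_ne_zero hy)).mpr ?_)
          rw [E.v_inv hy]; omega }

theorem mem_vsub (E : PrimeDivisorOver L) (y : L) : y ∈ vsub E ↔ E.ge 0 y := by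
  rw [← E.mem_iff_ge]; rfl

theorem vsub_le_iff (E : PrimeDivisorOver L) {y g : L} (hg : g ≠ 0) :
    (vsub E).valuation y ≤ (vsub E).valuation g ↔ E.ge (E.v g) y := by
  have h1 : (vsub E).valuation y ≤ (vsub E).valuation g ↔ y / g ∈ vsub E := by
    rw [← ValuationSubring.valuation_le_one_iff, map_div₀, div_le_one₀]
    exact zero_lt_iff.mpr ((Valuation.ne_zero_iff _).mpr hg)
  rw [h1, mem_vsub]
  by_cases hy : y = 0
  · subst hy
    simp [PrimeDivisorOver.ge]
  · rw [E.ge_iff (div_ne_zero hy hg), E.v_div hy hg, E.ge_iff hy]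
    omega

theorem vsub_lt_one (E : PrimeDivisorOver L) {y : L} (hy : E.ge 1 y) :
    (vsub E).valuation y < 1 := by
  by_contra hcon
  push Not at hcon
  rcases hy with rfl | hy
  · rw [map_zero] at hcon
    exact absurd hcon (not_le.mpr zero_lt_one)
  · have hy0 : y ≠ 0 := by
      rintro rfl
      rw [map_zero] at hcon
      exact absurd hcon (not_le.mpr zero_lt_one)
    rw [← map_one (vsub E).valuation, vsub_le_iff E hy0, E.ge_iff one_ne_zero, E.v_one] at hcon
    omega

end

end Vale.Agent.P282
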