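import Mathlib

/-!
Traces and discrete valuation rings in characteristic zero.
-/

set_option autoImplicit false

namespace Vale.Agent.P282

open IsLocalRing

section

variable (O K L B : Type) [CommRing O] [IsDomain O] [IsDiscreteValuationRing O] [Field K] [Field L]
  [Algebra O K] [IsFractionRing O K] [Algebra K L] [FiniteDimensional K L] [CharZero K]
  [Algebra O L] [IsScalarTower O K L] [CommRing B] [IsDomain B] [Algebra O B] [Algebra B L]
  [IsScalarTower O B L] [IsIntegralClosure B O L]

/-- Trace of an element of the Jacobson radical of the integral closure. -/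
theorem trace_mem_of_forall_mem (x : B)
    (hx : ∀ P : Ideal B, P.IsMaximal → x ∈ P) :
    ∃ t ∈ maximalIdeal O, Algebra.trace K L (algebraMap B L x) = algebraMap O K t := by
  have hsep : Algebra.IsSeparable K L := inferInstance
  have : IsIntegrallyClosed O := inferInstance
  have : Module.Finite O B := IsIntegralClosure.finite O K L _
  have : IsDedekindDomain B := IsIntegralClosure.isDedekindDomain O K L _
  have : IsFractionRing B L := IsIntegralClosure.isFractionRing_of_finite_extension O K L _
  have : FaithfulSMul O L := by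
    rw [faithfulSMul_iff_algebraMap_injective, IsScalarTower.algebraMap_eq O K L]
    exact (algebraMap K L).injective.comp (IsFractionRing.injective O K)
  have hinj : Function.Injective (algebraMap O B) := by
    have h1 := FaithfulSMul.algebraMap_injective O L
    rw [IsScalarTower.algebraMap_eq O B L, RingHom.coe_comp] at h1
    exact h1.of_comp
  have : FaithfulSMul O B := (faithfulSMul_iff_algebraMap_injective O B).mpr hinj
  have : Module.IsTorsionFree O B := inferInstance
  refine ⟨Algebra.intTrace O B x, ?_, ?_⟩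
  · rw [← Ideal.Quotient.eq_zero_iff_mem, ← Algebra.trace_quotient_eq_of_isDedekindDomain]
    let _ := Ideal.Quotient.field (maximalIdeal O)
    rw [← isNilpotent_iff_eq_zero]
    apply Algebra.isNilpotent_trace_of_isNilpotent
    have : x ∈ (Ideal.map (algebraMap O B) (maximalIdeal O)).radical := by
      rw [Ideal.radical_eq_sInf, Ideal.mem_sInf]
      rintro P ⟨hP1, hP2⟩
      apply hx
      have hP0 : P ≠ ⊥ := by
        rintro rfl
        have h3 : maximalIdeal O = ⊥ := by
          rw [le_bot_iff, Ideal.map_eq_bot_iff_of_injective hinj] at hP1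
          exact hP1
        exact IsDiscreteValuationRing.not_a_field O h3
      exact hP2.isMaximal hP0
    obtain ⟨m, hm⟩ := this
    refine ⟨m, ?_⟩
    rw [← map_pow, Ideal.Quotient.eq_zero_iff_mem]
    exact hm
  · exact (Algebra.algebraMap_intTrace (K := K) (L := L) x).symm

/-- Tameness in characteristic zero: an element of the codifferent has valuation at least
`1 - e` at every prime. -/
theorem codifferent_bound [Algebra ℚ O] (ϖ : O) (hϖ : Irreducible ϖ) (P : Ideal B)
    [hP : P.IsMaximal] (u : L)
    (hu : ∀ b : B, ∃ t : O, Algebra.trace K L (u * algebraMap B L b) = algebraMap O K t)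
    (s b : B) (hs : s ∉ P)
    (hsb : algebraMap B L s = algebraMap O L ϖ * u * algebraMap B L b) : False := by
  have hsep : Algebra.IsSeparable K L := inferInstance
  have : IsIntegrallyClosed O := inferInstance
  have : Module.Finite O B := IsIntegralClosure.finite O K L _
  have : IsDedekindDomain B := IsIntegralClosure.isDedekindDomain O K L _
  have : IsFractionRing B L := IsIntegralClosure.isFractionRing_of_finite_extension O K L _
  have : FaithfulSMul O L := by
    rw [faithfulSMul_iff_algebraMap_injective, IsScalarTower.algebraMap_eq O K L]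
    exact (algebraMap K L).injective.comp (IsFractionRing.injective O K)
  have hinj : Function.Injective (algebraMap O B) := by
    have h1 := FaithfulSMul.algebraMap_injective O L
    rw [IsScalarTower.algebraMap_eq O B L, RingHom.coe_comp] at h1
    exact h1.of_comp
  have : FaithfulSMul O B := (faithfulSMul_iff_algebraMap_injective O B).mpr hinj
  have : Module.IsTorsionFree O B := inferInstance
  set p := maximalIdeal O with hp
  have hp0 : p ≠ ⊥ := IsDiscreteValuationRing.not_a_field O
  have hp' : Ideal.map (algebraMap O B) p ≠ ⊥ :=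
    (Ideal.map_eq_bot_iff_of_injective hinj).not.mpr hp0
  obtain ⟨Q, h₁, h₂⟩ := Ideal.eq_prime_pow_mul_coprime hp' P
  set e := Multiset.count P
    (UniqueFactorizationMonoid.normalizedFactors (Ideal.map (algebraMap O B) p)) with he
  have hmapP : Ideal.map (algebraMap O B) p ≤ P := by
    rw [Ideal.map_le_iff_le_comap]
    have : (P.comap (algebraMap O B)).IsMaximal :=
      Ideal.isMaximal_comap_of_isIntegral_of_isMaximal P
    exact (IsLocalRing.eq_maximalIdeal this).symm.le
  have he0 : e ≠ 0 := by
    intro h0
    rw [h0, pow_zero, one_mul] at h₂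
    rw [← h₂, sup_eq_left.mpr hmapP] at h₁
    exact hP.ne_top h₁
  have hPQ : IsCoprime P Q := Ideal.isCoprime_iff_sup_eq.mpr h₁
  have hPs : IsCoprime P (Ideal.span {s}) := by
    rw [Ideal.isCoprime_iff_sup_eq]
    apply hP.1.2
    refine lt_of_le_of_ne le_sup_left ?_
    intro h
    apply hs
    rw [h]
    exact Ideal.mem_sup_right (Ideal.mem_span_singleton_self s)
  have hcop : IsCoprime (P ^ e) (Ideal.span {s} * Q) := (hPs.mul_right hPQ).pow_left
  obtain ⟨a, ha, w, hw, haw⟩ := Ideal.isCoprime_iff_exists.mp hcop
  obtain ⟨q, hq, hsq⟩ := Ideal.mem_span_singleton_mul.mp hw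
  -- the trace of `w` is in the maximal ideal
  have hϖp : ϖ ∈ p := by
    rw [hp, (IsDiscreteValuationRing.irreducible_iff_uniformizer _).1 hϖ]
    exact Ideal.mem_span_singleton_self ϖ
  have htr1 : Algebra.intTrace O B w ∈ p := by
    obtain ⟨t, ht⟩ := hu (b * q)
    have h1 : algebraMap O K (Algebra.intTrace O B w) = algebraMap O K (ϖ * t) := by
      rw [Algebra.algebraMap_intTrace (K := K) (L := L)]
      have h2 : algebraMap B L w = (algebraMap O K ϖ) • (u * (algebraMap B L (b * q))) := by
        rw [← hsq, map_mul, map_mul, hsb, Algebra.smul_def, ← IsScalarTower.algebraMap_apply]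
        ring
      rw [h2, map_smul, ht, smul_eq_mul, map_mul]
    rw [IsFractionRing.injective O K h1]
    exact Ideal.mul_mem_right _ _ hϖp
  have hQle : p ≤ Ideal.comap (algebraMap O B) Q := by
    rw [← Ideal.map_le_iff_le_comap, h₂]
    exact Ideal.mul_le_right
  have hPle : p ≤ Ideal.comap (algebraMap O B) (P ^ e) := by
    rw [← Ideal.map_le_iff_le_comap, h₂]
    exact Ideal.mul_le_left
  let _ : Field (O ⧸ p) := Ideal.Quotient.field p
  let : Algebra (O ⧸ p) (B ⧸ Q) := Ideal.Quotient.algebraQuotientOfLEComap hQle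
  have : IsScalarTower O (O ⧸ p) (B ⧸ Q) := .of_algebraMap_eq' rfl
  have : Module.Finite (O ⧸ p) (B ⧸ Q) :=
    Module.Finite.of_restrictScalars_finite O (O ⧸ p) _
  let : Algebra (O ⧸ p) (B ⧸ (P ^ e)) := Ideal.Quotient.algebraQuotientOfLEComap hPle
  have : IsScalarTower O (O ⧸ p) (B ⧸ (P ^ e)) := .of_algebraMap_eq' rfl
  have : Module.Finite (O ⧸ p) (B ⧸ (P ^ e)) :=
    Module.Finite.of_restrictScalars_finite O (O ⧸ p) _
  let ε : (B ⧸ p.map (algebraMap O B)) ≃ₐ[O ⧸ p]
      ((B ⧸ (P ^ e)) × B ⧸ Q) :=
    { __ := (Ideal.quotEquivOfEq h₂).trans (Ideal.quotientMulEquivQuotientProd (P ^ e) Q hPQ.pow_left),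
      commutes' := Quotient.ind fun _ ↦ rfl }
  have hεw : ε (Ideal.Quotient.mk _ w) = (1, 0) := by
    have h1 : ε (Ideal.Quotient.mk _ w) = (Ideal.Quotient.mk _ w, Ideal.Quotient.mk _ w) := rfl
    rw [h1]
    refine Prod.ext ?_ ?_
    · show Ideal.Quotient.mk (P ^ e) w = 1
      rw [← map_one (Ideal.Quotient.mk (P ^ e)), Ideal.Quotient.eq]
      have : w - 1 = - a := by rw [← haw]; ring
      rw [this]
      exact neg_mem ha
    · show Ideal.Quotient.mk Q w = 0
      rw [Ideal.Quotient.eq_zero_iff_mem, ← hsq]
      exact Ideal.mul_mem_left _ _ hq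
  have htr2 : Algebra.trace (O ⧸ p) (B ⧸ p.map (algebraMap O B))
      (Ideal.Quotient.mk _ w) = 0 := by
    rw [Algebra.trace_quotient_eq_of_isDedekindDomain, Ideal.Quotient.eq_zero_iff_mem]
    exact htr1
  rw [← Algebra.trace_eq_of_algEquiv ε, hεw, Algebra.trace_prod_apply, map_zero, add_zero] at htr2
  have hnt : Nontrivial (B ⧸ (P ^ e)) := by
    apply Ideal.Quotient.nontrivial_iff.mpr
    intro h
    have := Ideal.pow_le_self (I := P) he0
    rw [h] at this
    exact hP.ne_top (top_le_iff.mp this)
  have h1 := Algebra.trace_algebraMap (S := B ⧸ (P ^ e)) (1 : O ⧸ p)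
  rw [map_one, htr2] at h1
  have hfin : 0 < Module.finrank (O ⧸ p) (B ⧸ (P ^ e)) := Module.finrank_pos
  have hchar : CharZero (O ⧸ p) := by
    have : Algebra ℚ (O ⧸ p) := inferInstance
    exact algebraRat.charZero _
  rw [nsmul_eq_mul, mul_one, eq_comm, Nat.cast_eq_zero] at h1
  omega

end

end Vale.Agent.P282
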