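import Vale.Agent.Lib.P282.Defs

/-!
Basic API for the discrete valuation attached to a prime divisor.
-/

set_option autoImplicit false

namespace Vale.Agent.P282

namespace PrimeDivisorOver

variable {L : Type} [Field L] [Algebra ℂ L] (E : PrimeDivisorOver L)

/-- a chosen uniformizer, as an element of the ring -/
noncomputable def unif : E.ring := Classical.choose (IsDiscreteValuationRing.exists_irreducible E.ring)

theorem unif_irreducible : Irreducible E.unif :=
  Classical.choose_spec (IsDiscreteValuationRing.exists_irreducible E.ring)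

/-- a chosen uniformizer, as an element of `L` -/
noncomputable def pi : L := (E.unif : L)

theorem pi_ne_zero : E.pi ≠ 0 := by
  intro h
  apply E.unif_irreducible.ne_zero
  exact Subtype.ext h

theorem pi_mem : E.pi ∈ E.ring := E.unif.2

theorem coe_unit_ne_zero (u : (E.ring)ˣ) : ((u : E.ring) : L) ≠ 0 := fun h =>
  u.ne_zero (Subtype.ext h)

theorem coe_unit_inv (u : (E.ring)ˣ) : (((u⁻¹ : (E.ring)ˣ) : E.ring) : L) = (((u : E.ring)) : L)⁻¹ := by
  apply eq_inv_of_mul_eq_one_left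
  have : ((u⁻¹ : (E.ring)ˣ) : E.ring) * ((u : E.ring)) = 1 := by simp
  exact_mod_cast congrArg (Subtype.val) this

theorem exists_eq_zpow (x : L) (hx : x ≠ 0) :
    ∃ (k : ℤ) (u : (E.ring)ˣ), x = E.pi ^ k * (u : E.ring) := by
  obtain ⟨a, b, hb, rfl⟩ := IsFractionRing.div_surjective (A := E.ring) x
  have ha0 : a ≠ 0 := by
    rintro rfl
    simp at hx
  have hb0 : b ≠ 0 := nonZeroDivisors.ne_zero hb
  obtain ⟨i, u, hu⟩ := IsDiscreteValuationRing.eq_unit_mul_pow_irreducible ha0 E.unif_irreducible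
  obtain ⟨j, w, hw⟩ := IsDiscreteValuationRing.eq_unit_mul_pow_irreducible hb0 E.unif_irreducible
  refine ⟨i - j, u * w⁻¹, ?_⟩
  have hpi := E.pi_ne_zero
  have e1 : (algebraMap E.ring L a) = (u : E.ring) * E.pi ^ i := by
    rw [hu]; simp [pi]
  have e2 : (algebraMap E.ring L b) = (w : E.ring) * E.pi ^ j := by
    rw [hw]; simp [pi]
  have hw0 := E.coe_unit_ne_zero w
  rw [e1, e2]
  push_cast
  rw [coe_unit_inv, zpow_sub₀ hpi]
  field_simp
  simp [mul_comm]

theorem zpow_mem_iff (k : ℤ) (u : (E.ring)ˣ) : E.pi ^ k * (u : E.ring) ∈ E.ring ↔ 0 ≤ k := by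
  constructor
  · intro h
    by_contra hk
    push Not at hk
    obtain ⟨m, hm⟩ : ∃ m : ℕ, k = -(m : ℤ) := ⟨k.natAbs, by omega⟩
    have hm0 : m ≠ 0 := by omega
    subst hm
    have h2 : E.pi ^ (-(m : ℤ)) ∈ E.ring := by
      have := E.ring.mul_mem h (u⁻¹ : (E.ring)ˣ).val.2
      rw [coe_unit_inv, mul_assoc, mul_inv_cancel₀ (E.coe_unit_ne_zero u), mul_one] at this
      exact this
    have h3 : IsUnit (E.unif ^ m) := by
      refine IsUnit.of_mul_eq_one (⟨_, h2⟩ : E.ring) ?_
      apply Subtype.ext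
      push_cast
      show E.pi ^ m * E.pi ^ (-(m : ℤ)) = 1
      rw [zpow_neg, zpow_natCast]
      exact mul_inv_cancel₀ (pow_ne_zero _ E.pi_ne_zero)
    exact E.unif_irreducible.not_isUnit ((isUnit_pow_iff hm0).mp h3)
  · intro hk
    obtain ⟨m, rfl⟩ := Int.eq_ofNat_of_zero_le hk
    rw [zpow_natCast]
    exact E.ring.mul_mem (E.ring.pow_mem E.pi_mem _) (u : E.ring).2

open Classical in
/-- the valuation (with junk value `0` at `0`) -/
noncomputable def v (x : L) : ℤ := if hx : x ≠ 0 then Classical.choose (E.exists_eq_zpow x hx) else 0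

theorem exists_unit (x : L) (hx : x ≠ 0) : ∃ u : (E.ring)ˣ, x = E.pi ^ (E.v x) * (u : E.ring) := by
  have : E.v x = Classical.choose (E.exists_eq_zpow x hx) := by
    simp [v, hx]
  rw [this]
  exact Classical.choose_spec (E.exists_eq_zpow x hx)

theorem v_zpow_mul_unit (k : ℤ) (u : (E.ring)ˣ) : E.v (E.pi ^ k * (u : E.ring)) = k := by
  have h0 : E.pi ^ k * (u : E.ring) ≠ 0 :=
    mul_ne_zero (zpow_ne_zero _ E.pi_ne_zero) (E.coe_unit_ne_zero u)
  obtain ⟨w, hw⟩ := E.exists_unit _ h0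
  set l := E.v (E.pi ^ k * (u : E.ring)) with hl
  have hpi := E.pi_ne_zero
  have hu := E.coe_unit_ne_zero u
  have hw' := E.coe_unit_ne_zero w
  apply le_antisymm
  · have h1 : E.pi ^ (k - l) * ((u : E.ring) : L) ∈ E.ring := by
      have : E.pi ^ (k - l) * ((u : E.ring) : L) = (w : E.ring) := by
        rw [zpow_sub₀ hpi, div_mul_eq_mul_div, hw]
        field_simp
      rw [this]; exact (w : E.ring).2
    have := (E.zpow_mem_iff _ _).1 h1
    omega
  · have h1 : E.pi ^ (l - k) * ((w : E.ring) : L) ∈ E.ring := by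
      have : E.pi ^ (l - k) * ((w : E.ring) : L) = (u : E.ring) := by
        rw [zpow_sub₀ hpi, div_mul_eq_mul_div, ← hw]
        field_simp
      rw [this]; exact (u : E.ring).2
    have := (E.zpow_mem_iff _ _).1 h1
    omega

theorem v_mul {x y : L} (hx : x ≠ 0) (hy : y ≠ 0) : E.v (x * y) = E.v x + E.v y := by
  obtain ⟨u, hu⟩ := E.exists_unit x hx
  obtain ⟨w, hw⟩ := E.exists_unit y hy
  have : x * y = E.pi ^ (E.v x + E.v y) * ((u * w : (E.ring)ˣ) : E.ring) := by
    rw [zpow_add₀ E.pi_ne_zero]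
    conv_lhs => rw [hu, hw]
    push_cast
    ring
  rw [this, v_zpow_mul_unit]

theorem v_one : E.v 1 = 0 := by
  have := E.v_zpow_mul_unit 0 1
  simpa using this

theorem v_pi : E.v E.pi = 1 := by
  have := E.v_zpow_mul_unit 1 1
  simpa using this

theorem v_unit (u : (E.ring)ˣ) : E.v (u : E.ring) = 0 := by
  have := E.v_zpow_mul_unit 0 u
  simpa using this

theorem v_inv {x : L} (hx : x ≠ 0) : E.v x⁻¹ = - E.v x := by
  have := E.v_mul hx (inv_ne_zero hx)
  rw [mul_inv_cancel₀ hx, v_one] at this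
  omega

theorem v_div {x y : L} (hx : x ≠ 0) (hy : y ≠ 0) : E.v (x / y) = E.v x - E.v y := by
  rw [div_eq_mul_inv, E.v_mul hx (inv_ne_zero hy), E.v_inv hy]
  ring

theorem v_pow {x : L} (hx : x ≠ 0) (n : ℕ) : E.v (x ^ n) = n * E.v x := by
  induction n with
  | zero => simp [v_one]
  | succ n ih =>
    rw [pow_succ, E.v_mul (pow_ne_zero _ hx) hx, ih]
    push_cast; ring

theorem v_zpow {x : L} (hx : x ≠ 0) (n : ℤ) : E.v (x ^ n) = n * E.v x := by
  cases n with
  | ofNat n => simpa using E.v_pow hx n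
  | negSucc n =>
    rw [zpow_negSucc, E.v_inv (pow_ne_zero _ hx), E.v_pow hx, Int.negSucc_eq]
    push_cast
    ring

/-- `x` has valuation at least `k` -/
def ge (k : ℤ) (x : L) : Prop := x = 0 ∨ k ≤ E.v x

theorem ge_iff {k : ℤ} {x : L} (hx : x ≠ 0) : E.ge k x ↔ k ≤ E.v x := by
  simp [ge, hx]

theorem ge_zero (k : ℤ) : E.ge k 0 := Or.inl rfl

theorem mem_iff_ge {x : L} : x ∈ E.ring ↔ E.ge 0 x := by
  by_cases hx : x = 0
  · subst hx; simp [ge]
  · rw [E.ge_iff hx]
    obtain ⟨u, hu⟩ := E.exists_unit x hx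
    constructor
    · intro h
      rw [hu] at h
      exact (E.zpow_mem_iff _ _).1 h
    · intro h
      rw [hu]
      exact (E.zpow_mem_iff _ _).2 h

theorem ge_iff_mem {k : ℤ} {x : L} : E.ge k x ↔ E.pi ^ (-k) * x ∈ E.ring := by
  by_cases hx : x = 0
  · subst hx; simp [ge]
  · rw [E.ge_iff hx, E.mem_iff_ge, E.ge_iff (mul_ne_zero (zpow_ne_zero _ E.pi_ne_zero) hx),
      E.v_mul (zpow_ne_zero _ E.pi_ne_zero) hx, E.v_zpow E.pi_ne_zero, v_pi]
    constructor <;> intro h <;> linarith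

theorem ge_add {k : ℤ} {x y : L} (hx : E.ge k x) (hy : E.ge k y) : E.ge k (x + y) := by
  rw [ge_iff_mem] at *
  rw [mul_add]
  exact E.ring.add_mem hx hy

theorem ge_mul {k l : ℤ} {x y : L} (hx : E.ge k x) (hy : E.ge l y) : E.ge (k + l) (x * y) := by
  rcases hx with rfl | hx
  · simp [ge]
  rcases hy with rfl | hy
  · simp [ge]
  by_cases hx0 : x = 0
  · simp [ge, hx0]
  by_cases hy0 : y = 0
  · simp [ge, hy0]
  right
  rw [E.v_mul hx0 hy0]
  omega

theorem ge_mono {k l : ℤ} (hkl : k ≤ l) {x : L} (hx : E.ge l x) : E.ge k x := by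
  rcases hx with rfl | hx
  · exact E.ge_zero _
  · exact Or.inr (hkl.trans hx)

theorem ge_neg {k : ℤ} {x : L} (hx : E.ge k x) : E.ge k (-x) := by
  rw [ge_iff_mem] at *
  rw [mul_neg]
  exact E.ring.neg_mem hx

theorem ge_sum {ι : Type*} {k : ℤ} (s : Finset ι) (f : ι → L) (h : ∀ i ∈ s, E.ge k (f i)) :
    E.ge k (∑ i ∈ s, f i) := by
  classical
  induction s using Finset.induction_on with
  | empty => simpa using E.ge_zero k
  | insert a s ha ih =>
    rw [Finset.sum_insert ha]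
    exact E.ge_add (h a (by simp)) (ih fun i hi => h i (by simp [hi]))

theorem ge_pow {k : ℤ} {x : L} (hx : E.ge k x) (n : ℕ) : E.ge (n * k) (x ^ n) := by
  induction n with
  | zero => 
    right; simp [v_one]
  | succ n ih =>
    rw [pow_succ]
    have := E.ge_mul ih hx
    convert this using 1
    push_cast; ring

theorem mem_maximalIdeal_pow_iff (x : E.ring) (t : ℕ) :
    x ∈ IsLocalRing.maximalIdeal E.ring ^ t ↔ E.ge t (x : L) := by
  rw [(IsDiscreteValuationRing.irreducible_iff_uniformizer _).1 E.unif_irreducible,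
    Ideal.span_singleton_pow, Ideal.mem_span_singleton]
  rw [ge_iff_mem]
  have hpi := E.pi_ne_zero
  constructor
  · rintro ⟨y, rfl⟩
    have : E.pi ^ (-(t : ℤ)) * ((E.unif ^ t * y : E.ring) : L) = (y : L) := by
      push_cast
      show E.pi ^ (-(t : ℤ)) * (E.pi ^ t * (y : L)) = y
      rw [zpow_neg, zpow_natCast]
      field_simp
    rw [this]; exact y.2
  · intro h
    refine ⟨⟨_, h⟩, ?_⟩
    apply Subtype.ext
    push_cast
    show (x : L) = E.pi ^ t * (E.pi ^ (-(t : ℤ)) * x)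
    rw [zpow_neg, zpow_natCast]
    field_simp

theorem mem_maximalIdeal_iff (x : E.ring) :
    x ∈ IsLocalRing.maximalIdeal E.ring ↔ E.ge 1 (x : L) := by
  have := E.mem_maximalIdeal_pow_iff x 1
  simpa using this

theorem isUnit_iff_v (x : L) (hx : x ≠ 0) (hxm : x ∈ E.ring) :
    IsUnit (⟨x, hxm⟩ : E.ring) ↔ E.v x = 0 := by
  constructor
  · rintro ⟨u, hu⟩
    have := E.v_unit u
    rw [hu] at this
    exact this
  · intro h
    obtain ⟨u, hu⟩ := E.exists_unit x hx
    rw [h] at hu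
    simp at hu
    refine ⟨u, ?_⟩
    exact Subtype.ext hu.symm

variable {A : Type} [CommRing A] [Algebra A L] (h : E.IsOver A)

theorem mem_valuationIdeal (t : ℕ) (a : A) :
    a ∈ E.valuationIdeal h t ↔ E.ge t (algebraMap A L a) := by
  unfold valuationIdeal
  rw [Ideal.mem_comap, mem_maximalIdeal_pow_iff]
  rfl

theorem mem_center (a : A) : a ∈ E.center h ↔ E.ge 1 (algebraMap A L a) := by
  unfold center
  rw [Ideal.mem_comap, mem_maximalIdeal_iff]
  rfl

/-- constants are in the ring -/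
theorem const_mem (c : ℂ) : algebraMap ℂ L c ∈ E.ring := E.ring.algebraMap_mem c

theorem v_const (c : ℂ) (hc : c ≠ 0) : E.v (algebraMap ℂ L c) = 0 := by
  have h1 : algebraMap ℂ L c ≠ 0 := by simpa using hc
  have h2 := E.const_mem c
  have h3 := E.const_mem c⁻¹
  rw [mem_iff_ge, E.ge_iff h1] at h2
  rw [map_inv₀, mem_iff_ge, E.ge_iff (inv_ne_zero h1), E.v_inv h1] at h3
  omega

end PrimeDivisorOver

end Vale.Agent.P282
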